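import Crest.Agent.R217.Ind

/-! # Row 217: the twist is unipotent (Lemma A) -/

set_option autoImplicit false

namespace Crest.Agent.R217

open Matrix Complex

namespace LemA

/-! ### Evaluation of matrices of sequences -/

theorem evM_mul {ι κ μ : Type*} [Fintype κ] (j : ℕ) (A : Matrix ι κ Seq) (B : Matrix κ μ Seq) :
    evM j (A * B) = evM j A * evM j B :=
  Matrix.map_mul (f := Pi.evalRingHom (fun _ : ℕ => ℂ) j)

theorem evM_ct {ι κ : Type*} (j : ℕ) (A : Matrix ι κ Seq) : evM j Aᴴ = (evM j A)ᴴ := by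
  ext i k; rfl

theorem evM_one {ι : Type*} [DecidableEq ι] (j : ℕ) : evM j (1 : Matrix ι ι Seq) = 1 :=
  Matrix.map_one _ rfl rfl

theorem evM_herm {ι : Type*} (j : ℕ) {A : Matrix ι ι Seq} (h : A.IsHermitian) :
    (evM j A).IsHermitian := by
  unfold Matrix.IsHermitian
  rw [← evM_ct, h.eq]

theorem sig_evM_congr {ι : Type*} [Fintype ι] [DecidableEq ι] (j : ℕ) (A T T' : Matrix ι ι Seq)
    (h : T * T' = 1) : sig (evM j (Tᴴ * A * T)) = sig (evM j A) := by
  rw [evM_mul, evM_mul, evM_ct]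
  have h1 : evM j T * evM j T' = 1 := by rw [← evM_mul, h, evM_one]
  exact sig_congr _ _ (evM j T') h1 (mul_eq_one_comm.1 h1)

/-- hyperbolic forms have signature zero. -/
theorem sig_hyp {ι : Type*} [Fintype ι] (A : Matrix ι ι ℂ) (s : ι → Prop)
    (h : ∀ i j, (s i ↔ s j) → A i j = 0) : sig A = 0 := by
  classical
  let T : Matrix ι ι ℂ := diagonal fun i => if s i then 1 else -1
  have hT : T * T = 1 := by
    simp only [T, diagonal_mul_diagonal]
    rw [← diagonal_one]
    congr 1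
    ext i
    split_ifs <;> simp
  have h1 : Tᴴ * A * T = -A := by
    ext i j
    simp only [T, diagonal_conjTranspose, mul_diagonal, diagonal_mul, Matrix.neg_apply,
      Pi.star_apply]
    by_cases hi : s i <;> by_cases hj : s j
    · simp [h i j (by simp [hi, hj])]
    · simp [hi, hj]
    · simp [hi, hj]
    · simp [h i j (by simp [hi, hj])]
  have h2 := sig_congr A T T hT hT
  rw [h1, sig_neg] at h2
  omega

/-! ### Periodic sequences killed by a power of the difference operator -/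

def Δ (f : ℕ → ℤ) : ℕ → ℤ := fun j => f (j + 1) - f j

theorem const_of_iter {p : ℕ} (hp : 0 < p) : ∀ (n : ℕ) (f : ℕ → ℤ), (∀ j, f (j + p) = f j) →
    Δ^[n] f = 0 → ∀ j, f (j + 1) = f j := by
  intro n
  induction n with
  | zero => intro f _ h j; simp only [Function.iterate_zero, id] at h; simp [h]
  | succ n ih =>
    intro f hper h
    rw [Function.iterate_succ_apply] at h
    have h1 := ih (Δ f) (fun j => by
      simp only [Δ]
      rw [show j + p + 1 = (j + 1) + p by ring, hper, hper]) h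
    have h2 : ∀ j, Δ f j = Δ f 0 := by
      intro j
      induction j with
      | zero => rfl
      | succ j ihj => rw [h1, ihj]
    have h3 : ∀ j : ℕ, f j = f 0 + j * Δ f 0 := by
      intro j
      induction j with
      | zero => simp
      | succ j ihj =>
        have := h2 j
        simp only [Δ] at this ihj ⊢
        push_cast
        linarith
    have h4 : (p : ℤ) * Δ f 0 = 0 := by
      have := h3 p
      have h5 := hper 0
      rw [zero_add] at h5
      linarith
    have h5 : Δ f 0 = 0 := by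
      rcases mul_eq_zero.1 h4 with h6 | h6
      · exact absurd h6 (by exact_mod_cast hp.ne')
      · exact h6
    intro j
    have := h2 j
    simp only [Δ] at this h5
    linarith

/-! ### The algebra of one step -/

section Alg

variable {ι R : Type*} [Fintype ι] [DecidableEq ι] [CommRing R] [StarRing R]

/-- `P` and `T` combined: if `A' - A` is killed by `Y`, the form `A' ⊕ -A` is congruent to
`[[B' - Y - Yᴴ, 1], [1, A' - A]]`. -/
theorem congr_eq {A A' B' Y : Matrix ι ι R} (h' : HI A' B') (hA : A.IsHermitian)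
    (hY : (A' - A) * Y = 0) :
    (fromBlocks B' 1 0 1 * fromBlocks 1 0 (-Y) 1)ᴴ * fromBlocks A' 0 0 (-A) *
      (fromBlocks B' 1 0 1 * fromBlocks 1 0 (-Y) 1) = fromBlocks (B' - Y - Yᴴ) 1 1 (A' - A) := by
  have hY' : Yᴴ * (A' - A) = 0 := by
    have := congrArg conjTranspose hY
    rwa [conjTranspose_mul, conjTranspose_sub, h'.hA.eq, hA.eq, conjTranspose_zero] at this
  have h1 : (fromBlocks B' 1 0 1 : Matrix (ι ⊕ ι) (ι ⊕ ι) R)ᴴ * fromBlocks A' 0 0 (-A) *
      fromBlocks B' 1 0 1 = fromBlocks B' 1 1 (A' - A) := by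
    simp only [fromBlocks_conjTranspose, fromBlocks_multiply, h'.hB.eq, conjTranspose_one,
      conjTranspose_zero, Matrix.mul_zero, Matrix.zero_mul, Matrix.mul_one, Matrix.one_mul,
      add_zero, zero_add, h'.mul, h'.mul', sub_eq_add_neg]
  rw [conjTranspose_mul]
  calc _ = (fromBlocks 1 0 (-Y) 1 : Matrix (ι ⊕ ι) (ι ⊕ ι) R)ᴴ *
        ((fromBlocks B' 1 0 1 : Matrix (ι ⊕ ι) (ι ⊕ ι) R)ᴴ * fromBlocks A' 0 0 (-A) *
          fromBlocks B' 1 0 1) * fromBlocks 1 0 (-Y) 1 := by simp only [Matrix.mul_assoc]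
    _ = _ := by
      rw [h1]
      simp only [fromBlocks_conjTranspose, fromBlocks_multiply, conjTranspose_one,
        conjTranspose_zero, Matrix.mul_zero, Matrix.zero_mul, Matrix.mul_one, Matrix.one_mul,
        add_zero, zero_add, conjTranspose_neg, Matrix.neg_mul, Matrix.mul_neg, hY, hY', neg_zero]
      congr 1
      abel

theorem Q_inv {A' B' Y : Matrix ι ι R} (h' : HI A' B') :
    (fromBlocks B' 1 0 1 * fromBlocks 1 0 (-Y) 1 : Matrix (ι ⊕ ι) (ι ⊕ ι) R) *
      (fromBlocks 1 0 Y 1 * fromBlocks A' (-A') 0 1) = 1 := by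
  have h1 : (fromBlocks 1 0 (-Y) 1 : Matrix (ι ⊕ ι) (ι ⊕ ι) R) * fromBlocks 1 0 Y 1 = 1 := by
    simp [fromBlocks_multiply]
  have h2 : (fromBlocks B' 1 0 1 : Matrix (ι ⊕ ι) (ι ⊕ ι) R) * fromBlocks A' (-A') 0 1 = 1 := by
    simp [fromBlocks_multiply, h'.mul']
  calc _ = (fromBlocks B' 1 0 1 : Matrix (ι ⊕ ι) (ι ⊕ ι) R) *
      (fromBlocks 1 0 (-Y) 1 * fromBlocks 1 0 Y 1) * fromBlocks A' (-A') 0 1 := by
        simp only [Matrix.mul_assoc]
    _ = 1 := by rw [h1, Matrix.mul_one, h2]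

theorem HI_congr {A B Q Q' : Matrix ι ι R} (h : HI A B) (hQ : Q * Q' = 1) :
    HI (Qᴴ * A * Q) (Q' * B * Q'ᴴ) where
  hA := by
    unfold Matrix.IsHermitian
    simp only [conjTranspose_mul, conjTranspose_conjTranspose, h.hA.eq, Matrix.mul_assoc]
  hB := by
    unfold Matrix.IsHermitian
    simp only [conjTranspose_mul, conjTranspose_conjTranspose, h.hB.eq, Matrix.mul_assoc]
  mul := by
    have hQ' : Q' * Q = 1 := mul_eq_one_comm.1 hQ
    calc _ = Qᴴ * (A * (Q * Q') * B) * Q'ᴴ := by simp only [Matrix.mul_assoc]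
      _ = (Q' * Q)ᴴ := by rw [hQ, Matrix.mul_one, h.mul, Matrix.mul_one, conjTranspose_mul]
      _ = 1 := by rw [hQ', conjTranspose_one]

theorem HI_blocks {κ : Type*} [Fintype κ] [DecidableEq κ] {A B : Matrix ι ι R}
    {A' B' : Matrix κ κ R} (h : HI A B) (h' : HI A' B') :
    HI (fromBlocks A 0 0 A') (fromBlocks B 0 0 B') where
  hA := by
    unfold Matrix.IsHermitian
    simp [fromBlocks_conjTranspose, h.hA.eq, h'.hA.eq]
  hB := by
    unfold Matrix.IsHermitian
    simp [fromBlocks_conjTranspose, h.hB.eq, h'.hB.eq]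
  mul := by simp [fromBlocks_multiply, h.mul, h'.mul]

end Alg

/-! ### The shift -/

/-- The shift of sequences. -/
def shR : Seq →+* Seq where
  toFun f := fun j => f (j + 1)
  map_one' := rfl
  map_mul' _ _ := rfl
  map_zero' := rfl
  map_add' _ _ := rfl

theorem HI_sh {ι : Type*} [Fintype ι] [DecidableEq ι] {A B : Matrix ι ι Seq} (h : HI A B) :
    HI (A.map shR) (B.map shR) where
  hA := by
    unfold Matrix.IsHermitian
    conv_rhs => rw [← h.hA.eq]
    ext i k; rfl
  hB := by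
    unfold Matrix.IsHermitian
    conv_rhs => rw [← h.hB.eq]
    ext i k; rfl
  mul := by
    rw [← Matrix.map_mul, h.mul]
    exact Matrix.map_one _ rfl rfl

theorem star_mul_self_of_norm {z : ℂ} (h : ‖z‖ = 1) : star z * z = 1 := by
  rw [Complex.star_def, ← Complex.normSq_eq_conj_mul_self, Complex.normSq_eq_norm_sq, h]; simp

/-- One step: kill the points in `U m`. -/
theorem step {X : Type*} {c : Ctl Seq X} {Nc Rmax : ℕ} (cv : Cover c Nc Rmax) (m : Fin Nc)
    {ι : Type} [Fintype ι] [DecidableEq ι] {b : ι → X} {r : ℕ} {A B : Matrix ι ι Seq} (h : HI A B)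
    (cA : c.M b b r A) (cB : c.M b b r B) (hr : r ≤ Rmax) :
    ∃ (κ : Type) (_ : Fintype κ) (_ : DecidableEq κ) (b' : κ → X) (A₁ B₁ : Matrix κ κ Seq),
      HI A₁ B₁ ∧ c.M b' b' (5 * r) A₁ ∧ c.M b' b' (5 * r) B₁ ∧
      (∀ k, ¬ cv.U m (b' k) ∧ ∃ i, b' k = b i) ∧
      (fun j => sig (evM j A₁)) = Δ fun j => sig (evM j A) := by
  classical
  -- the unitary
  set g : Matrix ι ι Seq := dg Seq (fun i => cv.u m (b i)) with hg
  have hgg : g * gᴴ = 1 := by
    simp only [hg, dg, diagonal_conjTranspose, diagonal_mul_diagonal]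
    rw [← diagonal_one]
    congr 1
    ext i j
    have := star_mul_self_of_norm (cv.u_norm m (b i))
    simp only [Pi.mul_apply, Pi.star_apply, Pi.algebraMap_apply, Algebra.algebraMap_self,
      RingHom.id_apply, Pi.one_apply]
    rw [mul_comm]; exact this
  set A' := gᴴ * A.map shR * g with hA'
  set B' := gᴴ * B.map shR * g with hB'
  have h' : HI A' B' := by
    have := HI_congr (HI_sh h) (Q := g) (Q' := gᴴ) hgg
    rwa [conjTranspose_conjTranspose] at this
  have cg : c.M b b 0 g := Ctl.M.dg _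
  have csh : ∀ {C : Matrix ι ι Seq}, c.M b b r C → c.M b b r (gᴴ * C.map shR * g) := by
    intro C hC
    have h1 : c.M b b r (C.map shR) := fun i k => cv.sh_mem (hC i k)
    exact (cg.conjTranspose.mul' h1 (by simp)).mul' cg (le_refl _)
  have cA' : c.M b b r A' := csh cA
  have cB' : c.M b b r B' := csh cB
  -- the twist is trivial over `U m`
  have hD : ∀ i k, cv.U m (b k) → (A' - A) i k = 0 := by
    intro i k hk
    funext j
    have h1 := cv.tw hk hr (cA i k) j
    have h2 := star_mul_self_of_norm (cv.u_norm m (b i))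
    have h3 := star_mul_self_of_norm (cv.u_norm m (b k))
    simp only [hA', hg, dg, diagonal_conjTranspose, Matrix.sub_apply, mul_diagonal, diagonal_mul,
      Pi.sub_apply, Pi.mul_apply, Pi.star_apply, Pi.algebraMap_apply, Algebra.algebraMap_self,
      RingHom.id_apply, map_apply, Pi.zero_apply]
    change star (cv.u m (b i)) * A i k (j + 1) * cv.u m (b k) - A i k j = 0
    rw [h1]
    linear_combination (A i k j * (star (cv.u m (b k)) * cv.u m (b k))) * h2 + A i k j * h3
  have hDh : (A' - A).IsHermitian := h'.hA.sub h.hA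
  have hD' : ∀ i k, cv.U m (b i) → (A' - A) i k = 0 := by
    intro i k hi
    rw [← hDh.apply, hD k i hi, star_zero]
  -- the correction `Y`
  let Y : Matrix ι ι Seq := fun i k =>
    if cv.U m (b i) then (if cv.U m (b k) then (1 / 2 : ℂ) • B' i k else B' i k) else 0
  have cY : c.M b b r Y := by
    intro i k
    simp only [Y]
    split_ifs
    · exact Submodule.smul_mem _ _ (cB' i k)
    · exact cB' i k
    · exact Submodule.zero_mem _
  have hY : (A' - A) * Y = 0 := by
    refine Matrix.ext fun i k => ?_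
    rw [Matrix.mul_apply, Matrix.zero_apply]
    refine Finset.sum_eq_zero fun l _ => ?_
    by_cases hl : cv.U m (b l)
    · rw [hD i l hl, zero_mul]
    · simp [Y, hl]
  have hYY : ∀ i k, cv.U m (b i) → (B' - Y - Yᴴ) i k = 0 := by
    intro i k hi
    simp only [Matrix.sub_apply, conjTranspose_apply, Y, hi, if_true]
    split_ifs
    · rw [star_smul, h'.hB.apply]
      funext j
      simp only [Pi.sub_apply, Pi.smul_apply, smul_eq_mul, Pi.zero_apply]
      simp only [star_div₀, star_one, star_ofNat]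
      ring
    · simp
  set Q : Matrix (ι ⊕ ι) (ι ⊕ ι) Seq := fromBlocks B' 1 0 1 * fromBlocks 1 0 (-Y) 1 with hQ
  set Q' : Matrix (ι ⊕ ι) (ι ⊕ ι) Seq := fromBlocks 1 0 Y 1 * fromBlocks A' (-A') 0 1 with hQ'
  have hQQ : Q * Q' = 1 := Q_inv h'
  have hM : Qᴴ * fromBlocks A' 0 0 (-A) * Q = fromBlocks (B' - Y - Yᴴ) 1 1 (A' - A) :=
    congr_eq h' h.hA hY
  set M : Matrix (ι ⊕ ι) (ι ⊕ ι) Seq := fromBlocks (B' - Y - Yᴴ) 1 1 (A' - A) with hMdef
  set N : Matrix (ι ⊕ ι) (ι ⊕ ι) Seq := Q' * fromBlocks B' 0 0 (-B) * Q'ᴴ with hN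
  have hMN : HI M N := by
    have := HI_congr (HI_blocks h' h.neg) hQQ
    rwa [hM] at this
  have cM : c.M (Sum.elim b b) (Sum.elim b b) (5 * r) M :=
    (Ctl.M.fromBlocks ((cB'.sub cY).sub cY.conjTranspose) Ctl.M.one Ctl.M.one
      (cA'.sub cA)).of_le (by omega)
  have cQ' : c.M (Sum.elim b b) (Sum.elim b b) (r + r) Q' :=
    (Ctl.M.fromBlocks Ctl.M.one Ctl.M.zero cY Ctl.M.one).mul
      (Ctl.M.fromBlocks cA' cA'.neg Ctl.M.zero Ctl.M.one)
  have cN : c.M (Sum.elim b b) (Sum.elim b b) (5 * r) N :=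
    (cQ'.mul (Ctl.M.fromBlocks cB' Ctl.M.zero Ctl.M.zero cB.neg)).mul' cQ'.conjTranspose
      (by omega)
  let p : ι ⊕ ι → Prop := fun i => cv.U m (Sum.elim b b i)
  have hp : ∀ i k, p i → ¬ p k → M i k = 0 := by
    rintro (i | i) (k | k) hi hk
    · exact hYY i k hi
    · have : i ≠ k := by rintro rfl; exact hk hi
      exact one_apply_ne this
    · have : i ≠ k := by rintro rfl; exact hk hi
      exact one_apply_ne this
    · exact hD' i k hi
  have hp' : ∀ i k, ¬ p i → ¬ ¬ p k → M i k = 0 := by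
    intro i k hi hk
    rw [← hMN.hA.apply, hp k i (not_not.1 hk) hi, star_zero]
  refine ⟨{i // ¬ p i}, inferInstance, inferInstance, Sum.elim b b ∘ Subtype.val,
    cpr (fun i => ¬ p i) M, cpr (fun i => ¬ p i) N, hMN.cpr _ hp', cM.submatrix _ _,
    cN.submatrix _ _, ?_, ?_⟩
  · rintro ⟨k | k, hk⟩
    · exact ⟨hk, k, rfl⟩
    · exact ⟨hk, k, rfl⟩
  · funext j
    have h1 : sig (evM j M) = sig (evM (j + 1) A) - sig (evM j A) := by
      rw [← hM, sig_evM_congr j _ Q Q' hQQ]
      have h2 : evM j (fromBlocks A' 0 0 (-A)) = fromBlocks (evM j A') 0 0 (-evM j A) := by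
        ext (i | i) (k | k) <;> rfl
      rw [h2, sig_fromBlocks (evM_herm j h'.hA) (evM_herm j h.hA).neg, sig_neg, hA',
        sig_evM_congr j _ g gᴴ hgg]
      rfl
    have h2 := sig_split (evM_herm j hMN.hA) p (fun i k hi hk => by
      simp only [map_apply, hp i k hi hk, Pi.zero_apply])
    have h3 : sigOn p (evM j M) = 0 := by
      rw [sigOn_eq]
      refine sig_hyp _ (fun i => i.1.isLeft) ?_
      rintro ⟨i | i, hi⟩ ⟨k | k, hk⟩ hik
      · change (B' - Y - Yᴴ) i k j = 0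
        rw [hYY i k hi]; rfl
      · simp at hik
      · simp at hik
      · change (A' - A) i k j = 0
        rw [hD' i k hi]; rfl
    rw [h3, zero_add, sigOn_eq] at h2
    simp only [Δ]
    rw [← h1, h2]
    rfl

theorem iter {X : Type*} {c : Ctl Seq X} {Nc Rmax : ℕ} (cv : Cover c Nc Rmax)
    (ms : List (Fin Nc)) : ∀ {ι : Type} [Fintype ι] [DecidableEq ι] {b : ι → X} {r : ℕ}
    {A B : Matrix ι ι Seq}, HI A B → c.M b b r A → c.M b b r B → 5 ^ ms.length * r ≤ Rmax →
    (∀ i, ∃ m ∈ ms, cv.U m (b i)) → Δ^[ms.length] (fun j => sig (evM j A)) = 0 := by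
  induction ms with
  | nil =>
    intro ι _ _ b r A B _ _ _ _ hcov
    have : IsEmpty ι := ⟨fun i => by simpa using hcov i⟩
    funext j
    simp [sig_of_isEmpty]
  | cons m ms ih =>
    intro ι _ _ b r A B h cA cB hr hcov
    have hr1 : r ≤ Rmax := le_trans (Nat.le_mul_of_pos_left _ (by positivity)) hr
    obtain ⟨κ, _, _, b', A₁, B₁, h₁, c₁, c₂, hU, hs⟩ := step cv m h cA cB hr1
    rw [List.length_cons, Function.iterate_succ_apply, ← hs]
    refine ih h₁ c₁ c₂ ?_ ?_
    · rw [List.length_cons, pow_succ, mul_assoc] at hr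
      exact hr
    · intro k
      obtain ⟨hk, i, hi⟩ := hU k
      obtain ⟨m', hm', hU'⟩ := hcov i
      rw [← hi] at hU'
      rcases List.mem_cons.1 hm' with rfl | hm'
      · exact absurd hU' hk
      · exact ⟨m', hm', hU'⟩

end LemA

theorem lemmaA {X : Type*} {c : Ctl Seq X} {Nc Rmax : ℕ} (cv : Cover c Nc Rmax)
    {ι : Type} [Fintype ι] [DecidableEq ι] {b : ι → X} {r : ℕ} {A B : Matrix ι ι Seq} (h : HI A B)
    (cA : c.M b b r A) (cB : c.M b b r B) (hr : 5 ^ Nc * r ≤ Rmax)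
    (hcov : ∀ i, ∃ m, cv.U m (b i)) : sig (evM 1 A) = sig (evM 0 A) := by
  have h1 := LemA.iter cv (List.finRange Nc) h cA cB (by simpa using hr)
    (fun i => (hcov i).imp fun m hm => ⟨List.mem_finRange m, hm⟩)
  refine LemA.const_of_iter cv.p_pos _ (fun j => sig (evM j A)) (fun j => ?_) h1 0
  congr 1
  ext i k
  exact cv.per (cA i k) j

namespace LemA

theorem base {X : Type*} {c : Ctl Seq X} {Nc Rmax : ℕ} (cv : Cover c Nc Rmax)
    {K : X → Prop} {r Rr : ℕ} (hr : r ≤ Rr) (hr' : 5 ^ Nc * r ≤ Rmax)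
    {ι : Type} [Fintype ι] [DecidableEq ι] (b : ι → X) {A B : Matrix ι ι Seq} (h : HI A B)
    (cA : c.M b b r A) (cB : c.M b b r B)
    (adm : ∀ x, (∀ y, c.rel x y Rr → (K x ↔ K y)) ∨ Loc b x A)
    (cov : ∀ x, K x → (∃ m, cv.U m x) ∨ Loc b x A) :
    sigOn (fun i => K (b i)) (evM 1 A) = sigOn (fun i => K (b i)) (evM 0 A) := by
  classical
  have hK : ∀ i k, K (b i) → ¬ K (b k) → A i k = 0 := by
    intro i k hi hk
    rcases adm (b i) with h1 | h1
    · by_contra hne
      exact hk ((h1 _ (c.rel_mono hr (cA.rel hne))).1 hi)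
    · rw [← h.hA.apply, (h1 i k rfl).1 (fun he => hk (he ▸ hi)), star_zero]
  have hK' := h.cpr (fun i => K (b i)) hK
  rw [sigOn_eq, sigOn_eq]
  set AK := cpr (fun i => K (b i)) A with hAK
  set BK := cpr (fun i => K (b i)) B with hBK
  let p : {i // K (b i)} → Prop := fun i => Loc b (b i.1) A
  have hp : ∀ i k, p i → ¬ p k → AK i k = 0 := by
    intro i k hi hk
    have hne : b k.1 ≠ b i.1 := fun he => hk (by simp only [p]; rw [he]; exact hi)
    change A i.1 k.1 = 0
    rw [← h.hA.apply, (hi i.1 k.1 rfl).1 hne, star_zero]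
  have hp' : ∀ i k, ¬ p i → ¬ ¬ p k → AK i k = 0 := by
    intro i k hi hk
    rw [← hK'.hA.apply, hp k i (not_not.1 hk) hi, star_zero]
  have hs : ∀ j, sig (cpr (fun i => K (b i)) (evM j A)) =
      sig (cpr p (evM j AK)) + sig (evM j (cpr (fun i => ¬ p i) AK)) := by
    intro j
    have := sig_split (evM_herm j hK'.hA) p (fun i k hi hk => by
      simp only [map_apply, hp i k hi hk, Pi.zero_apply])
    rw [sigOn_eq, sigOn_eq] at this
    exact this
  rw [hs, hs]
  congr 1
  · congr 1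
    ext i k
    obtain ⟨z, hz⟩ := (k.2 k.1.1 i.1.1 rfl).2
    change A i.1.1 k.1.1 1 = A i.1.1 k.1.1 0
    rw [hz]; rfl
  · refine lemmaA cv (b := (b ∘ Subtype.val) ∘ Subtype.val) (hK'.cpr _ hp')
      ((cA.submatrix _ _).submatrix _ _) ((cB.submatrix _ _).submatrix _ _) hr' fun i => ?_
    exact (cov _ i.1.2).resolve_right i.2

theorem fine_aux {X : Type*} {c : Ctl Seq X} {Nc Rmax : ℕ} (cv : Cover c Nc Rmax)
    {K : X → Prop} {Rr : ℕ} (L : List (Cut X)) : (∀ q ∈ L, ∀ x, ‖q.2 x‖ = 1) →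
    ∀ {r : ℕ} {ι : Type} [Fintype ι] [DecidableEq ι] (b : ι → X) {A B : Matrix ι ι Seq},
      12 ^ L.length * r ≤ Rr → 5 ^ Nc * (12 ^ L.length * r) ≤ Rmax → HI A B →
      c.M b b r A → c.M b b r B →
      (∀ x, (∀ y, c.rel x y Rr → (K x ↔ K y)) ∨ (∃ q ∈ L, Cst c.toCRel Rr x q) ∨
        (Loc b x A ∧ Loc b x B)) →
      (∀ x, K x → (∃ m, cv.U m x) ∨ (∃ q ∈ L, Cst c.toCRel Rr x q) ∨ (Loc b x A ∧ Loc b x B)) →
      Ind K L b (evM 1 A) (evM 1 B) = Ind K L b (evM 0 A) (evM 0 B) := by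
  induction L with
  | nil =>
    intro _ r ι _ _ b A B hr hr' h cA cB adm cov
    simp only [List.length_nil, pow_zero, one_mul] at hr hr'
    simp only [Ind]
    refine base cv hr hr' b h cA cB (fun x => ?_) (fun x hx => ?_)
    · rcases adm x with h1 | ⟨q, hq, _⟩ | h1
      · exact Or.inl h1
      · simp at hq
      · exact Or.inr h1.1
    · rcases cov x hx with h1 | ⟨q, hq, _⟩ | h1
      · exact Or.inl h1
      · simp at hq
      · exact Or.inr h1.1
  | cons q L ih =>
    intro unit r ι _ _ b A B hr hr' h cA cB adm cov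
    rw [List.length_cons, pow_succ, mul_assoc] at hr hr'
    have hr12 : 12 * r ≤ Rr := le_trans (Nat.le_mul_of_pos_left _ (by positivity)) hr
    simp only [Ind]
    rw [← evM_cutA, ← evM_cutA, ← evM_cutB, ← evM_cutB]
    have key : ∀ x, (∃ q' ∈ q :: L, Cst c.toCRel Rr x q') ∨ (Loc b x A ∧ Loc b x B) →
        (∃ q' ∈ L, Cst c.toCRel Rr x q') ∨
          (Loc (Sum.elim b b) x (cutA (q.1 ∘ b) (q.2 ∘ b) A B) ∧
            Loc (Sum.elim b b) x (cutB (q.1 ∘ b) (q.2 ∘ b) A B)) := by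
      rintro x (⟨q', hq', hc⟩ | h1)
      · rcases List.mem_cons.1 hq' with rfl | hq'
        · exact Or.inr (hc.loc_cut hr12 h cA.plain cB.plain)
        · exact Or.inl ⟨q', hq', hc⟩
      · exact Or.inr (Loc.cut h h1.1 h1.2 _ _)
    refine ih (fun q' hq' => unit q' (List.mem_cons_of_mem _ hq')) (r := 12 * r) (Sum.elim b b)
      hr hr' (HI_cut _ (fun i => unit q List.mem_cons_self _) A B) (cA.cutA cB _ _)
      (cA.cutB cB _ _) (fun x => (adm x).imp id (key x)) (fun x hx => (cov x hx).imp id (key x))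

end LemA

theorem Ind_fine {X : Type*} {c : Ctl Seq X} {Nc Rmax : ℕ} (cv : Cover c Nc Rmax)
    {K : X → Prop} {L : List (Cut X)} {r Rr : ℕ} (geo : Geo c.toCRel K L Rr)
    (cov : ∀ x, K x → (∃ m, cv.U m x) ∨ ∃ q ∈ L, Cst c.toCRel Rr x q)
    (hr : 12 ^ L.length * r ≤ Rr) (hr' : 5 ^ Nc * (12 ^ L.length * r) ≤ Rmax)
    {ι : Type} [Fintype ι] [DecidableEq ι] (b : ι → X) {A B : Matrix ι ι Seq} (h : HI A B)
    (cA : c.M b b r A) (cB : c.M b b r B) :
    Ind K L b (evM 1 A) (evM 1 B) = Ind K L b (evM 0 A) (evM 0 B) :=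
  LemA.fine_aux cv L geo.unit b hr hr' h cA cB (fun x => (geo.adm x).imp id Or.inl)
    (fun x hx => (cov x hx).imp id Or.inl)

end Crest.Agent.R217
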