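import Crest.Agent.R217.Dat
import Crest.Agent.R217.LemmaA

/-! # Row 217: the algebraic core -/

set_option autoImplicit false

namespace Crest.Agent.R217

open Matrix Complex

section ev

variable {ι : Type*} [Fintype ι] [DecidableEq ι]

omit [Fintype ι] [DecidableEq ι] in
theorem evM_cstM (j : ℕ) (A : Matrix ι ι ℂ) : evM j (cstM A) = A := by
  ext i k; simp

omit [DecidableEq ι] in
theorem evM_mul (j : ℕ) (A B : Matrix ι ι Seq) : evM j (A * B) = evM j A * evM j B := by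
  ext i k; simp [Matrix.mul_apply]

omit [Fintype ι] [DecidableEq ι] in
theorem evM_conjTranspose (j : ℕ) (A : Matrix ι ι Seq) : evM j Aᴴ = (evM j A)ᴴ := by
  ext i k; simp

omit [Fintype ι] [DecidableEq ι] in
theorem evM_add (j : ℕ) (A B : Matrix ι ι Seq) : evM j (A + B) = evM j A + evM j B := by
  ext i k; simp

omit [Fintype ι] [DecidableEq ι] in
theorem evM_sub (j : ℕ) (A B : Matrix ι ι Seq) : evM j (A - B) = evM j A - evM j B := by
  ext i k; simp

omit [DecidableEq ι] in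
theorem cstM_mul (A B : Matrix ι ι ℂ) : cstM (A * B) = cstM A * cstM B := by
  ext i k j; simp [Matrix.mul_apply]

omit [Fintype ι] [DecidableEq ι] in
theorem cstM_conjTranspose (A : Matrix ι ι ℂ) : cstM Aᴴ = (cstM A)ᴴ := by
  ext i k j; simp

omit [Fintype ι] [DecidableEq ι] in
theorem cstM_add (A B : Matrix ι ι ℂ) : cstM (A + B) = cstM A + cstM B := by
  ext i k j; simp

omit [Fintype ι] [DecidableEq ι] in
theorem cstM_zero : cstM (0 : Matrix ι ι ℂ) = 0 := by
  ext i k j; simp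

omit [Fintype ι] in
theorem cstM_one : cstM (1 : Matrix ι ι ℂ) = 1 := by
  ext i k j
  by_cases h : i = k <;> simp [Matrix.one_apply, h]

theorem HI.cstM {A B : Matrix ι ι ℂ} (h : HI A B) : HI (cstM A) (cstM B) where
  hA := by rw [IsHermitian, ← cstM_conjTranspose, h.hA]
  hB := by rw [IsHermitian, ← cstM_conjTranspose, h.hB]
  mul := by rw [← cstM_mul, h.mul, cstM_one]

omit [DecidableEq ι] in
theorem exotic_eq {d S K : Matrix ι ι ℂ} (anti : d * S + S * dᴴ = 0) :
    (d * K + K * d) * S + S * (d * K + K * d)ᴴ =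
      d * (K * S - S * Kᴴ) - (K * S - S * Kᴴ) * dᴴ := by
  have h1 : d * S = -(S * dᴴ) := eq_neg_of_add_eq_zero_left anti
  have h2 : S * dᴴ = -(d * S) := eq_neg_of_add_eq_zero_right anti
  have h3 : K * d * S = -(K * S * dᴴ) := by rw [Matrix.mul_assoc, h1, Matrix.mul_neg, Matrix.mul_assoc]
  have h4 : S * (dᴴ * Kᴴ) = -(d * (S * Kᴴ)) := by
    rw [← Matrix.mul_assoc, h2, Matrix.neg_mul, Matrix.mul_assoc]
  rw [conjTranspose_add, conjTranspose_mul, conjTranspose_mul, Matrix.add_mul, Matrix.mul_add, h3,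
    h4, Matrix.mul_sub, Matrix.sub_mul]
  simp only [Matrix.mul_assoc]
  abel

end ev

theorem alg_core {X : Type*} {ι : Type} [Fintype ι] [DecidableEq ι] {c : Ctl Seq X} {ρ₀ : CRel X}
    (hle : ∀ x y r, c.rel x y r → ρ₀.rel x y r) {Nc Rmax : ℕ} (cv : Cover c Nc Rmax) {b : ι → X}
    {d S S' : Matrix ι ι ℂ} (O : Ops c ρ₀ b d S S') (dd : d * d = 0) (hS : HI S S')
    (anti : d * S + S * dᴴ = 0) {K : X → Prop} {L : List (Cut X)} {Rr : ℕ} (geo : Geo ρ₀ K L Rr)
    (cov : ∀ x, K x → (∃ m, cv.U m x) ∨ ∃ q ∈ L, Cst c.toCRel Rr x q)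
    (hr : 12 ^ L.length * 80 ≤ Rr) (hr' : 5 ^ Nc * (12 ^ L.length * 24) ≤ Rmax) :
    Ind K L b S S' = 0 := by
  have dd' : cstM d * cstM d = 0 := by rw [← cstM_mul, dd, cstM_zero]
  have anti' : cstM d * cstM S + cstM S * (cstM d)ᴴ = 0 := by
    rw [← cstM_conjTranspose, ← cstM_mul, ← cstM_mul, ← cstM_add, anti, cstM_zero]
  obtain ⟨Γ, hD, cΓ⟩ := exists_dat (c := c) (b := b) dd' hS.cstM anti' O.comm O.symm O.idem O.cd
    O.cS O.cS' O.ce O.cL O.cM
  set Se := O.e * cstM S + cstM S * O.eᴴ - cstM S with hSe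
  have cSe : c.M b b 8 Se :=
    ((O.ce.mul' O.cS (by norm_num)).add (O.cS.mul' O.ce.conjTranspose (by norm_num))).sub
      (O.cS.of_le (by norm_num))
  have cd8 : c.M b b 8 (cstM d) := O.cd.of_le (by norm_num)
  have hfine := Ind_fine cv (geo.of_le fun x y => hle x y Rr) cov (r := 3 * 8) (by omega) hr'
    (Sum.elim b b) hD.hi (cd8.datA cSe cΓ) (cd8.datB cSe cΓ)
  simp only [evM_datA, evM_datB, evM_cstM] at hfine
  have pd : (ρ₀.plain ℂ).M b b 1 d := by
    have := O.cd.map_plain (R' := ℂ) hle (fun f => f 0) rfl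
    rwa [show (cstM d).map (fun f => f 0) = d from evM_cstM 0 d] at this
  have pS : (ρ₀.plain ℂ).M b b 1 S := by
    have := O.cS.map_plain (R' := ℂ) hle (fun f => f 0) rfl
    rwa [show (cstM S).map (fun f => f 0) = S from evM_cstM 0 S] at this
  have pS' : (ρ₀.plain ℂ).M b b 1 S' := by
    have := O.cS'.map_plain (R' := ℂ) hle (fun f => f 0) rfl
    rwa [show (cstM S').map (fun f => f 0) = S' from evM_cstM 0 S'] at this
  have key : ∀ (j : ℕ) (s : ℤ) (Kj : Matrix ι ι ℂ), (s = 1 ∨ s = -1) →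
      (ρ₀.plain ℂ).M b b 1 Kj →
      evM j Se = (s : ℂ) • S + (d * (Kj * S - S * Kjᴴ) - (Kj * S - S * Kjᴴ) * dᴴ) →
      Ind K L (Sum.elim b b) (datA d (evM j Se) (evM j Γ)) (datB d (evM j Se) (evM j Γ)) =
        s * (2 * Ind K L b S S') := by
    intro j s Kj hs cK hj
    have hDj := hD.evM j
    rw [evM_cstM] at hDj
    refine Ind_dat geo (r := 8) (by omega) b s hs hS anti ?_ hj hDj (pd.of_le (by norm_num))
      (pS.of_le (by norm_num)) (pS'.of_le (by norm_num))
      ((cK.mul' pS (by norm_num)).sub (pS.mul' cK.conjTranspose (by norm_num)))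
      (cΓ.map_plain (R' := ℂ) hle (fun f => f j) rfl)
    rw [conjTranspose_sub, conjTranspose_mul, conjTranspose_mul, conjTranspose_conjTranspose,
      hS.hA.eq, neg_sub]
  have hev : ∀ j, evM j Se = evM j O.e * S + S * (evM j O.e)ᴴ - S := fun j => by
    rw [hSe, evM_sub, evM_add, evM_mul, evM_mul, evM_conjTranspose, evM_cstM]
  have h0 := key 0 1 O.K0 (Or.inl rfl) O.cK0 (by
    rw [hev, O.e0, ← exotic_eq anti, conjTranspose_add, conjTranspose_one, Matrix.add_mul,
      Matrix.mul_add, Matrix.one_mul, Matrix.mul_one, Int.cast_one, one_smul]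
    abel)
  have h1 := key 1 (-1) O.K1 (Or.inr rfl) O.cK1 (by
    rw [hev, O.e1, ← exotic_eq anti, Int.cast_neg, Int.cast_one, neg_smul, one_smul]
    abel)
  rw [h0, h1] at hfine
  omega

end Crest.Agent.R217
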