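import Crest.Agent.R217.GYDefs

/-! # Row 217: characters separate the points of a compact abelian group -/

set_option autoImplicit false

namespace Crest.Agent.R217

open Topology Filter Set

section

open MeasureTheory

variable {A : Type*} [CommGroup A] [TopologicalSpace A]

/-- Gelfand theory in the bicommutant of a unitary representation. -/
theorem exists_char_of_cstar {𝓑 : Type*} [CStarAlgebra 𝓑] (U : A →* 𝓑)
    (hs : ∀ a, star (U a) = U a⁻¹) (T : 𝓑) (hT : ∀ S, (∀ a, U a * S = S * U a) → S * T = T * S)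
    (hc : Continuous fun a => U a * T) {g : A} (hg : U g * T ≠ T) :
    ∃ χ : A →* Circle, Continuous χ ∧ χ g ≠ 1 := by
  have hu : range U ∪ star (range U) = range U := by
    refine union_eq_left.2 fun x ⟨a, ha⟩ => ⟨a⁻¹, ?_⟩
    rw [← hs, ha, star_star]
  set B := StarSubalgebra.centralizer ℂ (StarSubalgebra.centralizer ℂ (range U) : Set 𝓑)
  have hB : (B : Set 𝓑) = (range U).centralizer.centralizer := by
    rw [StarSubalgebra.coe_centralizer_centralizer, hu]
  have hcl : IsClosed (B : Set 𝓑) := hB ▸ Set.isClosed_centralizer _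
  have hUB : ∀ a, U a ∈ B := fun a => by
    rw [← SetLike.mem_coe, hB]
    exact subset_centralizer_centralizer ⟨a, rfl⟩
  have hTB : T ∈ B := by
    rw [← SetLike.mem_coe, hB]
    exact fun S hS => hT S fun a => hS _ ⟨a, rfl⟩
  let : CommCStarAlgebra B :=
    { StarSubalgebra.cstarAlgebra B with
      mul_comm := fun x y => Subtype.ext (centralizer_centralizer_comm_of_comm (S := range U)
        (by rintro _ ⟨a, rfl⟩ _ ⟨b, rfl⟩; rw [← map_mul, ← map_mul, mul_comm]) _ (hB ▸ x.2) _
        (hB ▸ y.2)) }
  let V : A →* B := U.codRestrict B hUB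
  obtain ⟨ω, hω⟩ : ∃ ω : WeakDual.characterSpace ℂ B, ω (V g * ⟨T, hTB⟩) ≠ ω ⟨T, hTB⟩ := by
    by_contra h
    push Not at h
    exact hg (congrArg Subtype.val ((gelfandTransform_isometry B).injective
      (ContinuousMap.ext h)))
  have h0 : ω ⟨T, hTB⟩ ≠ 0 := fun h => hω (by rw [map_mul, h, mul_zero])
  have h1 : ∀ a, ‖ω (V a)‖ = 1 := fun a => by
    have h2 : star (V a) * V a = 1 := Subtype.ext (by
      change star (U a) * U a = 1
      rw [hs, ← map_mul, inv_mul_cancel, map_one])
    have h3 := congrArg (fun x => ‖ω x‖) h2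
    simp only [map_mul, map_star, norm_mul, norm_star, map_one, norm_one] at h3
    nlinarith [norm_nonneg (ω (V a))]
  refine ⟨⟨⟨fun a => ⟨ω (V a), mem_sphere_zero_iff_norm.2 (h1 a)⟩, Circle.ext (by simp)⟩,
    fun a b => Circle.ext (by simp)⟩, Continuous.subtype_mk ?_ _, fun h => hω ?_⟩
  · have h2 : Continuous fun a => ω (V a * ⟨T, hTB⟩) / ω ⟨T, hTB⟩ :=
      ((map_continuous ω).comp (Continuous.subtype_mk hc fun a => mul_mem (hUB a) hTB)).div_const _
    simpa only [map_mul, mul_div_cancel_right₀ _ h0] using h2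
  · rw [map_mul, show ω (V g) = 1 from congrArg Subtype.val h, one_mul]

/-- A strongly continuous unitary representation of a compact abelian group is detected by
characters. -/
theorem exists_char_of_rep [IsTopologicalGroup A] [CompactSpace A] [SecondCountableTopology A]
    [MeasurableSpace A] [BorelSpace A] (μ : Measure A) [μ.IsHaarMeasure]
    {H : Type*} [NormedAddCommGroup H] [InnerProductSpace ℂ H] [CompleteSpace H]
    (U : A →* (H →L[ℂ] H)) (hn : ∀ a u, ‖U a u‖ = ‖u‖) (hc : ∀ u, Continuous fun a => U a u)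
    {g : A} {u : H} (hg : U g u ≠ u) : ∃ χ : A →* Circle, Continuous χ ∧ χ g ≠ 1 := by
  have hi : ∀ (f : C(A, ℂ)) u, Integrable (fun a => f a • U a u) μ := fun f u =>
    (f.continuous.smul (hc u)).integrable_of_hasCompactSupport (HasCompactSupport.of_compactSpace _)
  let T : C(A, ℂ) →L[ℂ] H →L[ℂ] H := LinearMap.mkContinuous₂
    (LinearMap.mk₂ ℂ (fun f u => ∫ a, f a • U a u ∂μ)
      (fun f f' u => by simp only [ContinuousMap.add_apply, add_smul, integral_add (hi _ _) (hi _ _)])
      (fun c f u => by simp only [ContinuousMap.smul_apply, smul_assoc, integral_smul])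
      (fun f u u' => by simp only [map_add, smul_add, integral_add (hi _ _) (hi _ _)])
      (fun c f u => by simp only [map_smul, smul_comm _ c, integral_smul]))
    (μ.real univ) fun f u => by
      rw [mul_assoc, mul_comm]
      refine norm_integral_le_of_norm_le_const (Eventually.of_forall fun a => ?_)
      rw [norm_smul, hn]
      exact mul_le_mul_of_nonneg_right (f.norm_coe_le_norm a) (norm_nonneg _)
  have hT : ∀ f u, T f u = ∫ a, f a • U a u ∂μ := fun _ _ => rfl
  have hS : ∀ (S : H →L[ℂ] H) f u, S (T f u) = ∫ a, f a • S (U a u) ∂μ := fun S f u => by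
    simp only [hT, ← S.integral_comp_comm (hi f u), map_smul]
  have hU : ∀ a b u, U a (U b u) = U (a * b) u := fun a b u => by simp
  obtain ⟨v, hv⟩ : ∃ v, v = U g u - u := ⟨_, rfl⟩
  let f : C(A, ℂ) := ⟨fun a => inner ℂ (U a v) v, (hc v).inner continuous_const⟩
  refine exists_char_of_cstar U (fun a => ?_) (T f) (fun S h => ?_) ?_ fun h => ?_
  · have h1 : star (U a) * U a = 1 := (U a).norm_map_iff_adjoint_comp_self.1 (hn a)
    rw [← mul_one (star (U a)), ← map_one U, ← mul_inv_cancel a, map_mul, ← mul_assoc, h1, one_mul]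
  · ext w
    simp only [mul_apply_eq_comp, hS, hT f (S w)]
    refine integral_congr_ae (Eventually.of_forall fun a => ?_)
    exact congrArg (f a • ·) (congrArg (· w) (h a)).symm
  · let F : C(A × A, ℂ) := ⟨fun p => f (p.1⁻¹ * p.2), by fun_prop⟩
    have h1 : (fun a => U a * T f) = fun a => T (F.curry a) := by
      ext a w
      simp only [mul_apply_eq_comp, hS, hT (F.curry a), hU]
      rw [← integral_mul_left_eq_self _ a⁻¹]
      simp [F]
    rw [h1]
    exact T.continuous.comp F.curry.continuous
  · have h1 : ∫ a, f a • U a v ∂μ = 0 := by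
      have h2 : U g (T f u) = T f u := congrArg (· u) h
      have h3 : U g (T f u) = T f (U g u) := by simp only [hS, hT f (U g u), hU, mul_comm]
      rw [← hT, hv, map_sub, ← h3, h2, sub_self]
    have h2 : ∫ a, ‖inner ℂ v (U a v)‖ ^ 2 ∂μ = 0 := by
      have h3 := congrArg (innerSL ℂ v) h1
      rw [← ContinuousLinearMap.integral_comp_comm _ (hi f v), map_zero] at h3
      have h4 : ∀ a, innerSL ℂ v (f a • U a v) = ((‖inner ℂ v (U a v)‖ ^ 2 : ℝ) : ℂ) := fun a => by
        rw [map_smul, innerSL_apply_apply, smul_eq_mul, Complex.ofReal_pow, ← Complex.conj_mul',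
          inner_conj_symm]
        rfl
      simp only [h4] at h3
      exact_mod_cast h3
    refine (Continuous.integral_pos_of_hasCompactSupport_nonneg_nonzero (x := 1)
      ((continuous_const.inner (hc v)).norm.pow 2) (HasCompactSupport.of_compactSpace _)
      (fun a => sq_nonneg _) ?_).ne' h2
    simpa using hv ▸ sub_ne_zero.2 hg

end

theorem exists_char_ne_one {A : Type*} [CommGroup A] [TopologicalSpace A] [IsTopologicalGroup A]
    [T2Space A] [CompactSpace A] [SecondCountableTopology A] {g : A} (hg : g ≠ 1) :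
    ∃ χ : A →* Circle, Continuous χ ∧ χ g ≠ 1 := by
  borelize A
  let μ : MeasureTheory.Measure A := MeasureTheory.Measure.haar
  have : Fact ((2 : ENNReal) ≠ ⊤) := ⟨by simp⟩
  let U : A →* (MeasureTheory.Lp ℂ 2 μ →L[ℂ] MeasureTheory.Lp ℂ 2 μ) :=
    { toFun := fun a => LinearMap.mkContinuous
        { toFun := fun u => DomMulAct.mk a • u
          map_add' := smul_add _
          map_smul' := fun c u => smul_comm _ c u } 1 fun u => by simp
      map_one' := ContinuousLinearMap.ext fun u => one_smul Aᵈᵐᵃ u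
      map_mul' := fun a b => ContinuousLinearMap.ext fun u => by
        rw [mul_comm a b]
        exact mul_smul (DomMulAct.mk a) (DomMulAct.mk b) u }
  obtain ⟨f, f0, f1, -⟩ := exists_continuous_zero_one_of_isClosed (isClosed_singleton (x := g))
    (isClosed_singleton (x := 1)) (disjoint_singleton.2 hg)
  let F : C(A, ℂ) := ⟨fun a => f a, by fun_prop⟩
  refine exists_char_of_rep μ U (fun a u => DomMulAct.norm_smul_Lp _ u)
    (fun u => DomMulAct.continuous_mk.smul continuous_const) (u := ContinuousMap.toLp 2 μ ℂ F)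
    fun h => ?_
  have h1 := ContinuousMap.coeFn_toLp (p := 2) (𝕜 := ℂ) μ F
  have h2 : (fun x => F (g * x)) =ᵐ[μ] F := by
    refine ((MeasureTheory.measurePreserving_mul_left μ g).quasiMeasurePreserving.ae_eq
      h1).symm.trans ((DomMulAct.smul_Lp_ae_eq (DomMulAct.mk g) _).symm.trans ?_)
    exact (show DomMulAct.mk g • ContinuousMap.toLp 2 μ ℂ F = _ from h).symm ▸ h1
  have h3 := congrFun ((Continuous.ae_eq_iff_eq μ (by fun_prop) F.continuous).1 h2) 1
  simp [F, f0 (mem_singleton g), f1 (mem_singleton 1)] at h3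

end Crest.Agent.R217
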