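import Crest.Agent.R217.Ctl

/-! # Row 217: controlled acyclic models -/

set_option autoImplicit false

namespace Crest.Agent.R217

open Matrix

variable {ι V : Type} [Fintype ι] [DecidableEq ι] {n ρmax : ℕ} {κ : Type*} [Fintype κ]

theorem Grid.contract (g : Grid ι V n ρmax) (a : V) (y : ι → ℂ)
    (hy : ∀ j, y j ≠ 0 → g.dist (g.vtx j) a ≤ ρmax) (hd : g.d *ᵥ y = 0) (he : g.eps ⬝ᵥ y = 0) :
    g.d *ᵥ (g.h a *ᵥ y) = y := by
  have h1 : (g.d * g.h a + g.h a * g.d) *ᵥ y = y := by
    funext i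
    have : ∀ j, (g.d * g.h a + g.h a * g.d) i j * y j =
        (1 : Matrix ι ι ℂ) i j * y j - (if i = g.pt a then 1 else 0) * (g.eps j * y j) := by
      intro j
      by_cases hj : y j = 0
      · simp [hj]
      · rw [g.h_id a j (hy j hj) i, Grid.eps]
        by_cases h1 : i = g.pt a <;> by_cases h2 : g.deg j = 0 <;> simp [h1, h2, sub_mul]
    change ∑ j, (g.d * g.h a + g.h a * g.d) i j * y j = y i
    simp only [this]
    rw [Finset.sum_sub_distrib, ← Finset.mul_sum]
    change ((1 : Matrix ι ι ℂ) *ᵥ y) i - _ * (g.eps ⬝ᵥ y) = y i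
    rw [he, one_mulVec, mul_zero, sub_zero]
  rwa [add_mulVec, ← mulVec_mulVec, ← mulVec_mulVec, hd, mulVec_zero, add_zero] at h1

omit [DecidableEq ι] [Fintype ι] in
theorem exists_fix (degκ : κ → ℕ) (dκ : Matrix κ κ ℂ)
    (hdeg : ∀ x' x, dκ x' x ≠ 0 → degκ x = degκ x' + 1) (Φ : κ → (ι → ℂ) → ι → ℂ) :
    ∃ F : Matrix ι κ ℂ, ∀ x, (fun i => F i x) = Φ x (fun j => (F * dκ) j x) := by
  classical
  let r : κ → κ → Prop := fun x' x => degκ x' < degκ x
  have hr : WellFounded r := (measure degκ).wf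
  let C : κ → ι → ℂ := hr.fix fun x rec =>
    Φ x fun j => ∑ x', if h : r x' x then rec x' h j * dκ x' x else 0
  refine ⟨fun i x => C x i, fun x => ?_⟩
  change C x = _
  have : C x = Φ x fun j => ∑ x', if h : r x' x then C x' j * dκ x' x else 0 :=
    hr.fix_eq _ x
  rw [this]
  congr 1
  funext j
  rw [Matrix.mul_apply]
  refine Finset.sum_congr rfl fun x' _ => ?_
  split_ifs with h
  · rfl
  · have : dκ x' x = 0 := by
      by_contra h0
      exact h (show degκ x' < degκ x by rw [hdeg x' x h0]; omega)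
    rw [this, mul_zero]

omit [DecidableEq ι] in
theorem exists_of_mulVec_ne_zero {ι' : Type*} {M : Matrix ι' ι ℂ} {y : ι → ℂ} {i : ι'}
    (h : (M *ᵥ y) i ≠ 0) : ∃ j, M i j ≠ 0 ∧ y j ≠ 0 := by
  obtain ⟨j, _, hj⟩ := Finset.exists_ne_zero_of_sum_ne_zero h
  exact ⟨j, left_ne_zero_of_mul hj, right_ne_zero_of_mul hj⟩

omit [DecidableEq ι] [Fintype ι] in
theorem exists_of_mul_ne_zero {F : Matrix ι κ ℂ} {M : Matrix κ κ ℂ} {i : ι} {x : κ}
    (h : (F * M) i x ≠ 0) : ∃ x', F i x' ≠ 0 ∧ M x' x ≠ 0 := by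
  obtain ⟨j, _, hj⟩ := Finset.exists_ne_zero_of_sum_ne_zero h
  exact ⟨j, left_ne_zero_of_mul hj, right_ne_zero_of_mul hj⟩

omit [DecidableEq ι] [Fintype ι] in
theorem mul_col_congr {F G : Matrix ι κ ℂ} {M : Matrix κ κ ℂ} {x : κ}
    (h : ∀ x', M x' x ≠ 0 → ∀ i, F i x' = G i x') (i : ι) : (F * M) i x = (G * M) i x := by
  rw [Matrix.mul_apply, Matrix.mul_apply]
  refine Finset.sum_congr rfl fun x' _ => ?_
  by_cases h0 : M x' x = 0
  · simp [h0]
  · rw [h x' h0 i]

omit [DecidableEq ι] in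
theorem dot_col {F : Matrix ι κ ℂ} {M : Matrix κ κ ℂ} {x : κ} (u : ι → ℂ) {α : κ → ℂ}
    (h : ∀ x', M x' x ≠ 0 → (u ᵥ* F) x' = α x') :
    u ⬝ᵥ (fun j => (F * M) j x) = (α ᵥ* M) x := by
  change (u ᵥ* (F * M)) x = _
  rw [← vecMul_vecMul]
  refine Finset.sum_congr rfl fun x' _ => ?_
  by_cases h0 : M x' x = 0
  · simp [h0]
  · simp only [h x' h0]

theorem Grid.exists_map (g : Grid ι V n ρmax) (degκ : κ → ℕ) (dκ : Matrix κ κ ℂ)
    (hdd : dκ * dκ = 0) (hdeg : ∀ x' x, dκ x' x ≠ 0 → degκ x = degκ x' + 1) (a : κ → V) (R : κ → ℕ)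
    (hR : ∀ x, R x ≤ ρmax) (hstep : ∀ x' x, dκ x' x ≠ 0 → R x' + g.dist (a x') (a x) ≤ R x)
    (α : κ → ℂ) (hα : α ᵥ* dκ = 0) (hα0 : ∀ x, α x ≠ 0 → degκ x = 0) :
    ∃ F : Matrix ι κ ℂ, g.d * F = F * dκ ∧ g.eps ᵥ* F = α ∧
      ∀ i x, F i x ≠ 0 → g.deg i = degκ x ∧ g.dist (g.vtx i) (a x) ≤ R x := by
  obtain ⟨F, hF⟩ := exists_fix degκ dκ hdeg
    (fun x y => if degκ x = 0 then Pi.single (g.pt (a x)) (α x) else g.h (a x) *ᵥ y)
  have key : ∀ m x, degκ x = m → (∀ i, (g.d * F) i x = (F * dκ) i x) ∧ (g.eps ᵥ* F) x = α x ∧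
      ∀ i, F i x ≠ 0 → g.deg i = degκ x ∧ g.dist (g.vtx i) (a x) ≤ R x := by
    intro m
    induction m with
    | zero =>
      intro x hx
      have h1 := hF x
      rw [if_pos hx] at h1
      refine ⟨fun i => ?_, ?_, fun i hi => ?_⟩
      · have e1 : (F * dκ) i x = 0 := by
          by_contra h0
          obtain ⟨x', _, h2⟩ := exists_of_mul_ne_zero h0
          have := hdeg x' x h2
          omega
        have e2 : g.d i (g.pt (a x)) = 0 := by
          by_contra h0
          have := (g.d_supp _ _ h0).1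
          rw [g.deg_pt] at this
          omega
        rw [e1]
        change (g.d *ᵥ fun j => F j x) i = 0
        rw [h1, mulVec_single]
        simp [e2]
      · change g.eps ⬝ᵥ (fun j => F j x) = α x
        rw [h1, dotProduct_single, Grid.eps, if_pos (g.deg_pt _), one_mul]
      · have e : i = g.pt (a x) := by
          by_contra h0
          exact hi ((congrFun h1 i).trans (Pi.single_eq_of_ne h0 _))
        rw [e, g.deg_pt, g.vtx_pt, g.dist_self, hx]
        exact ⟨rfl, Nat.zero_le _⟩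
    | succ m ih =>
      intro x hx
      have h1 := hF x
      rw [if_neg (by omega)] at h1
      have ih' := fun x' (h : dκ x' x ≠ 0) => ih x' (by have := hdeg x' x h; omega)
      have hy : ∀ j, (F * dκ) j x ≠ 0 → g.deg j = m ∧ g.dist (g.vtx j) (a x) ≤ R x := by
        intro j hj
        obtain ⟨x', h2, h3⟩ := exists_of_mul_ne_zero hj
        have e1 := (ih' x' h3).2.2 j h2
        have e2 := hdeg x' x h3
        have e3 := hstep x' x h3
        have e4 := g.dist_tri (g.vtx j) (a x') (a x)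
        constructor <;> omega
      have hs : ∀ i, F i x ≠ 0 → g.deg i = degκ x ∧ g.dist (g.vtx i) (a x) ≤ R x := by
        intro i hi
        obtain ⟨j, h2, h3⟩ := exists_of_mulVec_ne_zero (by rwa [← congrFun h1 i])
        have e1 := g.h_supp _ _ _ h2
        have e2 := hy j h3
        constructor <;> omega
      refine ⟨fun i => ?_, ?_, hs⟩
      · change (g.d *ᵥ fun j => F j x) i = _
        rw [h1, g.contract (a x) _ (fun j hj => (hy j hj).2.trans (hR x))]
        · funext i
          change (g.d * (F * dκ)) i x = 0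
          rw [← Matrix.mul_assoc, mul_col_congr (G := F * dκ) (fun x' h => (ih' x' h).1),
            Matrix.mul_assoc, hdd]
          simp
        · rw [dot_col g.eps (fun x' h => (ih' x' h).2.1), hα]
          rfl
      · have e1 : α x = 0 := by
          by_contra h0
          have := hα0 x h0
          omega
        rw [e1]
        refine Finset.sum_eq_zero fun i _ => ?_
        by_cases hi : F i x = 0
        · simp [hi]
        · have := (hs i hi).1
          have e2 : g.deg i ≠ 0 := by omega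
          simp [Grid.eps, e2]
  exact ⟨F, Matrix.ext fun i x => (key _ x rfl).1 i, funext fun x => (key _ x rfl).2.1,
    fun i x => (key _ x rfl).2.2 i⟩

theorem Grid.exists_htpy (g : Grid ι V n ρmax) (degκ : κ → ℕ) (dκ : Matrix κ κ ℂ)
    (hdd : dκ * dκ = 0) (hdeg : ∀ x' x, dκ x' x ≠ 0 → degκ x = degκ x' + 1) (a : κ → V) (R : κ → ℕ)
    (hR : ∀ x, R x ≤ ρmax) (hstep : ∀ x' x, dκ x' x ≠ 0 → R x' + g.dist (a x') (a x) ≤ R x)
    (F : Matrix ι κ ℂ) (hF : g.d * F = F * dκ) (hε : g.eps ᵥ* F = 0)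
    (hsupp : ∀ i x, F i x ≠ 0 → g.deg i = degκ x ∧ g.dist (g.vtx i) (a x) ≤ R x) :
    ∃ K : Matrix ι κ ℂ, F = g.d * K + K * dκ ∧
      ∀ i x, K i x ≠ 0 → g.deg i = degκ x + 1 ∧ g.dist (g.vtx i) (a x) ≤ R x := by
  obtain ⟨K, hK⟩ := exists_fix degκ dκ hdeg (fun x y => g.h (a x) *ᵥ ((fun j => F j x) - y))
  have key : ∀ m x, degκ x = m → (∀ i, (g.d * K) i x = (F - K * dκ) i x) ∧
      ∀ i, K i x ≠ 0 → g.deg i = degκ x + 1 ∧ g.dist (g.vtx i) (a x) ≤ R x := by
    intro m
    induction m using Nat.strong_induction_on with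
    | _ m ih =>
      intro x hx
      have h1 := hK x
      have ih' := fun x' (h : dκ x' x ≠ 0) => ih _ (by have := hdeg x' x h; omega) x' rfl
      have hy : ∀ j, ((fun j => F j x) - fun j => (K * dκ) j x) j ≠ 0 →
          g.deg j = degκ x ∧ g.dist (g.vtx j) (a x) ≤ R x := by
        intro j hj
        by_cases h0 : F j x = 0
        · have hj' : (K * dκ) j x ≠ 0 := fun h => hj (by simp [h0, h])
          obtain ⟨x', h2, h3⟩ := exists_of_mul_ne_zero hj'
          have e1 := (ih' x' h3).2 j h2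
          have e2 := hdeg x' x h3
          have e3 := hstep x' x h3
          have e4 := g.dist_tri (g.vtx j) (a x') (a x)
          constructor <;> omega
        · exact hsupp j x h0
      refine ⟨fun i => ?_, fun i hi => ?_⟩
      · change (g.d *ᵥ fun j => K j x) i = _
        rw [h1, g.contract (a x) _ (fun j hj => (hy j hj).2.trans (hR x))]
        · rfl
        · funext i
          rw [mulVec_sub]
          change (g.d * F) i x - (g.d * (K * dκ)) i x = 0
          rw [← Matrix.mul_assoc, mul_col_congr (G := F - K * dκ) (fun x' h => (ih' x' h).1),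
            Matrix.sub_mul, Matrix.mul_assoc, hdd, hF]
          simp
        · rw [dotProduct_sub, dot_col g.eps (α := 0), zero_vecMul]
          · change (g.eps ᵥ* F) x - 0 = 0
            rw [hε]
            simp
          · intro x' h
            refine Finset.sum_eq_zero fun i _ => ?_
            by_cases hi : K i x' = 0
            · simp [hi]
            · have := ((ih' x' h).2 i hi).1
              have e2 : g.deg i ≠ 0 := by omega
              simp [Grid.eps, e2]
      · obtain ⟨j, h2, h3⟩ := exists_of_mulVec_ne_zero (by rwa [← congrFun h1 i])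
        have e1 := g.h_supp _ _ _ h2
        have e2 := hy j h3
        constructor <;> omega
  refine ⟨K, ?_, fun i x => (key _ x rfl).2 i⟩
  rw [show g.d * K = F - K * dκ from Matrix.ext fun i x => (key _ x rfl).1 i, sub_add_cancel]

end Crest.Agent.R217
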