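import Crest.Agent.R217.GYDefs

/-!
# Row 217: definitions for the algebraic core

Signature of hermitian matrices, controlled matrices, the double cut `cutA`/`cutB`, the index `Ind`,
Poincaré data, covers, grids.
-/

set_option autoImplicit false

namespace Crest.Agent.R217

open Matrix Complex

/-! ## Signature -/

/-- The largest dimension of a subspace on which `A` is positive definite. -/
noncomputable def posDim {ι : Type*} [Fintype ι] (A : Matrix ι ι ℂ) : ℕ :=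
  sSup {k | ∃ U : Submodule ℂ (ι → ℂ), Module.finrank ℂ U = k ∧
    ∀ v ∈ U, v ≠ 0 → 0 < (star v ⬝ᵥ A *ᵥ v).re}

/-- The signature. -/
noncomputable def sig {ι : Type*} [Fintype ι] (A : Matrix ι ι ℂ) : ℤ :=
  (posDim A : ℤ) - (posDim (-A) : ℤ)

/-- The compression of `A` to the indices satisfying `p`. -/
abbrev cpr {ι R : Type*} (p : ι → Prop) (A : Matrix ι ι R) : Matrix {i // p i} {i // p i} R :=
  A.submatrix Subtype.val Subtype.val

open Classical in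
/-- The signature of the compression. -/
noncomputable def sigOn {ι : Type*} [Fintype ι] (p : ι → Prop) (A : Matrix ι ι ℂ) : ℤ :=
  sig (cpr p A)

theorem sigOn_eq {ι : Type*} [Fintype ι] (p : ι → Prop) [inst : Fintype {i // p i}]
    (A : Matrix ι ι ℂ) : sigOn p A = sig (cpr p A) := by
  have h : inst = @Subtype.fintype ι p (fun a => Classical.propDecidable (p a)) _ :=
    Subsingleton.elim _ _
  subst h
  rfl

/-- A hermitian matrix and its (hermitian) inverse. -/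
structure HI {ι R : Type*} [Fintype ι] [DecidableEq ι] [CommRing R] [StarRing R]
    (A B : Matrix ι ι R) : Prop where
  hA : A.IsHermitian
  hB : B.IsHermitian
  mul : A * B = 1

/-! ## Control -/

/-- "`x` and `y` are at distance at most `r`". -/
structure CRel (X : Type*) where
  rel : X → X → ℕ → Prop
  rel_refl : ∀ x, rel x x 0
  rel_symm : ∀ {x y r}, rel x y r → rel y x r
  rel_trans : ∀ {x y z r s}, rel x y r → rel y z s → rel x z (r + s)
  rel_mono : ∀ {x y r s}, r ≤ s → rel x y r → rel x y s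

/-- A graded control structure: `V x y r` are the allowed matrix entries at `(x, y)`. -/
structure Ctl (R : Type*) (X : Type*) [CommRing R] [StarRing R] [Algebra ℂ R] extends CRel X where
  V : X → X → ℕ → Submodule ℂ R
  eq_zero : ∀ {x y r f}, f ∈ V x y r → ¬ rel x y r → f = 0
  one_mem : ∀ x, (1 : R) ∈ V x x 0
  mono : ∀ {x y r s}, r ≤ s → V x y r ≤ V x y s
  mul_mem : ∀ {x y z r s f g}, f ∈ V x y r → g ∈ V y z s → f * g ∈ V x z (r + s)
  star_mem : ∀ {x y r f}, f ∈ V x y r → star f ∈ V y x r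

/-- `A` is controlled with radius `r`. -/
def Ctl.M {R X ι₁ ι₂ : Type*} [CommRing R] [StarRing R] [Algebra ℂ R] (c : Ctl R X)
    (b₁ : ι₁ → X) (b₂ : ι₂ → X) (r : ℕ) (A : Matrix ι₁ ι₂ R) : Prop :=
  ∀ i j, A i j ∈ c.V (b₁ i) (b₂ j) r

/-- The control structure that only restricts supports. -/
def CRel.plain {X : Type*} (ρ : CRel X) (R : Type*) [CommRing R] [StarRing R] [Algebra ℂ R] :
    Ctl R X where
  toCRel := ρ
  V x y r :=
    { carrier := {f | f ≠ 0 → ρ.rel x y r}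
      zero_mem' := fun h => (h rfl).elim
      add_mem' := fun {f g} hf hg h => by
        by_cases h1 : f = 0
        · exact hg (by rintro rfl; exact h (by simp [h1]))
        · exact hf h1
      smul_mem' := fun c f hf h => hf (by rintro rfl; exact h (by simp)) }
  eq_zero := fun hf hr => by_contra fun h => hr (hf h)
  one_mem x := fun _ => ρ.rel_refl x
  mono := fun hrs _ hf h => ρ.rel_mono hrs (hf h)
  mul_mem := fun hf hg h =>
    ρ.rel_trans (hf (left_ne_zero_of_mul h)) (hg (right_ne_zero_of_mul h))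
  star_mem := fun hf h => ρ.rel_symm (hf (by rintro rfl; exact h (star_zero _)))

theorem CRel.plain_M_iff {R X ι₁ ι₂ : Type*} [CommRing R] [StarRing R] [Algebra ℂ R] (ρ : CRel X)
    (b₁ : ι₁ → X) (b₂ : ι₂ → X) (r : ℕ) (A : Matrix ι₁ ι₂ R) :
    (ρ.plain R).M b₁ b₂ r A ↔ ∀ i j, A i j ≠ 0 → ρ.rel (b₁ i) (b₂ j) r := Iff.rfl

/-! ## The double cut -/

section Cut

variable {ι R : Type*} [Fintype ι] [DecidableEq ι] [CommRing R] [StarRing R] [Algebra ℂ R]

/-- A diagonal matrix of constants. -/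
def dg (R : Type*) [CommRing R] [Algebra ℂ R] (f : ι → ℂ) : Matrix ι ι R :=
  diagonal fun i => algebraMap ℂ R (f i)

def Ep (X : Matrix ι ι R) : Matrix (ι ⊕ ι) (ι ⊕ ι) R := fromBlocks 1 X 0 1

def Em (Y : Matrix ι ι R) : Matrix (ι ⊕ ι) (ι ⊕ ι) R := fromBlocks 1 0 Y 1

def al1 (X Y : Matrix ι ι R) : Matrix (ι ⊕ ι) (ι ⊕ ι) R := Ep (-X) * Em Y * Ep (-X)

def cmp (ρ : ι → ℝ) (A : Matrix ι ι R) : Matrix ι ι R :=
  dg R (fun i => (ρ i : ℂ)) * A * dg R (fun i => (ρ i : ℂ))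

/-- The isometry of the hyperbolic form obtained by cutting `A` (with inverse `B`) along `ρ`.
Its inverse is `al ρ (-A) (-B)`. It is `1` where `ρ = 0` and `-1` where `ρ = 1`. -/
def al (ρ : ι → ℝ) (A B : Matrix ι ι R) : Matrix (ι ⊕ ι) (ι ⊕ ι) R :=
  al1 (cmp ρ B) (cmp ρ A) * al1 (cmp ρ B) (cmp ρ A)

def Bt (R : Type*) [CommRing R] [Algebra ℂ R] (τ : ι → ℂ) : Matrix (ι ⊕ ι) (ι ⊕ ι) R :=
  fromBlocks 0 (dg R τ) (dg R fun i => star (τ i)) 0

def cutA (ρ : ι → ℝ) (τ : ι → ℂ) (A B : Matrix ι ι R) : Matrix (ι ⊕ ι) (ι ⊕ ι) R :=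
  (al ρ A B)ᴴ * Bt R τ * al ρ A B

def cutB (ρ : ι → ℝ) (τ : ι → ℂ) (A B : Matrix ι ι R) : Matrix (ι ⊕ ι) (ι ⊕ ι) R :=
  al ρ (-A) (-B) * Bt R τ * (al ρ (-A) (-B))ᴴ

/-- The columns of `A` over the base point `x` are constant and supported over `x`. -/
def Loc {X : Type*} (b : ι → X) (x : X) (A : Matrix ι ι R) : Prop :=
  ∀ i j, b i = x → (b j ≠ x → A j i = 0) ∧ ∃ z : ℂ, A j i = algebraMap ℂ R z

end Cut

/-- The data of a double cut. -/
abbrev Cut (X : Type*) := (X → ℝ) × (X → ℂ)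

/-- The index: cut along all members of the list, compress to `K`, take the signature. -/
noncomputable def Ind {X : Type*} (K : X → Prop) : List (Cut X) →
    ∀ {ι : Type} [Fintype ι] [DecidableEq ι], (ι → X) → Matrix ι ι ℂ → Matrix ι ι ℂ → ℤ
  | [], _, _, _, b, A, _ => sigOn (fun i => K (b i)) A
  | q :: L, _, _, _, b, A, B =>
      Ind K L (Sum.elim b b) (cutA (q.1 ∘ b) (q.2 ∘ b) A B) (cutB (q.1 ∘ b) (q.2 ∘ b) A B)

/-- `x` is `Rr`-far from the double cut `q`. -/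
def Cst {X : Type*} (ρ : CRel X) (Rr : ℕ) (x : X) (q : Cut X) : Prop :=
  (∀ y, ρ.rel x y Rr → q.1 y = 0) ∨ (∀ y, ρ.rel x y Rr → q.1 y = 1) ∨
    (∀ y, ρ.rel x y Rr → q.2 y = I) ∨ (∀ y, ρ.rel x y Rr → q.2 y = -I)

/-- `x` is `Rr`-far from the double cuts `q` and `q'`, on the same side. -/
def Cst₂ {X : Type*} (ρ : CRel X) (Rr : ℕ) (x : X) (q q' : Cut X) : Prop :=
  (∀ y, ρ.rel x y Rr → q.1 y = 0 ∧ q'.1 y = 0) ∨ (∀ y, ρ.rel x y Rr → q.1 y = 1 ∧ q'.1 y = 1) ∨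
    (∀ y, ρ.rel x y Rr → q.2 y = I ∧ q'.2 y = I) ∨ (∀ y, ρ.rel x y Rr → q.2 y = -I ∧ q'.2 y = -I)

/-- Admissible geometry: near the boundary of `K` every point is far from some cut. -/
structure Geo {X : Type*} (ρ : CRel X) (K : X → Prop) (L : List (Cut X)) (Rr : ℕ) : Prop where
  unit : ∀ q ∈ L, ∀ x, ‖q.2 x‖ = 1
  adm : ∀ x, (∀ y, ρ.rel x y Rr → (K x ↔ K y)) ∨ ∃ q ∈ L, Cst ρ Rr x q

/-! ## Poincaré data -/

section Dat

variable {ι R : Type*} [Fintype ι] [DecidableEq ι] [CommRing R] [StarRing R] [Algebra ℂ R]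

def Jm (ι R : Type*) [DecidableEq ι] [CommRing R] : Matrix (ι ⊕ ι) (ι ⊕ ι) R := fromBlocks 0 1 1 0

def DD (d S : Matrix ι ι R) : Matrix (ι ⊕ ι) (ι ⊕ ι) R := fromBlocks d S 0 dᴴ

noncomputable def symJ (Γ : Matrix (ι ⊕ ι) (ι ⊕ ι) R) : Matrix (ι ⊕ ι) (ι ⊕ ι) R :=
  (1 / 2 : ℂ) • (Γ + Jm ι R * Γᴴ * Jm ι R)

noncomputable def uu (D Γ : Matrix (ι ⊕ ι) (ι ⊕ ι) R) : Matrix (ι ⊕ ι) (ι ⊕ ι) R :=
  D + symJ Γ * D * symJ Γ

noncomputable def datA (d S : Matrix ι ι R) (Γ : Matrix (ι ⊕ ι) (ι ⊕ ι) R) :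
    Matrix (ι ⊕ ι) (ι ⊕ ι) R := Jm ι R * uu (DD d S) Γ

noncomputable def datB (d S : Matrix ι ι R) (Γ : Matrix (ι ⊕ ι) (ι ⊕ ι) R) :
    Matrix (ι ⊕ ι) (ι ⊕ ι) R := uu (DD d S) Γ * Jm ι R

/-- A complex with a hermitian duality map whose cone is contracted by `Γ`. -/
structure Dat (d S : Matrix ι ι R) (Γ : Matrix (ι ⊕ ι) (ι ⊕ ι) R) : Prop where
  dd : d * d = 0
  herm : S.IsHermitian
  anti : d * S + S * dᴴ = 0
  contr : DD d S * Γ + Γ * DD d S = 1

end Dat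

/-! ## Families indexed by the powers of the character -/

/-- Functions of the exponent `j` of the character `χ^j`. -/
abbrev Seq := ℕ → ℂ

/-- evaluation at the exponent `j`. -/
abbrev evM {ι₁ ι₂ : Type*} (j : ℕ) (A : Matrix ι₁ ι₂ Seq) : Matrix ι₁ ι₂ ℂ := A.map fun f => f j

/-- constant families. -/
abbrev cstM {ι₁ ι₂ : Type*} (A : Matrix ι₁ ι₂ ℂ) : Matrix ι₁ ι₂ Seq := A.map (algebraMap ℂ Seq)

/-- Sets `U m` over which the twist `j ↦ j + 1` is conjugation by the phase `u m`. -/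
structure Cover {X : Type*} (c : Ctl Seq X) (Nc Rmax : ℕ) where
  p : ℕ
  p_pos : 0 < p
  per : ∀ {x y r f}, f ∈ c.V x y r → ∀ j, f (j + p) = f j
  sh_mem : ∀ {x y r f}, f ∈ c.V x y r → (fun j => f (j + 1)) ∈ c.V x y r
  U : Fin Nc → X → Prop
  u : Fin Nc → X → ℂ
  u_norm : ∀ m x, ‖u m x‖ = 1
  tw : ∀ {m x y r f}, U m x → r ≤ Rmax → f ∈ c.V y x r →
    ∀ j, f (j + 1) = u m y * star (u m x) * f j

/-- The approximate isotypic projections and their homotopies. -/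
structure Ops {X ι : Type*} [Fintype ι] [DecidableEq ι] (c : Ctl Seq X) (ρ₀ : CRel X) (b : ι → X)
    (d S S' : Matrix ι ι ℂ) where
  e : Matrix ι ι Seq
  Lh : Matrix ι ι Seq
  Mh : Matrix ι ι Seq
  K0 : Matrix ι ι ℂ
  K1 : Matrix ι ι ℂ
  comm : cstM d * e = e * cstM d
  symm : e * cstM S - cstM S * eᴴ = cstM d * Lh - Lh * (cstM d)ᴴ
  idem : e * e - e = cstM d * Mh + Mh * cstM d
  e0 : evM 0 e = 1 + (d * K0 + K0 * d)
  e1 : evM 1 e = d * K1 + K1 * d
  cd : c.M b b 1 (cstM d)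
  cS : c.M b b 1 (cstM S)
  cS' : c.M b b 1 (cstM S')
  ce : c.M b b 1 e
  cL : c.M b b 1 Lh
  cM : c.M b b 1 Mh
  cK0 : (ρ₀.plain ℂ).M b b 1 K0
  cK1 : (ρ₀.plain ℂ).M b b 1 K1

/-! ## Grids -/

/-- An `n`-dimensional based chain complex located at the points of `V`, with a strict hermitian
Poincaré duality and local contractions of radius `ρmax`. -/
structure Grid (ι V : Type) [Fintype ι] [DecidableEq ι] (n ρmax : ℕ) where
  dist : V → V → ℕ
  dist_self : ∀ a, dist a a = 0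
  dist_comm : ∀ a b, dist a b = dist b a
  dist_tri : ∀ a b c, dist a c ≤ dist a b + dist b c
  vtx : ι → V
  deg : ι → ℕ
  deg_le : ∀ i, deg i ≤ n
  d : Matrix ι ι ℂ
  S : Matrix ι ι ℂ
  S' : Matrix ι ι ℂ
  d_supp : ∀ i j, d i j ≠ 0 → deg j = deg i + 1 ∧ dist (vtx i) (vtx j) ≤ 1
  S_supp : ∀ i j, S i j ≠ 0 → deg i + deg j = n ∧ dist (vtx i) (vtx j) ≤ 1
  S'_supp : ∀ i j, S' i j ≠ 0 → dist (vtx i) (vtx j) ≤ 1
  dd : d * d = 0
  hS : HI S S'
  anti : d * S + S * dᴴ = 0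
  eps_d : (fun i => if deg i = 0 then (1 : ℂ) else 0) ᵥ* d = 0
  d_mu : d *ᵥ (fun i => if deg i = n then (1 : ℂ) else 0) = 0
  cS : ℂ
  eps_S : (fun i => if deg i = 0 then (1 : ℂ) else 0) ᵥ* S =
    cS • fun i => if deg i = n then (1 : ℂ) else 0
  pt : V → ι
  vtx_pt : ∀ a, vtx (pt a) = a
  deg_pt : ∀ a, deg (pt a) = 0
  h : V → Matrix ι ι ℂ
  h_supp : ∀ a i j, h a i j ≠ 0 → deg i = deg j + 1 ∧ dist (vtx i) a ≤ dist (vtx j) a
  h_id : ∀ a j, dist (vtx j) a ≤ ρmax → ∀ i, (d * h a + h a * d) i j =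
    (1 : Matrix ι ι ℂ) i j - if i = pt a ∧ deg j = 0 then 1 else 0

/-- The augmentation. -/
def Grid.eps {ι V : Type} [Fintype ι] [DecidableEq ι] {n ρmax : ℕ} (g : Grid ι V n ρmax) : ι → ℂ :=
  fun i => if g.deg i = 0 then 1 else 0

/-- The fundamental cycle. -/
def Grid.mu {ι V : Type} [Fintype ι] [DecidableEq ι] {n ρmax : ℕ} (g : Grid ι V n ρmax) : ι → ℂ :=
  fun i => if g.deg i = n then 1 else 0

/-! ## Orbit data -/

/-- What is used about the orbit space of a local action that does not fix `0`. -/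
structure Orbit {H : Type*} [CommGroup H] [TopologicalSpace H] (G : Good H)
    {E : Type*} [NormedAddCommGroup E] {ε : ℝ} (a : LAct H E ε) where
  D : H → E → E → ℝ
  φ : E → E
  δ : ℝ
  κ : ℝ
  δ_pos : 0 < δ
  κ_pos : 0 < κ
  Nc : ℕ
  U : Fin Nc → E → Prop
  u : Fin Nc → E → ℂ
  D_refl : ∀ x, D 1 x x = 0
  D_symm : ∀ h x y, D h⁻¹ y x = D h x y
  D_tri : ∀ g h x y z, D (g * h) x z ≤ D g x y + D h y z
  φ_lip : ∀ h x y, ‖φ x - φ y‖ ≤ D h x y
  φ_close : ∀ y, ‖y‖ ≤ 6 / 10 → ‖φ y - y‖ ≤ ε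
  unif : ∀ b > 0, ∃ η > 0, ∀ h x y, ‖y‖ ≤ 9 / 10 → ‖x - a.act h y‖ ≤ η → D h x y ≤ b
  far : ∀ h x y, 8 / 10 ≤ ‖x‖ → 8 / 10 ≤ ‖y‖ → D h x y = 0
  u_norm : ∀ m x, ‖u m x‖ = 1
  tw : ∀ m h x y, U m y → D h x y ≤ κ → G.χ h = u m x * star (u m y)
  cover : ∀ y, ‖y‖ ≤ 6 / 10 → ‖φ y‖ ≤ δ → ∃ m, U m y

theorem Good.star_χ {H : Type*} [CommGroup H] [TopologicalSpace H] (G : Good H) (h : H) :
    star (G.χ h) = G.χ h⁻¹ := by
  have h1 : ‖G.χ h‖ = 1 := by
    have := congrArg (fun z : ℂ => ‖z‖) (G.χ_pow h)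
    simp only [norm_pow, norm_one] at this
    exact (pow_eq_one_iff_of_nonneg (norm_nonneg _) G.p_pos.ne').1 this
  have h2 : G.χ h⁻¹ * G.χ h = 1 := by rw [← map_mul, inv_mul_cancel, map_one]
  have h3 : star (G.χ h) * G.χ h = 1 := by
    rw [Complex.star_def, ← Complex.normSq_eq_conj_mul_self, Complex.normSq_eq_norm_sq, h1]; simp
  have h4 : G.χ h ≠ 0 := by rintro h0; rw [h0] at h2; simp at h2
  exact mul_right_cancel₀ h4 (h3.trans h2.symm)

/-- The relation `dist x y ≤ r * a'`. -/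
def distRel {V : Type*} (dist : V → V → ℕ) (h0 : ∀ a, dist a a = 0)
    (hc : ∀ a b, dist a b = dist b a) (ht : ∀ a b c, dist a c ≤ dist a b + dist b c) (a' : ℕ) :
    CRel V where
  rel x y r := dist x y ≤ r * a'
  rel_refl x := by simp [h0]
  rel_symm h := by rwa [hc]
  rel_trans {x y z r s} h1 h2 := by have := ht x y z; rw [add_mul]; omega
  rel_mono hrs h := h.trans (Nat.mul_le_mul_right _ hrs)

/-- The graded control structure defined by a coarse relation `ρ₀` and the orbit distance, with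
fine unit `b`. -/
def Orbit.ctl {H : Type*} [CommGroup H] [TopologicalSpace H] {G : Good H}
    {E : Type*} [NormedAddCommGroup E] {ε : ℝ} {a : LAct H E ε} (O : Orbit G a)
    {V : Type*} (ρ₀ : CRel V) (pos : V → E) (b : ℝ) (hb : 0 ≤ b) : Ctl Seq V where
  rel x y r := ρ₀.rel x y r ∧ ∃ h, O.D h (pos x) (pos y) ≤ r * b
  rel_refl x := ⟨ρ₀.rel_refl x, 1, by simp [O.D_refl]⟩
  rel_symm := fun ⟨h1, h, h2⟩ => ⟨ρ₀.rel_symm h1, h⁻¹, by rwa [O.D_symm]⟩
  rel_trans := fun {x y z r s} ⟨h1, g, h2⟩ ⟨h3, h, h4⟩ =>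
    ⟨ρ₀.rel_trans h1 h3, g * h, by
      have := O.D_tri g h (pos x) (pos y) (pos z); push_cast; linarith⟩
  rel_mono := fun {x y r s} hrs ⟨h1, h, h2⟩ => ⟨ρ₀.rel_mono hrs h1, h,
    h2.trans (mul_le_mul_of_nonneg_right (by exact_mod_cast hrs) hb)⟩
  V x y r := Submodule.span ℂ
    {f | ρ₀.rel x y r ∧ ∃ h, O.D h (pos x) (pos y) ≤ r * b ∧ f = fun j => G.χ h ^ j}
  eq_zero := fun {x y r f} hf hr => by
    have : {f : Seq | ρ₀.rel x y r ∧ ∃ h, O.D h (pos x) (pos y) ≤ r * b ∧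
        f = fun j => G.χ h ^ j} = ∅ :=
      Set.eq_empty_of_forall_notMem fun f ⟨h1, h, h2, _⟩ => hr ⟨h1, h, h2⟩
    rw [this] at hf
    simpa using hf
  one_mem x := Submodule.subset_span ⟨ρ₀.rel_refl x, 1, by simp [O.D_refl], by ext j; simp⟩
  mono := fun {x y r s} hrs => Submodule.span_mono fun f ⟨h1, h, h2, h3⟩ =>
    ⟨ρ₀.rel_mono hrs h1, h,
      h2.trans (mul_le_mul_of_nonneg_right (by exact_mod_cast hrs) hb), h3⟩
  mul_mem := fun {x y z r s f g} hf hg => by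
    have := Submodule.mul_mem_mul hf hg
    rw [Submodule.span_mul_span] at this
    refine Submodule.span_mono ?_ this
    rintro _ ⟨f, ⟨h1, g1, h2, rfl⟩, f', ⟨h3, g2, h4, rfl⟩, rfl⟩
    refine ⟨ρ₀.rel_trans h1 h3, g1 * g2, ?_, ?_⟩
    · have := O.D_tri g1 g2 (pos x) (pos y) (pos z); push_cast; linarith
    · ext j; simp [mul_pow]
  star_mem := fun {x y r f} hf => by
    induction hf using Submodule.span_induction with
    | mem f hf =>
      obtain ⟨h1, h, h2, rfl⟩ := hf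
      refine Submodule.subset_span ⟨ρ₀.rel_symm h1, h⁻¹, by rwa [O.D_symm], ?_⟩
      ext j
      simp only [Pi.star_apply, star_pow, G.star_χ]
    | zero => simp
    | add f g _ _ hf hg => rw [star_add]; exact add_mem hf hg
    | smul c f _ hf => rw [star_smul]; exact Submodule.smul_mem _ _ hf

/-! Realise the equation lemmas once, in the defining file. -/

theorem anchor_CoreDefs_1 : type_of% @posDim.eq_1 := @posDim.eq_1
theorem anchor_CoreDefs_2 : type_of% @sig.eq_1 := @sig.eq_1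
theorem anchor_CoreDefs_3 : type_of% @cpr.eq_1 := @cpr.eq_1
theorem anchor_CoreDefs_4 : type_of% @sigOn.eq_1 := @sigOn.eq_1
theorem anchor_CoreDefs_5 : type_of% @Ctl.M.eq_1 := @Ctl.M.eq_1
theorem anchor_CoreDefs_6 : type_of% @CRel.plain.eq_1 := @CRel.plain.eq_1
theorem anchor_CoreDefs_7 : type_of% @dg.eq_1 := @dg.eq_1
theorem anchor_CoreDefs_8 : type_of% @Ep.eq_1 := @Ep.eq_1
theorem anchor_CoreDefs_9 : type_of% @Em.eq_1 := @Em.eq_1
theorem anchor_CoreDefs_10 : type_of% @al1.eq_1 := @al1.eq_1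
theorem anchor_CoreDefs_11 : type_of% @cmp.eq_1 := @cmp.eq_1
theorem anchor_CoreDefs_12 : type_of% @al.eq_1 := @al.eq_1
theorem anchor_CoreDefs_13 : type_of% @Bt.eq_1 := @Bt.eq_1
theorem anchor_CoreDefs_14 : type_of% @cutA.eq_1 := @cutA.eq_1
theorem anchor_CoreDefs_15 : type_of% @cutB.eq_1 := @cutB.eq_1
theorem anchor_CoreDefs_16 : type_of% @Loc.eq_1 := @Loc.eq_1
theorem anchor_CoreDefs_17 : type_of% @Ind.eq_1 := @Ind.eq_1
theorem anchor_CoreDefs_18 : type_of% @Cst.eq_1 := @Cst.eq_1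
theorem anchor_CoreDefs_19 : type_of% @Cst₂.eq_1 := @Cst₂.eq_1
theorem anchor_CoreDefs_20 : type_of% @Jm.eq_1 := @Jm.eq_1
theorem anchor_CoreDefs_21 : type_of% @DD.eq_1 := @DD.eq_1
theorem anchor_CoreDefs_22 : type_of% @symJ.eq_1 := @symJ.eq_1
theorem anchor_CoreDefs_23 : type_of% @uu.eq_1 := @uu.eq_1
theorem anchor_CoreDefs_24 : type_of% @datA.eq_1 := @datA.eq_1
theorem anchor_CoreDefs_25 : type_of% @datB.eq_1 := @datB.eq_1
theorem anchor_CoreDefs_26 : type_of% @evM.eq_1 := @evM.eq_1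
theorem anchor_CoreDefs_27 : type_of% @cstM.eq_1 := @cstM.eq_1
theorem anchor_CoreDefs_28 : type_of% @Grid.eps.eq_1 := @Grid.eps.eq_1
theorem anchor_CoreDefs_29 : type_of% @Grid.mu.eq_1 := @Grid.mu.eq_1
theorem anchor_CoreDefs_30 : type_of% @distRel.eq_1 := @distRel.eq_1
theorem anchor_CoreDefs_31 : type_of% @Orbit.ctl.eq_1 := @Orbit.ctl.eq_1
theorem anchor_CoreDefs_32 : type_of% @posDim.eq_def := @posDim.eq_def
theorem anchor_CoreDefs_33 : type_of% @sig.eq_def := @sig.eq_def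
theorem anchor_CoreDefs_34 : type_of% @cpr.eq_def := @cpr.eq_def
theorem anchor_CoreDefs_35 : type_of% @sigOn.eq_def := @sigOn.eq_def
theorem anchor_CoreDefs_36 : type_of% @Ctl.M.eq_def := @Ctl.M.eq_def
theorem anchor_CoreDefs_37 : type_of% @CRel.plain.eq_def := @CRel.plain.eq_def
theorem anchor_CoreDefs_38 : type_of% @dg.eq_def := @dg.eq_def
theorem anchor_CoreDefs_39 : type_of% @Ep.eq_def := @Ep.eq_def
theorem anchor_CoreDefs_40 : type_of% @Em.eq_def := @Em.eq_def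
theorem anchor_CoreDefs_41 : type_of% @al1.eq_def := @al1.eq_def
theorem anchor_CoreDefs_42 : type_of% @cmp.eq_def := @cmp.eq_def
theorem anchor_CoreDefs_43 : type_of% @al.eq_def := @al.eq_def
theorem anchor_CoreDefs_44 : type_of% @Bt.eq_def := @Bt.eq_def
theorem anchor_CoreDefs_45 : type_of% @cutA.eq_def := @cutA.eq_def
theorem anchor_CoreDefs_46 : type_of% @cutB.eq_def := @cutB.eq_def
theorem anchor_CoreDefs_47 : type_of% @Loc.eq_def := @Loc.eq_def
theorem anchor_CoreDefs_48 : type_of% @Ind.eq_def := @Ind.eq_def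
theorem anchor_CoreDefs_49 : type_of% @Cst.eq_def := @Cst.eq_def
theorem anchor_CoreDefs_50 : type_of% @Cst₂.eq_def := @Cst₂.eq_def
theorem anchor_CoreDefs_51 : type_of% @Jm.eq_def := @Jm.eq_def
theorem anchor_CoreDefs_52 : type_of% @DD.eq_def := @DD.eq_def
theorem anchor_CoreDefs_53 : type_of% @symJ.eq_def := @symJ.eq_def
theorem anchor_CoreDefs_54 : type_of% @uu.eq_def := @uu.eq_def
theorem anchor_CoreDefs_55 : type_of% @datA.eq_def := @datA.eq_def
theorem anchor_CoreDefs_56 : type_of% @datB.eq_def := @datB.eq_def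
theorem anchor_CoreDefs_57 : type_of% @evM.eq_def := @evM.eq_def
theorem anchor_CoreDefs_58 : type_of% @cstM.eq_def := @cstM.eq_def
theorem anchor_CoreDefs_59 : type_of% @Grid.eps.eq_def := @Grid.eps.eq_def
theorem anchor_CoreDefs_60 : type_of% @Grid.mu.eq_def := @Grid.mu.eq_def
theorem anchor_CoreDefs_61 : type_of% @distRel.eq_def := @distRel.eq_def
theorem anchor_CoreDefs_62 : type_of% @Orbit.ctl.eq_def := @Orbit.ctl.eq_def
theorem anchor_CoreDefs_63 : type_of% @Ind.eq_2 := @Ind.eq_2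

end Crest.Agent.R217
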