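import Crest.Agent.R217.CoreDefs

/-! # Row 217: calculus of controlled matrices -/

set_option autoImplicit false

namespace Crest.Agent.R217

open Matrix

namespace Ctl

variable {R X ι₁ ι₂ ι₃ ι₄ : Type*} [CommRing R] [StarRing R] [Algebra ℂ R] {c : Ctl R X}
  {b₁ : ι₁ → X} {b₂ : ι₂ → X} {b₃ : ι₃ → X} {b₄ : ι₄ → X} {r s : ℕ}

theorem algebraMap_mem (c : Ctl R X) (x : X) (r : ℕ) (z : ℂ) : algebraMap ℂ R z ∈ c.V x x r := by
  rw [Algebra.algebraMap_eq_smul_one]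
  exact Submodule.smul_mem _ _ (c.mono (Nat.zero_le r) (c.one_mem x))

theorem M.of_le {A : Matrix ι₁ ι₂ R} (h : c.M b₁ b₂ r A) (hrs : r ≤ s) : c.M b₁ b₂ s A :=
  fun i j => c.mono hrs (h i j)

theorem M.zero : c.M b₁ b₂ r (0 : Matrix ι₁ ι₂ R) := fun _ _ => Submodule.zero_mem _

theorem M.add {A B : Matrix ι₁ ι₂ R} (hA : c.M b₁ b₂ r A) (hB : c.M b₁ b₂ r B) :
    c.M b₁ b₂ r (A + B) := fun i j => add_mem (hA i j) (hB i j)

theorem M.neg {A : Matrix ι₁ ι₂ R} (hA : c.M b₁ b₂ r A) : c.M b₁ b₂ r (-A) :=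
  fun i j => neg_mem (hA i j)

theorem M.sub {A B : Matrix ι₁ ι₂ R} (hA : c.M b₁ b₂ r A) (hB : c.M b₁ b₂ r B) :
    c.M b₁ b₂ r (A - B) := fun i j => sub_mem (hA i j) (hB i j)

theorem M.smul {A : Matrix ι₁ ι₂ R} (hA : c.M b₁ b₂ r A) (z : ℂ) : c.M b₁ b₂ r (z • A) :=
  fun i j => Submodule.smul_mem _ z (hA i j)

theorem M.sum {κ : Type*} (t : Finset κ) {A : κ → Matrix ι₁ ι₂ R}
    (hA : ∀ k ∈ t, c.M b₁ b₂ r (A k)) : c.M b₁ b₂ r (∑ k ∈ t, A k) := fun i j => by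
  rw [Matrix.sum_apply]
  exact Submodule.sum_mem _ fun k hk => hA k hk i j

theorem M.mul [Fintype ι₂] {A : Matrix ι₁ ι₂ R} {B : Matrix ι₂ ι₃ R} (hA : c.M b₁ b₂ r A)
    (hB : c.M b₂ b₃ s B) : c.M b₁ b₃ (r + s) (A * B) := fun i j => by
  rw [Matrix.mul_apply]
  exact Submodule.sum_mem _ fun k _ => c.mul_mem (hA i k) (hB k j)

/-- product with an explicit bound on the radius. -/
theorem M.mul' [Fintype ι₂] {t : ℕ} {A : Matrix ι₁ ι₂ R} {B : Matrix ι₂ ι₃ R} (hA : c.M b₁ b₂ r A)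
    (hB : c.M b₂ b₃ s B) (h : r + s ≤ t) : c.M b₁ b₃ t (A * B) := (hA.mul hB).of_le h

theorem M.conjTranspose {A : Matrix ι₁ ι₂ R} (hA : c.M b₁ b₂ r A) : c.M b₂ b₁ r Aᴴ :=
  fun i j => c.star_mem (hA j i)

theorem M.diagonal [DecidableEq ι₁] {f : ι₁ → R} (hf : ∀ i, f i ∈ c.V (b₁ i) (b₁ i) r) :
    c.M b₁ b₁ r (diagonal f) := fun i j => by
  by_cases h : i = j
  · subst h; rw [diagonal_apply_eq]; exact hf i
  · rw [diagonal_apply_ne _ h]; exact Submodule.zero_mem _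

theorem M.dg [DecidableEq ι₁] (f : ι₁ → ℂ) : c.M b₁ b₁ r (dg R f) :=
  M.diagonal fun i => c.algebraMap_mem _ _ _

theorem M.one [DecidableEq ι₁] : c.M b₁ b₁ r (1 : Matrix ι₁ ι₁ R) :=
  M.diagonal fun i => c.mono (Nat.zero_le r) (c.one_mem _)

theorem M.fromBlocks {A : Matrix ι₁ ι₃ R} {B : Matrix ι₁ ι₄ R} {C : Matrix ι₂ ι₃ R}
    {D : Matrix ι₂ ι₄ R} (hA : c.M b₁ b₃ r A) (hB : c.M b₁ b₄ r B) (hC : c.M b₂ b₃ r C)
    (hD : c.M b₂ b₄ r D) : c.M (Sum.elim b₁ b₂) (Sum.elim b₃ b₄) r (fromBlocks A B C D) := by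
  rintro (i | i) (j | j)
  · exact hA i j
  · exact hB i j
  · exact hC i j
  · exact hD i j

theorem M.submatrix {A : Matrix ι₁ ι₂ R} (hA : c.M b₁ b₂ r A) (f : ι₃ → ι₁) (g : ι₄ → ι₂) :
    c.M (b₁ ∘ f) (b₂ ∘ g) r (A.submatrix f g) := fun i j => hA (f i) (g j)

theorem M.rel {A : Matrix ι₁ ι₂ R} (hA : c.M b₁ b₂ r A) {i : ι₁} {j : ι₂} (h : A i j ≠ 0) :
    c.rel (b₁ i) (b₂ j) r := by_contra fun hr => h (c.eq_zero (hA i j) hr)

/-- forget the grading. -/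
theorem M.plain {A : Matrix ι₁ ι₂ R} (hA : c.M b₁ b₂ r A) : (c.toCRel.plain R).M b₁ b₂ r A :=
  fun _ _ h => hA.rel h

/-- entrywise images are controlled by any coarser relation. -/
theorem M.map_plain {R' : Type*} [CommRing R'] [StarRing R'] [Algebra ℂ R'] {A : Matrix ι₁ ι₂ R}
    (hA : c.M b₁ b₂ r A) {ρ : CRel X} (hρ : ∀ x y r, c.rel x y r → ρ.rel x y r) (φ : R → R')
    (hφ : φ 0 = 0) : (ρ.plain R').M b₁ b₂ r (A.map φ) := fun i j h =>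
  hρ _ _ _ (hA.rel fun h0 => h (by rw [map_apply, h0, hφ]))

theorem M.Jm [DecidableEq ι₁] : c.M (Sum.elim b₁ b₁) (Sum.elim b₁ b₁) r (Jm ι₁ R) :=
  M.fromBlocks M.zero M.one M.one M.zero

end Ctl

theorem Cst.of_le {X : Type*} {ρ ρ' : CRel X} {R R' : ℕ} {x : X} {q : Cut X} (h : Cst ρ R x q)
    (hρ : ∀ y, ρ'.rel x y R' → ρ.rel x y R) : Cst ρ' R' x q := by
  rcases h with h | h | h | h
  · exact Or.inl fun y hy => h y (hρ y hy)
  · exact Or.inr (Or.inl fun y hy => h y (hρ y hy))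
  · exact Or.inr (Or.inr (Or.inl fun y hy => h y (hρ y hy)))
  · exact Or.inr (Or.inr (Or.inr fun y hy => h y (hρ y hy)))

theorem Geo.of_le {X : Type*} {ρ ρ' : CRel X} {K : X → Prop} {L : List (Cut X)} {R R' : ℕ}
    (h : Geo ρ K L R) (hρ : ∀ x y, ρ'.rel x y R' → ρ.rel x y R) : Geo ρ' K L R' where
  unit := h.unit
  adm x := (h.adm x).imp (fun h1 y hy => h1 y (hρ x y hy))
    fun ⟨q, hq, h1⟩ => ⟨q, hq, h1.of_le (hρ x)⟩

theorem HI.mul' {ι R : Type*} [Fintype ι] [DecidableEq ι] [CommRing R] [StarRing R]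
    {A B : Matrix ι ι R} (h : HI A B) : B * A = 1 := mul_eq_one_comm.1 h.mul

theorem HI.symm {ι R : Type*} [Fintype ι] [DecidableEq ι] [CommRing R] [StarRing R]
    {A B : Matrix ι ι R} (h : HI A B) : HI B A := ⟨h.hB, h.hA, h.mul'⟩

theorem HI.neg {ι R : Type*} [Fintype ι] [DecidableEq ι] [CommRing R] [StarRing R]
    {A B : Matrix ι ι R} (h : HI A B) : HI (-A) (-B) :=
  ⟨h.hA.neg, h.hB.neg, by rw [neg_mul_neg, h.mul]⟩

end Crest.Agent.R217
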