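import Crest.Agent.R217.Ctl

/-! # Row 217: algebra, control and locality of the double cut -/

set_option autoImplicit false
set_option linter.unusedSectionVars false

namespace Crest.Agent.R217

open Matrix Complex

namespace CutAux

section Alg

variable {ι R : Type*} [Fintype ι] [DecidableEq ι] [CommRing R]

omit [Fintype ι] in
theorem Ep_def (X : Matrix ι ι R) : Ep X = fromBlocks 1 X 0 1 := rfl

omit [Fintype ι] in
theorem Em_def (X : Matrix ι ι R) : Em X = fromBlocks 1 0 X 1 := rfl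

theorem al1_def (X Y : Matrix ι ι R) : al1 X Y = Ep (-X) * Em Y * Ep (-X) := rfl

theorem Ep_mul (X Y : Matrix ι ι R) : Ep X * Ep Y = Ep (X + Y) := by
  simp [Ep_def, fromBlocks_multiply, add_comm]

theorem Em_mul (X Y : Matrix ι ι R) : Em X * Em Y = Em (X + Y) := by
  simp [Em_def, fromBlocks_multiply]

omit [Fintype ι] in
theorem Ep_zero : Ep (0 : Matrix ι ι R) = 1 := by rw [Ep_def, fromBlocks_one]

omit [Fintype ι] in
theorem Em_zero : Em (0 : Matrix ι ι R) = 1 := by rw [Em_def, fromBlocks_one]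

theorem al1_mul_neg (X Y : Matrix ι ι R) : al1 X Y * al1 (-X) (-Y) = 1 := by
  have h1 : Ep (-X) * Ep (-(-X)) = 1 := by rw [Ep_mul, add_neg_cancel, Ep_zero]
  have h2 : Em Y * Em (-Y) = 1 := by rw [Em_mul, add_neg_cancel, Em_zero]
  calc al1 X Y * al1 (-X) (-Y)
      = Ep (-X) * (Em Y * ((Ep (-X) * Ep (-(-X))) * Em (-Y))) * Ep (-(-X)) := by
        simp only [al1_def, Matrix.mul_assoc]
    _ = 1 := by rw [h1, Matrix.one_mul, h2, Matrix.mul_one, h1]

theorem al1_zero : al1 (0 : Matrix ι ι R) 0 = 1 := by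
  rw [al1_def, neg_zero, Ep_zero, Em_zero, Matrix.mul_one, Matrix.mul_one]

theorem al1_sq {A B : Matrix ι ι R} (h : A * B = 1) : al1 B A * al1 B A = -1 := by
  have h' : B * A = 1 := mul_eq_one_comm.1 h
  have e : al1 B A = fromBlocks 0 (-B) A 0 := by
    simp [al1_def, Ep_def, Em_def, fromBlocks_multiply, h, h']
  rw [e, ← fromBlocks_one, fromBlocks_neg]
  simp [fromBlocks_multiply, h, h']

/-- `al` with a general cut-off matrix. -/
def gal (D A B : Matrix ι ι R) : Matrix (ι ⊕ ι) (ι ⊕ ι) R :=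
  al1 (D * B * D) (D * A * D) * al1 (D * B * D) (D * A * D)

theorem gal_def (D A B : Matrix ι ι R) :
    gal D A B = al1 (D * B * D) (D * A * D) * al1 (D * B * D) (D * A * D) := rfl

theorem gal_mul_neg (D A B : Matrix ι ι R) : gal D A B * gal D (-A) (-B) = 1 := by
  simp only [gal_def, Matrix.mul_neg, Matrix.neg_mul]
  rw [Matrix.mul_assoc, ← Matrix.mul_assoc (al1 _ _) (al1 (-_) (-_)), al1_mul_neg, Matrix.one_mul,
    al1_mul_neg]

theorem gal_map {R' : Type*} [CommRing R'] (φ : R →+* R') (D A B : Matrix ι ι R) :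
    (gal D A B).map φ = gal (D.map φ) (A.map φ) (B.map φ) := by
  simp only [gal_def, al1_def, Ep_def, Em_def, Matrix.map_mul, fromBlocks_map,
    Matrix.map_neg φ (map_neg φ), Matrix.map_zero φ (map_zero φ),
    Matrix.map_one φ (map_zero φ) (map_one φ)]

/-- The symplectic form. -/
def Om (ι R : Type*) [DecidableEq ι] [CommRing R] : Matrix (ι ⊕ ι) (ι ⊕ ι) R :=
  fromBlocks 0 1 (-1) 0

theorem anchor : True := by
  have := @gal.eq_1.{0, 0}
  have := @Om.eq_1.{0, 0}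
  trivial

omit [Fintype ι] in
theorem Om_def : Om ι R = fromBlocks 0 1 (-1) 0 := rfl

variable [StarRing R]

theorem iso_mul {M N : Matrix (ι ⊕ ι) (ι ⊕ ι) R} (hM : Mᴴ * Om ι R * M = Om ι R)
    (hN : Nᴴ * Om ι R * N = Om ι R) : (M * N)ᴴ * Om ι R * (M * N) = Om ι R := by
  calc (M * N)ᴴ * Om ι R * (M * N) = Nᴴ * (Mᴴ * Om ι R * M) * N := by
        simp only [conjTranspose_mul, Matrix.mul_assoc]
    _ = Om ι R := by rw [hM, hN]

theorem iso_Ep {X : Matrix ι ι R} (h : X.IsHermitian) : (Ep X)ᴴ * Om ι R * Ep X = Om ι R := by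
  simp [Ep_def, Om_def, fromBlocks_conjTranspose, fromBlocks_multiply, h.eq]

theorem iso_Em {X : Matrix ι ι R} (h : X.IsHermitian) : (Em X)ᴴ * Om ι R * Em X = Om ι R := by
  simp [Em_def, Om_def, fromBlocks_conjTranspose, fromBlocks_multiply, h.eq]

theorem iso_gal {D A B : Matrix ι ι R} (hD : D.IsHermitian) (hA : A.IsHermitian)
    (hB : B.IsHermitian) : (gal D A B)ᴴ * Om ι R * gal D A B = Om ι R := by
  have h : ∀ {A : Matrix ι ι R}, A.IsHermitian → (D * A * D).IsHermitian := fun hA => by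
    rw [IsHermitian, conjTranspose_mul, conjTranspose_mul, hD.eq, hA.eq, Matrix.mul_assoc]
  have h1 := iso_mul (iso_mul (iso_Ep (h hB).neg) (iso_Em (h hA))) (iso_Ep (h hB).neg)
  exact iso_mul h1 h1

end Alg

section Cst

variable {ι R : Type*} [DecidableEq ι] [CommRing R] [Algebra ℂ R]

theorem dg_def (f : ι → ℂ) : dg R f = diagonal fun i => algebraMap ℂ R (f i) := rfl

theorem Bt_def (τ : ι → ℂ) :
    Bt R τ = fromBlocks 0 (dg R τ) (dg R fun i => star (τ i)) 0 := rfl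

theorem dg_const (z : ℂ) : dg R (fun _ : ι => z) = z • (1 : Matrix ι ι R) := by
  rw [dg_def, Algebra.algebraMap_eq_smul_one, ← diagonal_one, ← diagonal_smul]
  rfl

theorem dg_map {R' : Type*} [CommRing R'] [Algebra ℂ R'] (φ : R →ₐ[ℂ] R') (f : ι → ℂ) :
    (dg R f).map φ = dg R' f := by
  simp only [dg_def, diagonal_map (map_zero φ), AlgHom.commutes]

theorem Bt_map {R' : Type*} [CommRing R'] [Algebra ℂ R'] (φ : R →ₐ[ℂ] R') (τ : ι → ℂ) :
    (Bt R τ).map φ = Bt R' τ := by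
  simp only [Bt_def, fromBlocks_map, dg_map, Matrix.map_zero φ (map_zero φ)]

theorem Bt_const {z : ℂ} (hz : star z = -z) : Bt R (fun _ : ι => z) = z • Om ι R := by
  simp [Bt_def, Om_def, dg_const, fromBlocks_smul, -RCLike.star_def, hz]

variable [Fintype ι]

theorem dg_mul (f g : ι → ℂ) : dg R f * dg R g = dg R fun i => f i * g i := by
  simp only [dg_def, diagonal_mul_diagonal, map_mul]

theorem Bt_mul_Bt {τ : ι → ℂ} (hτ : ∀ i, ‖τ i‖ = 1) : Bt R τ * Bt R τ = 1 := by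
  have h1 : ∀ i, τ i * star (τ i) = 1 := fun i => by
    rw [Complex.star_def, Complex.mul_conj, Complex.normSq_eq_norm_sq, hτ]; simp
  have h2 : ∀ i, star (τ i) * τ i = 1 := fun i => by rw [mul_comm, h1]
  rw [Bt_def, fromBlocks_multiply, dg_mul, dg_mul]
  simp only [h1, h2, dg_const, one_smul, Matrix.mul_zero, Matrix.zero_mul, add_zero, zero_add,
    fromBlocks_one]

theorem al_def (ρ : ι → ℝ) (A B : Matrix ι ι R) :
    al ρ A B = gal (dg R fun i => (ρ i : ℂ)) A B := rfl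

theorem al_zero (A B : Matrix ι ι R) : al (fun _ => 0) A B = 1 := by
  simp [al_def, gal_def, dg_const, al1_zero]

theorem al_one {A B : Matrix ι ι R} (h : A * B = 1) : al (fun _ => 1) A B = -1 := by
  simp [al_def, gal_def, dg_const, al1_sq h]

variable [StarRing R]

theorem cutA_def (ρ : ι → ℝ) (τ : ι → ℂ) (A B : Matrix ι ι R) :
    cutA ρ τ A B = (al ρ A B)ᴴ * Bt R τ * al ρ A B := rfl

theorem cutB_def (ρ : ι → ℝ) (τ : ι → ℂ) (A B : Matrix ι ι R) :
    cutB ρ τ A B = al ρ (-A) (-B) * Bt R τ * (al ρ (-A) (-B))ᴴ := rfl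

variable [StarModule ℂ R]

omit [Fintype ι] in
theorem dg_conjTranspose (f : ι → ℂ) : (dg R f)ᴴ = dg R fun i => star (f i) := by
  rw [dg_def, dg_def, diagonal_conjTranspose]
  congr 1
  funext i
  exact (algebraMap_star_comm (f i)).symm

omit [Fintype ι] in
theorem Bt_isHermitian (τ : ι → ℂ) : (Bt R τ).IsHermitian := by
  simp only [IsHermitian, Bt_def, fromBlocks_conjTranspose, conjTranspose_zero, dg_conjTranspose,
    star_star]

theorem cutA_const (ρ : ι → ℝ) {z : ℂ} (hz : star z = -z) {A B : Matrix ι ι R}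
    (hA : A.IsHermitian) (hB : B.IsHermitian) : cutA ρ (fun _ => z) A B = Bt R fun _ => z := by
  rw [cutA_def, Bt_const hz, Matrix.mul_smul, Matrix.smul_mul, al_def, iso_gal _ hA hB]
  simp [IsHermitian, dg_conjTranspose]

end Cst

section Control

variable {ι R X : Type*} [Fintype ι] [DecidableEq ι] [CommRing R] [StarRing R] [Algebra ℂ R]

theorem M_gal {c : Ctl R X} {b : ι → X} {r : ℕ} {D A B : Matrix ι ι R} (hD : c.M b b 0 D)
    (hA : c.M b b r A) (hB : c.M b b r B) :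
    c.M (Sum.elim b b) (Sum.elim b b) (6 * r) (gal D A B) := by
  have h : ∀ {A : Matrix ι ι R}, c.M b b r A → c.M b b r (D * A * D) := fun hA =>
    (hD.mul hA).mul' hD (by omega)
  have hp : c.M (Sum.elim b b) (Sum.elim b b) r (Ep (-(D * B * D))) :=
    .fromBlocks .one (h hB).neg .zero .one
  have hm : c.M (Sum.elim b b) (Sum.elim b b) r (Em (D * A * D)) :=
    .fromBlocks .one .zero (h hA) .one
  have h1 := (hp.mul hm).mul hp
  exact h1.mul' h1 (by omega)

omit [Fintype ι] in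
theorem M_Bt {c : Ctl R X} {b : ι → X} (τ : ι → ℂ) :
    c.M (Sum.elim b b) (Sum.elim b b) 0 (Bt R τ) := .fromBlocks .zero (.dg _) (.dg _) .zero

/-- The control structure that expresses locality at `x`. -/
def locCtl (R : Type*) [CommRing R] [StarRing R] [Algebra ℂ R] [StarModule ℂ R] (x : X) :
    Ctl R X where
  rel _ _ _ := True
  rel_refl _ := trivial
  rel_symm _ := trivial
  rel_trans _ _ := trivial
  rel_mono _ _ := trivial
  V y z _ :=
    { carrier := {f | (y = x ∨ z = x) → (y ≠ z → f = 0) ∧ ∃ w : ℂ, f = algebraMap ℂ R w}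
      zero_mem' := fun _ => ⟨fun _ => rfl, 0, by simp⟩
      add_mem' := fun {f g} hf hg h => by
        obtain ⟨h1, w, h2⟩ := hf h
        obtain ⟨h3, w', h4⟩ := hg h
        exact ⟨fun hn => by rw [h1 hn, h3 hn, add_zero], w + w', by rw [h2, h4, map_add]⟩
      smul_mem' := fun a f hf h => by
        obtain ⟨h1, w, h2⟩ := hf h
        exact ⟨fun hn => by rw [h1 hn, smul_zero], a * w, by rw [h2, map_mul, Algebra.smul_def]⟩ }
  eq_zero := fun _ h => (h trivial).elim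
  one_mem _ := fun _ => ⟨fun h => (h rfl).elim, 1, by simp⟩
  mono := fun _ _ h => h
  mul_mem := fun {y z w _ _ f g} hf hg h => by
    by_cases hz : z = x
    · obtain ⟨h1, a, h2⟩ := hf (Or.inr hz)
      obtain ⟨h3, a', h4⟩ := hg (Or.inl hz)
      refine ⟨fun hn => ?_, a * a', by rw [h2, h4, map_mul]⟩
      by_cases hy : y = z
      · rw [h3 (hy ▸ hn), mul_zero]
      · rw [h1 hy, zero_mul]
    · have : f * g = 0 := by
        rcases h with h | h
        · rw [(hf (Or.inl h)).1 (fun e => hz (e ▸ h)), zero_mul]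
        · rw [(hg (Or.inr h)).1 (fun e => hz (e ▸ h)), mul_zero]
      exact ⟨fun _ => this, 0, by rw [this, map_zero]⟩
  star_mem := fun {y z _ f} hf h => by
    obtain ⟨h1, a, h2⟩ := hf h.symm
    exact ⟨fun hn => by rw [h1 (Ne.symm hn), star_zero], star a, by
      rw [h2, algebraMap_star_comm]⟩

omit [Fintype ι] [DecidableEq ι] in
theorem loc_of_M [StarModule ℂ R] {b : ι → X} {x : X} {r : ℕ} {A : Matrix ι ι R}
    (h : (locCtl R x).M b b r A) : Loc b x A := fun i j hi =>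
  have h1 := h j i (Or.inr hi)
  ⟨fun hj => h1.1 (hi ▸ hj), h1.2⟩

omit [Fintype ι] [DecidableEq ι] in
theorem M_of_loc [StarModule ℂ R] {b : ι → X} {x : X} {A : Matrix ι ι R} (hA : A.IsHermitian)
    (h : Loc b x A) : (locCtl R x).M b b 0 A := by
  have key : ∀ i j, b j = x → A i j ∈ (locCtl R x).V (b i) (b j) 0 := fun i j hj _ =>
    ⟨fun hn => (h j i hj).1 (hj ▸ hn), (h j i hj).2⟩
  intro i j hij
  rcases hij with hi | hj
  · have := (locCtl R x).star_mem (key j i hi)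
    rw [hA.apply] at this
    exact this (Or.inl hi)
  · exact key i j hj (Or.inr hj)

/-- Pairs of controlled entries that agree near `x`. -/
def agCtl (R : Type*) [CommRing R] [StarRing R] [Algebra ℂ R] (ρ : CRel X) (x : X) (Rr : ℕ) :
    Ctl (R × R) X where
  toCRel := ρ
  V y z r :=
    { carrier := {f | f ∈ (ρ.plain (R × R)).V y z r ∧
        ∀ s, s + r ≤ Rr → (ρ.rel x y s ∨ ρ.rel x z s) → f.1 = f.2}
      zero_mem' := ⟨Submodule.zero_mem _, fun _ _ _ => rfl⟩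
      add_mem' := fun {f g} hf hg => ⟨Submodule.add_mem _ hf.1 hg.1, fun s h1 h2 => by
        rw [Prod.fst_add, Prod.snd_add, hf.2 s h1 h2, hg.2 s h1 h2]⟩
      smul_mem' := fun a f hf => ⟨Submodule.smul_mem _ a hf.1, fun s h1 h2 => by
        rw [Prod.smul_fst, Prod.smul_snd, hf.2 s h1 h2]⟩ }
  eq_zero := fun hf h => (ρ.plain (R × R)).eq_zero hf.1 h
  one_mem y := ⟨(ρ.plain (R × R)).one_mem y, fun _ _ _ => rfl⟩
  mono := fun hrs _ hf => ⟨(ρ.plain (R × R)).mono hrs hf.1, fun s h1 h2 => hf.2 s (by omega) h2⟩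
  mul_mem := fun {y z w r r' f g} hf hg => ⟨(ρ.plain (R × R)).mul_mem hf.1 hg.1, fun s h1 h2 => by
    by_cases h0 : f * g = 0
    · rw [h0]; rfl
    have a1 : ρ.rel y z r := hf.1 (left_ne_zero_of_mul h0)
    have a2 : ρ.rel z w r' := hg.1 (right_ne_zero_of_mul h0)
    rw [Prod.fst_mul, Prod.snd_mul]
    rcases h2 with h2 | h2
    · rw [hf.2 s (by omega) (Or.inl h2), hg.2 (s + r) (by omega) (Or.inl (ρ.rel_trans h2 a1))]
    · rw [hg.2 s (by omega) (Or.inr h2),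
        hf.2 (s + r') (by omega) (Or.inr (ρ.rel_trans h2 (ρ.rel_symm a2)))]⟩
  star_mem := fun hf => ⟨(ρ.plain (R × R)).star_mem hf.1, fun s h1 h2 => by
    rw [Prod.fst_star, Prod.snd_star, hf.2 s h1 h2.symm]⟩

omit [Fintype ι] in
theorem M_ag_diagonal {ρ : CRel X} {x : X} {Rr : ℕ} {b : ι → X} {f f' : ι → ℂ}
    (h : ∀ i, ρ.rel x (b i) Rr → f i = f' i) :
    (agCtl R ρ x Rr).M b b 0 (diagonal fun i => (algebraMap ℂ R (f i), algebraMap ℂ R (f' i))) :=
  .diagonal fun i => ⟨fun _ => ρ.rel_refl _, fun s h1 h2 => by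
    rw [h i (ρ.rel_mono (by omega) (h2.elim id id))]⟩

omit [Fintype ι] [DecidableEq ι] in
theorem M_ag_diag {ρ : CRel X} {x : X} {Rr r : ℕ} {b : ι → X} {A : Matrix ι ι R}
    (hA : (ρ.plain R).M b b r A) : (agCtl R ρ x Rr).M b b r (A.map fun a => (a, a)) := fun i j =>
  ⟨fun h => hA i j fun h0 => h (by rw [map_apply, h0]; rfl), fun _ _ _ => rfl⟩

/-- The columns over `x` only depend on the cut near `x`. -/
theorem cut_agree {ρ : CRel X} {x : X} {Rr r : ℕ} {b : ι → X} {f f' : ι → ℝ} {τ τ' : ι → ℂ}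
    {A B : Matrix ι ι R} (hr : 12 * r ≤ Rr) (hA : (ρ.plain R).M b b r A)
    (hB : (ρ.plain R).M b b r B) (hf : ∀ i, ρ.rel x (b i) Rr → f i = f' i)
    (hτ : ∀ i, ρ.rel x (b i) Rr → τ i = τ' i) (i j : ι ⊕ ι) (hj : Sum.elim b b j = x) :
    cutA f τ A B i j = cutA f' τ' A B i j ∧ cutB f τ A B i j = cutB f' τ' A B i j := by
  have hD := M_ag_diagonal (R := R) (f := fun i => (f i : ℂ)) (f' := fun i => (f' i : ℂ))
    fun i hi => by rw [hf i hi]
  have hT := Ctl.M.fromBlocks .zero (M_ag_diagonal (R := R) hτ)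
    (M_ag_diagonal (R := R) (f := fun i => star (τ i)) (f' := fun i => star (τ' i))
      fun i hi => by rw [hτ i hi]) .zero
  have h1 := M_gal hD (M_ag_diag hA) (M_ag_diag hB)
  have h2 := M_gal hD (M_ag_diag hA.neg) (M_ag_diag hB.neg)
  have hx : ρ.rel x (Sum.elim b b j) 0 := hj ▸ ρ.rel_refl _
  have k1 := (((h1.conjTranspose.mul hT).mul h1) i j).2 0 (by omega) (Or.inr hx)
  have k2 := (((h2.mul hT).mul h2.conjTranspose) i j).2 0 (by omega) (Or.inr hx)
  have e1 : ∀ M : Matrix (ι ⊕ ι) (ι ⊕ ι) (R × R), (M i j).1 = M.map (RingHom.fst R R) i j :=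
    fun _ => rfl
  have e2 : ∀ M : Matrix (ι ⊕ ι) (ι ⊕ ι) (R × R), (M i j).2 = M.map (RingHom.snd R R) i j :=
    fun _ => rfl
  rw [e1, e2] at k1 k2
  simp only [Matrix.map_mul, conjTranspose_map (RingHom.fst R R) fun _ => rfl,
    conjTranspose_map (RingHom.snd R R) fun _ => rfl, gal_map, fromBlocks_map,
    diagonal_map (map_zero (RingHom.fst R R)), diagonal_map (map_zero (RingHom.snd R R)),
    Matrix.map_zero _ (map_zero (RingHom.fst R R)),
    Matrix.map_zero _ (map_zero (RingHom.snd R R))] at k1 k2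
  exact ⟨k1, k2⟩

omit [Fintype ι] [DecidableEq ι] [StarRing R] in
theorem loc_congr {b : ι → X} {x : X} {A B : Matrix ι ι R} (hB : Loc b x B)
    (h : ∀ i j, b j = x → A i j = B i j) : Loc b x A := fun i j hi => by
  rw [h j i hi]
  exact hB i j hi

end Control

end CutAux

open CutAux

variable {ι R X : Type*} [Fintype ι] [DecidableEq ι] [CommRing R] [StarRing R] [Algebra ℂ R]
  [StarModule ℂ R]

theorem al_mul_al_neg (ρ : ι → ℝ) (A B : Matrix ι ι R) : al ρ A B * al ρ (-A) (-B) = 1 :=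
  gal_mul_neg _ A B

theorem al_neg_mul_al (ρ : ι → ℝ) (A B : Matrix ι ι R) : al ρ (-A) (-B) * al ρ A B = 1 :=
  mul_eq_one_comm.1 (al_mul_al_neg ρ A B)

theorem cutA_isHermitian (ρ : ι → ℝ) (τ : ι → ℂ) (A B : Matrix ι ι R) :
    (cutA ρ τ A B).IsHermitian :=
  isHermitian_conjTranspose_mul_mul _ (Bt_isHermitian τ)

theorem HI_cut (ρ : ι → ℝ) {τ : ι → ℂ} (hτ : ∀ i, ‖τ i‖ = 1) (A B : Matrix ι ι R) :
    HI (cutA ρ τ A B) (cutB ρ τ A B) := by
  refine ⟨cutA_isHermitian ρ τ A B, isHermitian_mul_mul_conjTranspose _ (Bt_isHermitian τ), ?_⟩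
  calc cutA ρ τ A B * cutB ρ τ A B = (al ρ A B)ᴴ * (Bt R τ * ((al ρ A B * al ρ (-A) (-B)) *
        Bt R τ)) * (al ρ (-A) (-B))ᴴ := by simp only [cutA_def, cutB_def, Matrix.mul_assoc]
    _ = 1 := by
      rw [al_mul_al_neg, Matrix.one_mul, Bt_mul_Bt hτ, Matrix.mul_one, ← conjTranspose_mul,
        al_neg_mul_al, conjTranspose_one]

theorem al_map {R' : Type*} [CommRing R'] [StarRing R'] [Algebra ℂ R'] (φ : R →⋆ₐ[ℂ] R')
    (ρ : ι → ℝ) (A B : Matrix ι ι R) : (al ρ A B).map φ = al ρ (A.map φ) (B.map φ) := by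
  rw [al_def, al_def, ← dg_map (φ : R →ₐ[ℂ] R')]
  exact gal_map (φ : R →+* R') _ A B

theorem cutA_map {R' : Type*} [CommRing R'] [StarRing R'] [Algebra ℂ R'] (φ : R →⋆ₐ[ℂ] R')
    (ρ : ι → ℝ) (τ : ι → ℂ) (A B : Matrix ι ι R) :
    (cutA ρ τ A B).map φ = cutA ρ τ (A.map φ) (B.map φ) := by
  rw [cutA_def, cutA_def, Matrix.map_mul, Matrix.map_mul, conjTranspose_map _ (map_star φ), al_map,
    ← Bt_map (φ : R →ₐ[ℂ] R')]
  rfl

theorem cutB_map {R' : Type*} [CommRing R'] [StarRing R'] [Algebra ℂ R'] (φ : R →⋆ₐ[ℂ] R')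
    (ρ : ι → ℝ) (τ : ι → ℂ) (A B : Matrix ι ι R) :
    (cutB ρ τ A B).map φ = cutB ρ τ (A.map φ) (B.map φ) := by
  rw [cutB_def, cutB_def, Matrix.map_mul, Matrix.map_mul, conjTranspose_map _ (map_star φ), al_map,
    ← Bt_map (φ : R →ₐ[ℂ] R'), Matrix.map_neg _ (map_neg φ), Matrix.map_neg _ (map_neg φ)]
  rfl

theorem evM_cutA (j : ℕ) (ρ : ι → ℝ) (τ : ι → ℂ) (A B : Matrix ι ι Seq) :
    evM j (cutA ρ τ A B) = cutA ρ τ (evM j A) (evM j B) :=
  cutA_map (Pi.evalStarAlgHom ℂ (fun _ : ℕ => ℂ) j) ρ τ A B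

theorem evM_cutB (j : ℕ) (ρ : ι → ℝ) (τ : ι → ℂ) (A B : Matrix ι ι Seq) :
    evM j (cutB ρ τ A B) = cutB ρ τ (evM j A) (evM j B) :=
  cutB_map (Pi.evalStarAlgHom ℂ (fun _ : ℕ => ℂ) j) ρ τ A B

theorem Ctl.M.cutA {c : Ctl R X} {b : ι → X} {r : ℕ} {A B : Matrix ι ι R} (hA : c.M b b r A)
    (hB : c.M b b r B) (ρ : ι → ℝ) (τ : ι → ℂ) :
    c.M (Sum.elim b b) (Sum.elim b b) (12 * r) (cutA ρ τ A B) := by
  have h := M_gal (Ctl.M.dg fun i => (ρ i : ℂ)) hA hB
  exact (h.conjTranspose.mul (M_Bt τ)).mul' h (by omega)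

theorem Ctl.M.cutB {c : Ctl R X} {b : ι → X} {r : ℕ} {A B : Matrix ι ι R} (hA : c.M b b r A)
    (hB : c.M b b r B) (ρ : ι → ℝ) (τ : ι → ℂ) :
    c.M (Sum.elim b b) (Sum.elim b b) (12 * r) (cutB ρ τ A B) := by
  have h := M_gal (Ctl.M.dg fun i => (ρ i : ℂ)) hA.neg hB.neg
  exact (h.mul (M_Bt τ)).mul' h.conjTranspose (by omega)

/-- Locality persists. -/
theorem Loc.cut {b : ι → X} {x : X} {A B : Matrix ι ι R} (h : HI A B) (hA : Loc b x A)
    (hB : Loc b x B) (ρ : ι → ℝ) (τ : ι → ℂ) :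
    Loc (Sum.elim b b) x (cutA ρ τ A B) ∧ Loc (Sum.elim b b) x (cutB ρ τ A B) :=
  ⟨loc_of_M ((M_of_loc h.hA hA).cutA (M_of_loc h.hB hB) ρ τ),
    loc_of_M ((M_of_loc h.hA hA).cutB (M_of_loc h.hB hB) ρ τ)⟩

/-- Far from the cut the result is local. -/
theorem Cst.loc_cut {ρ : CRel X} {b : ι → X} {r Rr : ℕ} {x : X} {q : Cut X} {A B : Matrix ι ι R}
    (hq : Cst ρ Rr x q) (hr : 12 * r ≤ Rr) (h : HI A B) (hA : (ρ.plain R).M b b r A)
    (hB : (ρ.plain R).M b b r B) :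
    Loc (Sum.elim b b) x (cutA (q.1 ∘ b) (q.2 ∘ b) A B) ∧
      Loc (Sum.elim b b) x (cutB (q.1 ∘ b) (q.2 ∘ b) A B) := by
  have key : ∀ (f' : ι → ℝ) (τ' : ι → ℂ), (∀ i, ρ.rel x (b i) Rr → q.1 (b i) = f' i) →
      (∀ i, ρ.rel x (b i) Rr → q.2 (b i) = τ' i) → cutA f' τ' A B = Bt R τ' →
      cutB f' τ' A B = Bt R τ' → Loc (Sum.elim b b) x (cutA (q.1 ∘ b) (q.2 ∘ b) A B) ∧
        Loc (Sum.elim b b) x (cutB (q.1 ∘ b) (q.2 ∘ b) A B) := fun f' τ' h1 h2 h3 h4 =>
    ⟨loc_congr (loc_of_M (M_Bt τ')) fun i j hj => h3 ▸ (cut_agree hr hA hB h1 h2 i j hj).1,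
      loc_congr (loc_of_M (M_Bt τ')) fun i j hj => h4 ▸ (cut_agree hr hA hB h1 h2 i j hj).2⟩
  have key2 : ∀ z : ℂ, star z = -z → ‖z‖ = 1 → (∀ y, ρ.rel x y Rr → q.2 y = z) →
      Loc (Sum.elim b b) x (cutA (q.1 ∘ b) (q.2 ∘ b) A B) ∧
        Loc (Sum.elim b b) x (cutB (q.1 ∘ b) (q.2 ∘ b) A B) := fun z h1 h2 h3 => by
    have e := cutA_const (q.1 ∘ b) h1 h.hA h.hB
    refine key (q.1 ∘ b) (fun _ => z) (fun _ _ => rfl) (fun i => h3 _) e ?_
    have e2 := (HI_cut (q.1 ∘ b) (τ := fun _ => z) (fun _ => h2) A B).mul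
    rw [e] at e2
    rw [← Matrix.one_mul (cutB _ _ _ _), ← Bt_mul_Bt (τ := fun _ => z) fun _ => h2,
      Matrix.mul_assoc, e2, Matrix.mul_one]
  rcases hq with hq | hq | hq | hq
  · exact key (fun _ => 0) (q.2 ∘ b) (fun i => hq _) (fun _ _ => rfl)
      (by simp [cutA_def, al_zero]) (by simp [cutB_def, al_zero])
  · exact key (fun _ => 1) (q.2 ∘ b) (fun i => hq _) (fun _ _ => rfl)
      (by simp [cutA_def, al_one h.mul]) (by simp [cutB_def, al_one h.neg.mul])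
  · exact key2 I (by simp) (by simp) hq
  · exact key2 (-I) (by simp) (by simp) hq

theorem continuous_al {P : Type*} [TopologicalSpace P] {ρ : P → ι → ℝ}
    {A B : P → Matrix ι ι ℂ} (hρ : Continuous ρ) (hA : Continuous A)
    (hB : Continuous B) : Continuous fun s => al (ρ s) (A s) (B s) := by
  simp only [al_def, gal_def, al1_def, Ep_def, Em_def, dg_def, Algebra.algebraMap_self_apply]
  fun_prop

omit [Fintype ι] in
theorem continuous_Bt {P : Type*} [TopologicalSpace P] {τ : P → ι → ℂ} (hτ : Continuous τ) :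
    Continuous fun s => Bt ℂ (τ s) := by
  simp only [Bt_def, dg_def, Algebra.algebraMap_self_apply]
  fun_prop

theorem continuous_cutA {P : Type*} [TopologicalSpace P] {ρ : P → ι → ℝ} {τ : P → ι → ℂ}
    {A B : P → Matrix ι ι ℂ} (hρ : Continuous ρ) (hτ : Continuous τ) (hA : Continuous A)
    (hB : Continuous B) : Continuous fun s => cutA (ρ s) (τ s) (A s) (B s) :=
  ((continuous_al hρ hA hB).matrix_conjTranspose.matrix_mul (continuous_Bt hτ)).matrix_mul
    (continuous_al hρ hA hB)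

theorem continuous_cutB {P : Type*} [TopologicalSpace P] {ρ : P → ι → ℝ} {τ : P → ι → ℂ}
    {A B : P → Matrix ι ι ℂ} (hρ : Continuous ρ) (hτ : Continuous τ) (hA : Continuous A)
    (hB : Continuous B) : Continuous fun s => cutB (ρ s) (τ s) (A s) (B s) :=
  ((continuous_al hρ hA.neg hB.neg).matrix_mul (continuous_Bt hτ)).matrix_mul
    (continuous_al hρ hA.neg hB.neg).matrix_conjTranspose

end Crest.Agent.R217
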