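import Crest.Agent.R217.IndPath

/-! # Row 217: the form of a Poincaré datum -/

set_option autoImplicit false
set_option linter.unusedSectionVars false

namespace Crest.Agent.R217

open Matrix Complex

namespace DatAux

section Abstract

variable {M : Type*} [Ring M]

theorem u_sq {D G : M} (hD : D * D = 0) (h : D * G + G * D = 1) :
    (D + G * D * G) * (D + G * D * G) = 1 := by
  have h1 : D * G * D = D := by linear_combination (norm := noncomm_ring) D * h - hD * G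
  have h2 : D * G * G * D = 0 := by
    linear_combination (norm := noncomm_ring) D * G * h - h1 * G
  linear_combination (norm := noncomm_ring) hD + h1 * G + G * h1 + h + G * h2 * G

theorem contr_of {D Γ N N' : M} (hD : D * D = 0) (h : D * Γ + Γ * D = N) (h1 : N' * N = 1)
    (h2 : N * N' = 1) : D * (N' * Γ) + N' * Γ * D = 1 := by
  have h3 : D * N = N * D := by
    linear_combination (norm := noncomm_ring) hD * Γ - Γ * hD - D * h + h * D
  have h4 : D * N' = N' * D := by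
    linear_combination (norm := noncomm_ring) N' * D * h2 - N' * h3 * N' - h1 * D * N'
  linear_combination (norm := noncomm_ring) h4 * Γ + N' * h + h1

theorem contr_conj {D Γ g g' : M} (h : D * Γ + Γ * D = 1) (h1 : g' * g = 1) (h2 : g * g' = 1) :
    g * D * g' * (g * Γ * g') + g * Γ * g' * (g * D * g') = 1 := by
  linear_combination (norm := noncomm_ring) g * D * h1 * Γ * g' + g * Γ * h1 * D * g' +
    g * h * g' + h2

theorem inv_anti {d δ S S' : M} (h1 : S * S' = 1) (h2 : S' * S = 1) (anti : d * S + S * δ = 0) :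
    δ * S' + S' * d = 0 := by
  linear_combination (norm := noncomm_ring) S' * anti * S' - S' * d * h1 - h2 * δ * S'

end Abstract

variable {ι R X : Type*} [Fintype ι] [DecidableEq ι] [CommRing R] [StarRing R] [Algebra ℂ R]
  [StarModule ℂ R]

omit [StarRing R] [Algebra ℂ R] [StarModule ℂ R] in
theorem Jm_mul_Jm : Jm ι R * Jm ι R = 1 := by
  simp [Jm, fromBlocks_multiply]

omit [Fintype ι] [Algebra ℂ R] [StarModule ℂ R] in
theorem Jm_conj : (Jm ι R)ᴴ = Jm ι R := by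
  simp [Jm, fromBlocks_conjTranspose]

omit [Algebra ℂ R] [StarModule ℂ R] in
theorem Jm_DD {d S : Matrix ι ι R} (hS : S.IsHermitian) : Jm ι R * (DD d S)ᴴ * Jm ι R = DD d S := by
  simp [Jm, DD, fromBlocks_conjTranspose, fromBlocks_multiply, hS.eq]

omit [DecidableEq ι] [Algebra ℂ R] [StarModule ℂ R] in
theorem dd_conj {d : Matrix ι ι R} (dd : d * d = 0) : dᴴ * dᴴ = 0 := by
  rw [← conjTranspose_mul, dd, conjTranspose_zero]

omit [DecidableEq ι] [Algebra ℂ R] [StarModule ℂ R] in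
theorem DD_sq {d S : Matrix ι ι R} (dd : d * d = 0) (anti : d * S + S * dᴴ = 0) :
    DD d S * DD d S = 0 := by
  simp [DD, fromBlocks_multiply, dd, anti, dd_conj dd]

theorem Jm_symJ (Γ : Matrix (ι ⊕ ι) (ι ⊕ ι) R) : Jm ι R * (symJ Γ)ᴴ * Jm ι R = symJ Γ := by
  have hJ := Jm_mul_Jm (ι := ι) (R := R)
  have e : star (1 / 2 : ℂ) = 1 / 2 := by simp
  rw [symJ, conjTranspose_smul, e, Matrix.mul_smul, Matrix.smul_mul]
  congr 1
  simp only [conjTranspose_add, conjTranspose_mul, Jm_conj, conjTranspose_conjTranspose]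
  linear_combination (norm := noncomm_ring) hJ * Γ * Jm ι R * Jm ι R + Γ * hJ

omit [StarModule ℂ R] in
theorem contr_symJ {D Γ : Matrix (ι ⊕ ι) (ι ⊕ ι) R} (hD : Jm ι R * Dᴴ * Jm ι R = D)
    (h : D * Γ + Γ * D = 1) : D * symJ Γ + symJ Γ * D = 1 := by
  have hJ := Jm_mul_Jm (ι := ι) (R := R)
  have h1 : Γᴴ * Dᴴ + Dᴴ * Γᴴ = 1 := by
    simpa only [conjTranspose_add, conjTranspose_mul, conjTranspose_one] using
      congrArg conjTranspose h
  have h2 : D * (Γ + Jm ι R * Γᴴ * Jm ι R) + (Γ + Jm ι R * Γᴴ * Jm ι R) * D = 1 + 1 := by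
    linear_combination (norm := noncomm_ring) h - hD * (Jm ι R * Γᴴ * Jm ι R) -
      Jm ι R * Γᴴ * Jm ι R * hD + Jm ι R * Dᴴ * hJ * Γᴴ * Jm ι R +
      Jm ι R * Γᴴ * hJ * Dᴴ * Jm ι R + Jm ι R * h1 * Jm ι R + hJ
  rw [symJ, Matrix.mul_smul, Matrix.smul_mul, ← smul_add, h2, ← two_smul ℂ, smul_smul]
  simp

omit [StarModule ℂ R] in
theorem M_DD {c : Ctl R X} {b : ι → X} {r : ℕ} {d S : Matrix ι ι R} (hd : c.M b b r d)
    (hS : c.M b b r S) : c.M (Sum.elim b b) (Sum.elim b b) r (DD d S) :=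
  Ctl.M.fromBlocks hd hS Ctl.M.zero hd.conjTranspose

omit [StarModule ℂ R] in
theorem M_uu {c : Ctl R X} {b : ι → X} {r : ℕ} {D Γ : Matrix (ι ⊕ ι) (ι ⊕ ι) R}
    (hD : c.M (Sum.elim b b) (Sum.elim b b) r D) (hΓ : c.M (Sum.elim b b) (Sum.elim b b) r Γ) :
    c.M (Sum.elim b b) (Sum.elim b b) (3 * r) (uu D Γ) := by
  have hG : c.M (Sum.elim b b) (Sum.elim b b) r (symJ Γ) :=
    (hΓ.add ((((Ctl.M.Jm (r := 0)).mul hΓ.conjTranspose).mul' (Ctl.M.Jm (r := 0))
      (by omega)))).smul _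
  exact (hD.of_le (by omega)).add ((hG.mul hD).mul' hG (by omega))

section Ev

variable {ι₁ ι₂ ι₃ : Type*}

theorem evM_mul [Fintype ι₂] (j : ℕ) (A : Matrix ι₁ ι₂ Seq) (B : Matrix ι₂ ι₃ Seq) :
    evM j (A * B) = evM j A * evM j B := by
  ext; simp [Matrix.mul_apply]

theorem evM_add (j : ℕ) (A B : Matrix ι₁ ι₂ Seq) : evM j (A + B) = evM j A + evM j B := rfl

theorem evM_smul (j : ℕ) (z : ℂ) (A : Matrix ι₁ ι₂ Seq) : evM j (z • A) = z • evM j A := rfl

theorem evM_conj (j : ℕ) (A : Matrix ι₁ ι₂ Seq) : evM j Aᴴ = (evM j A)ᴴ := rfl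

theorem evM_zero (j : ℕ) : evM j (0 : Matrix ι₁ ι₂ Seq) = 0 := rfl

theorem evM_one [DecidableEq ι₁] (j : ℕ) : evM j (1 : Matrix ι₁ ι₁ Seq) = 1 :=
  Matrix.map_one _ rfl rfl

omit [Fintype ι] in
theorem evM_Jm (j : ℕ) : evM j (Jm ι Seq) = Jm ι ℂ := by
  rw [Jm, Jm, ← evM_one j, ← evM_zero j]
  exact fromBlocks_map _ _ _ _ _

omit [Fintype ι] [DecidableEq ι] in
theorem evM_DD (j : ℕ) (d S : Matrix ι ι Seq) : evM j (DD d S) = DD (evM j d) (evM j S) :=
  fromBlocks_map _ _ _ _ _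

theorem evM_uu (j : ℕ) (D Γ : Matrix (ι ⊕ ι) (ι ⊕ ι) Seq) :
    evM j (uu D Γ) = uu (evM j D) (evM j Γ) := by
  simp only [uu, symJ, evM_add, evM_mul, evM_smul, evM_conj, evM_Jm]

end Ev

end DatAux

open DatAux

section

variable {ι R X : Type*} [Fintype ι] [DecidableEq ι] [CommRing R] [StarRing R] [Algebra ℂ R]
  [StarModule ℂ R]

theorem Dat.hi {d S : Matrix ι ι R} {Γ : Matrix (ι ⊕ ι) (ι ⊕ ι) R} (h : Dat d S Γ) :
    HI (datA d S Γ) (datB d S Γ) := by
  have hJ := Jm_mul_Jm (ι := ι) (R := R)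
  have hD := Jm_DD (d := d) h.herm
  have hG := Jm_symJ Γ
  have h1 : uu (DD d S) Γ * uu (DD d S) Γ = 1 := u_sq (DD_sq h.dd h.anti) (contr_symJ hD h.contr)
  have h2 : Jm ι R * (uu (DD d S) Γ)ᴴ * Jm ι R = uu (DD d S) Γ := by
    simp only [uu, conjTranspose_add, conjTranspose_mul]
    generalize symJ Γ = G at *
    generalize DD d S = D at *
    generalize Jm ι R = J at *
    linear_combination (norm := noncomm_ring) hD + hG * D * G + J * Gᴴ * J * hD * G +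
      J * Gᴴ * J * J * Dᴴ * J * hG - J * Gᴴ * hJ * Dᴴ * J * J * Gᴴ * J -
      J * Gᴴ * Dᴴ * hJ * Gᴴ * J
  refine ⟨?_, ?_, ?_⟩
  · rw [datA, IsHermitian, conjTranspose_mul, Jm_conj]
    linear_combination (norm := noncomm_ring) Jm ι R * h2 - hJ * (uu (DD d S) Γ)ᴴ * Jm ι R
  · rw [datB, IsHermitian, conjTranspose_mul, Jm_conj]
    linear_combination (norm := noncomm_ring) h2 * Jm ι R - Jm ι R * (uu (DD d S) Γ)ᴴ * hJ
  · rw [datA, datB]
    linear_combination (norm := noncomm_ring) Jm ι R * h1 * Jm ι R + hJ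

theorem Ctl.M.datA {c : Ctl R X} {b : ι → X} {r : ℕ} {d S : Matrix ι ι R}
    {Γ : Matrix (ι ⊕ ι) (ι ⊕ ι) R} (hd : c.M b b r d) (hS : c.M b b r S)
    (hΓ : c.M (Sum.elim b b) (Sum.elim b b) r Γ) :
    c.M (Sum.elim b b) (Sum.elim b b) (3 * r) (datA d S Γ) :=
  (Ctl.M.Jm (r := 0)).mul' (M_uu (M_DD hd hS) hΓ) (by omega)

theorem Ctl.M.datB {c : Ctl R X} {b : ι → X} {r : ℕ} {d S : Matrix ι ι R}
    {Γ : Matrix (ι ⊕ ι) (ι ⊕ ι) R} (hd : c.M b b r d) (hS : c.M b b r S)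
    (hΓ : c.M (Sum.elim b b) (Sum.elim b b) r Γ) :
    c.M (Sum.elim b b) (Sum.elim b b) (3 * r) (datB d S Γ) :=
  (M_uu (M_DD hd hS) hΓ).mul' (Ctl.M.Jm (r := 0)) (by omega)

theorem evM_datA (j : ℕ) (d S : Matrix ι ι Seq) (Γ : Matrix (ι ⊕ ι) (ι ⊕ ι) Seq) :
    evM j (datA d S Γ) = datA (evM j d) (evM j S) (evM j Γ) := by
  simp only [datA, evM_mul, evM_uu, evM_Jm, evM_DD]

theorem evM_datB (j : ℕ) (d S : Matrix ι ι Seq) (Γ : Matrix (ι ⊕ ι) (ι ⊕ ι) Seq) :
    evM j (datB d S Γ) = datB (evM j d) (evM j S) (evM j Γ) := by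
  simp only [datB, evM_mul, evM_uu, evM_Jm, evM_DD]

theorem Dat.evM (j : ℕ) {d S : Matrix ι ι Seq} {Γ : Matrix (ι ⊕ ι) (ι ⊕ ι) Seq} (h : Dat d S Γ) :
    Dat (evM j d) (evM j S) (evM j Γ) where
  dd := by rw [← evM_mul, h.dd, evM_zero]
  herm := by rw [IsHermitian, ← evM_conj, h.herm.eq]
  anti := by rw [← evM_conj, ← evM_mul, ← evM_mul, ← evM_add, h.anti, evM_zero]
  contr := by rw [← evM_DD, ← evM_mul, ← evM_mul, ← evM_add, h.contr, evM_one]

/-- The exotic duality `e S + S e* - S ≃ (2 e - 1) S` is a controlled equivalence. -/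
theorem exists_dat {c : Ctl R X} {b : ι → X} {d S S' e Lh Mh : Matrix ι ι R} (dd : d * d = 0)
    (hS : HI S S') (anti : d * S + S * dᴴ = 0) (comm : d * e = e * d)
    (symm : e * S - S * eᴴ = d * Lh - Lh * dᴴ) (idem : e * e - e = d * Mh + Mh * d)
    (cd : c.M b b 1 d) (cS : c.M b b 1 S) (cS' : c.M b b 1 S') (ce : c.M b b 1 e)
    (cL : c.M b b 1 Lh) (cM : c.M b b 1 Mh) :
    ∃ Γ, Dat d (e * S + S * eᴴ - S) Γ ∧ c.M (Sum.elim b b) (Sum.elim b b) 8 Γ := by
  have _ := cd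
  have s1 := hS.mul
  have s2 := hS.mul'
  have anti' := inv_anti s1 s2 anti
  have comm' : eᴴ * dᴴ = dᴴ * eᴴ := by
    simpa only [conjTranspose_mul] using congrArg conjTranspose comm
  have hanti : d * (e * S + S * eᴴ - S) + (e * S + S * eᴴ - S) * dᴴ = 0 := by
    linear_combination (norm := noncomm_ring) comm * S + e * anti + anti * eᴴ + S * comm' - anti
  obtain ⟨P, hP⟩ : ∃ P, P = e + e - 1 := ⟨_, rfl⟩
  obtain ⟨M4, hM4⟩ : ∃ M4, M4 = Mh + Mh + Mh + Mh := ⟨_, rfl⟩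
  have cP : c.M b b 1 P := hP ▸ (ce.add ce).sub Ctl.M.one
  have cM4 : c.M b b 1 M4 := hM4 ▸ ((cM.add cM).add cM).add cM
  have cSe : c.M b b 2 (e * S + S * eᴴ - S) :=
    ((ce.mul cS).add (cS.mul ce.conjTranspose)).sub (cS.of_le (by omega))
  have hSe : e * S + S * eᴴ - S = P * S - (d * Lh - Lh * dᴴ) := by
    rw [hP]
    linear_combination (norm := noncomm_ring) -symm
  have hPP : P * P = 1 + d * M4 + M4 * d := by
    rw [hP, hM4]
    linear_combination (norm := noncomm_ring) idem + idem + idem + idem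
  have hdP : d * P = P * d := by
    rw [hP]
    linear_combination (norm := noncomm_ring) comm + comm
  have hherm : (e * S + S * eᴴ - S).IsHermitian := by
    simp only [IsHermitian, conjTranspose_sub, conjTranspose_add, conjTranspose_mul,
      conjTranspose_conjTranspose, hS.hA.eq, add_comm]
  generalize e * S + S * eᴴ - S = Se at *
  obtain ⟨Kc, hKc⟩ : ∃ Kc, Kc = M4 - Lh * S' * P := ⟨_, rfl⟩
  obtain ⟨K', hK'⟩ : ∃ K', K' = S' * M4 * S - S' * P * Lh := ⟨_, rfl⟩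
  have cKc : c.M b b 3 Kc := hKc ▸ (cM4.of_le (by omega)).sub ((cL.mul cS').mul cP)
  have cK' : c.M b b 3 K' := hK' ▸ ((cS'.mul cM4).mul cS).sub ((cS'.mul cP).mul cL)
  have e1 : d * -Kc + Se * (S' * P) + -Kc * d = 1 := by
    rw [hSe, hKc]
    linear_combination (norm := noncomm_ring) P * s1 * P + hPP + Lh * anti' * P - Lh * S' * hdP
  have e2 : dᴴ * (S' * P) + S' * P * d = 0 := by
    linear_combination (norm := noncomm_ring) anti' * P - S' * hdP
  have e3 : dᴴ * K' + (S' * P * Se + K' * dᴴ) = 1 := by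
    rw [hSe, hK']
    linear_combination (norm := noncomm_ring) S' * hPP * S + s2 + anti' * M4 * S +
      S' * M4 * anti - e2 * Lh
  refine ⟨fromBlocks 1 (-(Se * K' - Kc * Se)) 0 1 * fromBlocks (-Kc) 0 (S' * P) K',
    ⟨dd, hherm, hanti, contr_of (N := fromBlocks 1 (Se * K' - Kc * Se) 0 1) (DD_sq dd hanti)
      ?_ ?_ ?_⟩, ?_⟩
  · simp only [DD, fromBlocks_multiply, fromBlocks_add, Matrix.mul_zero, Matrix.zero_mul, add_zero,
      zero_add, e1, e2, e3]
    rw [neg_mul, sub_eq_add_neg]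
  · simp [fromBlocks_multiply]
  · simp [fromBlocks_multiply]
  · refine Ctl.M.mul (r := 5) (s := 3) (Ctl.M.fromBlocks Ctl.M.one
      ((cSe.mul cK').sub (cKc.mul cSe)).neg Ctl.M.zero Ctl.M.one) ?_
    exact Ctl.M.fromBlocks cKc.neg Ctl.M.zero ((cS'.mul cP).of_le (by omega)) cK'

end

namespace DatAux

variable {X : Type*} {ι : Type} [Fintype ι] [DecidableEq ι] {ρ : CRel X} {K : X → Prop}
  {r Rr : ℕ} {L : List (Cut X)}

theorem continuous_uu {d S : ℝ → Matrix ι ι ℂ} {Γ : ℝ → Matrix (ι ⊕ ι) (ι ⊕ ι) ℂ}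
    (hd : Continuous d) (hS : Continuous S) (hΓ : Continuous Γ) :
    Continuous fun t => uu (DD (d t) (S t)) (Γ t) := by
  have hD : Continuous fun t => DD (d t) (S t) :=
    hd.matrix_fromBlocks hS continuous_const hd.matrix_conjTranspose
  have hG : Continuous fun t => symJ (Γ t) :=
    (hΓ.add ((continuous_const.matrix_mul hΓ.matrix_conjTranspose).matrix_mul
      continuous_const)).const_smul (1 / 2 : ℂ)
  exact hD.add ((hG.matrix_mul hD).matrix_mul hG)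

theorem Ind_dat_path (geo : Geo ρ K L Rr) (hr : 12 ^ L.length * (3 * r) ≤ Rr) (b : ι → X)
    {d S : ℝ → Matrix ι ι ℂ} {Γ : ℝ → Matrix (ι ⊕ ι) (ι ⊕ ι) ℂ} (hd : Continuous d)
    (hS : Continuous S) (hΓ : Continuous Γ) (h : ∀ t, Dat (d t) (S t) (Γ t))
    (cd : ∀ t, (ρ.plain ℂ).M b b r (d t)) (cS : ∀ t, (ρ.plain ℂ).M b b r (S t))
    (cΓ : ∀ t, (ρ.plain ℂ).M (Sum.elim b b) (Sum.elim b b) r (Γ t)) (s t : ℝ) :
    Ind K L (Sum.elim b b) (datA (d s) (S s) (Γ s)) (datB (d s) (S s) (Γ s)) =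
      Ind K L (Sum.elim b b) (datA (d t) (S t) (Γ t)) (datB (d t) (S t) (Γ t)) :=
  Ind_path' geo hr _ (A := fun t => datA (d t) (S t) (Γ t)) (B := fun t => datB (d t) (S t) (Γ t))
    (continuous_const.matrix_mul (continuous_uu hd hS hΓ))
    ((continuous_uu hd hS hΓ).matrix_mul continuous_const) (fun t => (h t).hi)
    (fun t => (cd t).datA (cS t) (cΓ t)) (fun t => (cd t).datB (cS t) (cΓ t)) s t

theorem dat_conj {d S S' Y : Matrix ι ι ℂ} (hS : HI S S') (dd : d * d = 0)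
    (anti : d * S + S * dᴴ = 0) (hY : Yᴴ = -Y) : Dat d (S + (d * Y - Y * dᴴ))
      (fromBlocks 1 (-Y) 0 1 * fromBlocks 0 0 S' 0 * fromBlocks 1 Y 0 1) where
  dd := dd
  herm := by
    simp only [IsHermitian, conjTranspose_sub, conjTranspose_add, conjTranspose_mul,
      conjTranspose_conjTranspose, hS.hA.eq, hY]
    noncomm_ring
  anti := by linear_combination (norm := noncomm_ring) anti + dd * Y - Y * dd_conj dd
  contr := by
    have e : DD d (S + (d * Y - Y * dᴴ)) =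
        fromBlocks 1 (-Y) 0 1 * DD d S * fromBlocks 1 Y 0 1 := by
      simp only [DD, fromBlocks_multiply, Matrix.mul_zero, Matrix.zero_mul, add_zero, zero_add,
        Matrix.one_mul, Matrix.mul_one]
      congr 1
      noncomm_ring
    rw [e]
    refine contr_conj ?_ (by simp [fromBlocks_multiply]) (by simp [fromBlocks_multiply])
    simp [DD, fromBlocks_multiply, fromBlocks_add, hS.mul, hS.mul', inv_anti hS.mul hS.mul' anti]

theorem uu_base {S S' : Matrix ι ι ℂ} (hS : HI S S') :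
    uu (DD 0 S) (fromBlocks 0 0 S' 0) = fromBlocks 0 S S' 0 := by
  have e : symJ (fromBlocks 0 0 S' 0) = fromBlocks 0 0 S' 0 := by
    have : Jm ι ℂ * (fromBlocks 0 0 S' 0)ᴴ * Jm ι ℂ = fromBlocks 0 0 S' 0 := by
      simp [Jm, fromBlocks_multiply, fromBlocks_conjTranspose, hS.hB.eq]
    rw [symJ, this, ← two_smul ℂ, smul_smul]
    simp
  rw [uu, e]
  simp [DD, fromBlocks_multiply, fromBlocks_add, hS.mul']

theorem Ind_dat_pos (geo : Geo ρ K L Rr) (hr : 12 ^ L.length * (10 * r) ≤ Rr)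
    (b : ι → X) {d S S' Y : Matrix ι ι ℂ} {Γ : Matrix (ι ⊕ ι) (ι ⊕ ι) ℂ}
    (hS : HI S S') (anti : d * S + S * dᴴ = 0) (hY : Yᴴ = -Y)
    (h : Dat d (S + (d * Y - Y * dᴴ)) Γ)
    (cd : (ρ.plain ℂ).M b b r d) (cS : (ρ.plain ℂ).M b b r S) (cS' : (ρ.plain ℂ).M b b r S')
    (cY : (ρ.plain ℂ).M b b r Y) (cΓ : (ρ.plain ℂ).M (Sum.elim b b) (Sum.elim b b) r Γ) :
    Ind K L (Sum.elim b b) (datA d (S + (d * Y - Y * dᴴ)) Γ) (datB d (S + (d * Y - Y * dᴴ)) Γ) =
      2 * Ind K L b S S' := by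
  have hr' : 12 ^ L.length * (3 * (3 * r)) ≤ Rr := le_trans (Nat.mul_le_mul_left _ (by omega)) hr
  have c1 : ∀ {d Y : Matrix ι ι ℂ}, (ρ.plain ℂ).M b b r d → (ρ.plain ℂ).M b b r Y →
      (ρ.plain ℂ).M b b (3 * r) (S + (d * Y - Y * dᴴ)) := fun cd cY =>
    (cS.of_le (by omega)).add ((cd.mul' cY (by omega)).sub (cY.mul' cd.conjTranspose (by omega)))
  have c2 : ∀ {Y : Matrix ι ι ℂ}, (ρ.plain ℂ).M b b r Y →
      (ρ.plain ℂ).M (Sum.elim b b) (Sum.elim b b) (3 * r)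
        (fromBlocks 1 (-Y) 0 1 * fromBlocks 0 0 S' 0 * fromBlocks 1 Y 0 1) := fun cY =>
    ((Ctl.M.fromBlocks Ctl.M.one cY.neg Ctl.M.zero Ctl.M.one).mul
      (Ctl.M.fromBlocks Ctl.M.zero Ctl.M.zero cS' Ctl.M.zero)).mul'
      (Ctl.M.fromBlocks Ctl.M.one cY Ctl.M.zero Ctl.M.one) (by omega)
  have h1 := dat_conj hS h.dd anti hY
  have p1 := Ind_dat_path geo hr' b (d := fun _ => d) (S := fun _ => S + (d * Y - Y * dᴴ))
    (Γ := fun t => (t : ℂ) • Γ + (1 - t : ℂ) •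
      (fromBlocks 1 (-Y) 0 1 * fromBlocks 0 0 S' 0 * fromBlocks 1 Y 0 1))
    continuous_const continuous_const (by fun_prop)
    (fun t => ⟨h.dd, h.herm, h.anti, by
      have e1 := h.contr
      have e2 := h1.contr
      rw [Matrix.mul_add, Matrix.add_mul, Matrix.mul_smul, Matrix.mul_smul, Matrix.smul_mul,
        Matrix.smul_mul, add_add_add_comm, ← smul_add, ← smul_add, e1, e2, ← add_smul]
      simp⟩)
    (fun _ => cd.of_le (by omega)) (fun _ => c1 cd cY)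
    (fun t => ((cΓ.of_le (by omega)).smul _).add ((c2 cY).smul _)) 1 0
  have hc : ∀ A : Matrix ι ι ℂ, Continuous fun t : ℝ => (t : ℂ) • A := fun A => by fun_prop
  have hs : ∀ (t : ℝ) (A : Matrix ι ι ℂ), ((t : ℂ) • A)ᴴ = (t : ℂ) • Aᴴ := fun t A => by
    rw [conjTranspose_smul]
    simp
  have p2 := Ind_dat_path geo hr' b (d := fun t => (t : ℂ) • d)
    (S := fun t => S + ((t : ℂ) • d * (t : ℂ) • Y - (t : ℂ) • Y * ((t : ℂ) • d)ᴴ))
    (Γ := fun t => fromBlocks 1 (-((t : ℂ) • Y)) 0 1 * fromBlocks 0 0 S' 0 *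
      fromBlocks 1 ((t : ℂ) • Y) 0 1)
    (hc d) (continuous_const.add (((hc d).matrix_mul (hc Y)).sub
      ((hc Y).matrix_mul (hc d).matrix_conjTranspose)))
    (((continuous_const.matrix_fromBlocks (hc Y).neg continuous_const continuous_const).matrix_mul
      continuous_const).matrix_mul
      (continuous_const.matrix_fromBlocks (hc Y) continuous_const continuous_const))
    (fun t => dat_conj hS (by rw [Matrix.smul_mul, Matrix.mul_smul, h.dd, smul_zero, smul_zero])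
      (by rw [hs, Matrix.smul_mul, Matrix.mul_smul, ← smul_add, anti, smul_zero])
      (by rw [hs, hY, smul_neg]))
    (fun t => (cd.smul _).of_le (by omega)) (fun t => c1 (cd.smul _) (cY.smul _))
    (fun t => c2 (cY.smul _)) 1 0
  simp only [ofReal_one, ofReal_zero, one_smul, zero_smul, sub_self, sub_zero, add_zero, zero_add,
    neg_zero, fromBlocks_one, Matrix.one_mul, Matrix.mul_one, Matrix.zero_mul] at p1 p2
  have eA : datA 0 S (fromBlocks 0 0 S' 0) = fromBlocks S' 0 0 S := by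
    rw [datA, uu_base hS]
    simp [Jm, fromBlocks_multiply]
  have eB : datB 0 S (fromBlocks 0 0 S' 0) = fromBlocks S 0 0 S' := by
    rw [datB, uu_base hS]
    simp [Jm, fromBlocks_multiply]
  rw [p1, p2, eA, eB, Ind_fromBlocks K L b b hS.hB hS.hA,
    Ind_swap geo (le_trans (Nat.mul_le_mul_left _ (by omega)) hr) b hS cS cS', two_mul]

end DatAux

/-- If the duality map is homotopic to `± S` with `S` invertible, the index is `± 2 Ind S`. -/
theorem Ind_dat {X : Type*} {ι : Type} [Fintype ι] [DecidableEq ι] {ρ : CRel X} {K : X → Prop}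
    {r Rr : ℕ} {L : List (Cut X)} (geo : Geo ρ K L Rr) (hr : 12 ^ L.length * (10 * r) ≤ Rr)
    (b : ι → X) {d S S' S₁ Y : Matrix ι ι ℂ} {Γ : Matrix (ι ⊕ ι) (ι ⊕ ι) ℂ} (s : ℤ)
    (hs : s = 1 ∨ s = -1) (hS : HI S S') (anti : d * S + S * dᴴ = 0) (hY : Yᴴ = -Y)
    (hS₁ : S₁ = (s : ℂ) • S + (d * Y - Y * dᴴ)) (h : Dat d S₁ Γ)
    (cd : (ρ.plain ℂ).M b b r d) (cS : (ρ.plain ℂ).M b b r S) (cS' : (ρ.plain ℂ).M b b r S')
    (cY : (ρ.plain ℂ).M b b r Y) (cΓ : (ρ.plain ℂ).M (Sum.elim b b) (Sum.elim b b) r Γ) :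
    Ind K L (Sum.elim b b) (datA d S₁ Γ) (datB d S₁ Γ) = s * (2 * Ind K L b S S') := by
  rcases hs with rfl | rfl
  · rw [Int.cast_one, one_smul] at hS₁
    subst hS₁
    rw [one_mul]
    exact Ind_dat_pos geo hr b hS anti hY h cd cS cS' cY cΓ
  · rw [Int.cast_neg, Int.cast_one, neg_smul, one_smul] at hS₁
    subst hS₁
    rw [Ind_dat_pos geo hr b hS.neg (by rw [Matrix.mul_neg, Matrix.neg_mul, ← neg_add, anti,
      neg_zero]) hY h cd cS.neg cS'.neg cY cΓ, Ind_neg]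
    ring

end Crest.Agent.R217
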