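import Crest.Agent.R217.GYC11AuxB

/-! # Row 217: normalised `C^{1,1}` local groups are smooth -/

set_option autoImplicit false

namespace Crest.Agent.R217.C11A

open Topology Filter Set
open scoped ContDiff

namespace NL

variable {L : Type*} [NormedAddCommGroup L] [NormedSpace ℝ L] {N : NL L} {x y : L}
  {Ad : L → L →L[ℝ] L} (hAd : ∀ x, ‖x‖ ≤ 10 → ∀ y, ‖y‖ ≤ 5 → Ad x y = N.c x y)

theorem norm_smul_le' {t a : ℝ} (ht : |t| ≤ 1) (hx : ‖x‖ ≤ a) : ‖t • x‖ ≤ a := by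
  rw [norm_smul, Real.norm_eq_abs]
  exact (mul_le_of_le_one_left (norm_nonneg _) ht).trans hx

include hAd

theorem hasDerivAt_Ad {ad : L →L[ℝ] L →L[ℝ] L}
    (had : ∀ x, ‖x‖ ≤ 1 → ‖Ad x - 1 - ad x‖ ≤ 1 * ‖x‖ ^ 2) (hx : ‖x‖ ≤ 1) {t : ℝ} (ht : |t| ≤ 1) :
    HasDerivAt (fun s : ℝ => Ad (s • x)) (ad x * Ad (t • x)) t := by
  have h1 : HasFDerivAt Ad ad ((t - t) • x) := by
    rw [sub_self, zero_smul]
    exact hasFDerivAt_of_sq (C := 1) one_pos fun v hv => by simpa [Ad_zero hAd] using had v hv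
  have h2 := (h1.comp_hasDerivAt t
    (((hasDerivAt_id t).sub_const t).smul_const x)).mul_const (Ad (t • x))
  rw [one_smul] at h2
  refine h2.congr_of_eventuallyEq ?_
  filter_upwards [Metric.closedBall_mem_nhds t one_pos] with s hs
  have := Ad_add hAd (x := x) (s - t) t (norm_smul_le' hs (by linarith))
    (norm_smul_le' ht (by linarith))
  rw [sub_add_cancel] at this
  exact this

theorem H_eq {ad : L →L[ℝ] L →L[ℝ] L}
    (had : ∀ x, ‖x‖ ≤ 1 → ‖Ad x - 1 - ad x‖ ≤ 1 * ‖x‖ ^ 2) (hx : ‖x‖ ≤ 1) {H : ℝ → L →L[ℝ] L}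
    (h0 : H 0 = 1) (hH : ∀ t, HasDerivAt H (-(H t * ad x)) t) {t : ℝ} (ht : t ∈ Icc (0 : ℝ) 1) :
    H t = Ad (-(t • x)) := by
  have h1 : ∀ s ∈ Icc (0 : ℝ) 1, HasDerivAt (fun s : ℝ => H s * Ad (s • x)) 0 s := by
    intro s hs
    refine ((hH s).mul (hasDerivAt_Ad hAd had hx (abs_le.2 ⟨by linarith [hs.1], hs.2⟩))).congr_deriv
      ?_
    noncomm_ring
  have h2 := constant_of_has_deriv_right_zero
    (fun s hs => (h1 s hs).continuousAt.continuousWithinAt)
    (fun s hs => (h1 s (Ico_subset_Icc_self hs)).hasDerivWithinAt) t ht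
  have ht' : |t| ≤ 1 := abs_le.2 ⟨by linarith [ht.1], ht.2⟩
  have h3 := Ad_add hAd (x := x) t (-t) (norm_smul_le' ht' (by linarith))
    (norm_smul_le' (by rwa [abs_neg]) (by linarith))
  simp only [h0, zero_smul, Ad_zero hAd, one_mul] at h2
  rw [add_neg_cancel, zero_smul, Ad_zero hAd, neg_smul] at h3
  rw [← mul_one (H t), h3, ← mul_assoc, h2, one_mul]

theorem G_step (hx : ‖x‖ ≤ 1) {H G : ℝ → L →L[ℝ] L} (hG : ∀ t, HasDerivAt G (H t) t)
    (hH : ∀ t ∈ Icc (0 : ℝ) 1, H t = Ad (-(t • x))) {t k : ℝ} (ht : 0 ≤ t) (hk : 0 < k)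
    (htk : t + k ≤ 1) : ‖G (t + k) - G t - k • H t‖ ≤ k ^ 2 := by
  have h1 := norm_image_sub_le_of_norm_deriv_le_segment' (a := t) (b := t + k) (C := k)
    (f := fun s => G s - s • H t) (f' := fun s => H s - H t)
    (fun s _ => by
      have := (hG s).sub ((hasDerivAt_id s).smul_const (H t))
      rw [one_smul] at this
      exact this.hasDerivWithinAt)
    (fun s hs => ?_) (t + k) ⟨by linarith, le_rfl⟩
  · rw [add_sub_cancel_left, ← sq] at h1
    rwa [show G (t + k) - (t + k) • H t - (G t - t • H t) = G (t + k) - G t - k • H t by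
      rw [add_smul]; abel] at h1
  have a1 : |t| ≤ 1 := abs_le.2 ⟨by linarith, by linarith⟩
  have a2 : |t - s| ≤ k := abs_le.2 ⟨by linarith [hs.2], by linarith [hs.1]⟩
  have h2 := Ad_add hAd (x := x) (-t) (t - s) (norm_smul_le' (by rwa [abs_neg]) (by linarith))
    (norm_smul_le' (by linarith) (by linarith))
  rw [show -t + (t - s) = -s by ring, neg_smul, neg_smul] at h2
  have h3 : ‖(t - s) • x‖ ≤ k := by
    rw [norm_smul, Real.norm_eq_abs]
    exact (mul_le_of_le_one_right (abs_nonneg _) hx).trans a2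
  rw [hH s ⟨by linarith [hs.1], by linarith [hs.2]⟩, hH t ⟨ht, by linarith⟩, h2, ← mul_sub_one]
  refine (norm_mul_le _ _).trans ((mul_le_mul (norm_Ad hAd ?_) (Ad_sub hAd (by linarith))
    (norm_nonneg _) (by positivity)).trans (by linarith))
  rw [norm_neg]
  exact norm_smul_le' a1 (by linarith)

theorem div_est (hx : ‖x‖ ≤ 1) {H G : ℝ → L →L[ℝ] L} (hG : ∀ t, HasDerivAt G (H t) t)
    (hG0 : G 0 = 0) (hH : ∀ t ∈ Icc (0 : ℝ) 1, H t = Ad (-(t • x))) {v : L} (hv : ‖v‖ ≤ 1) :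
    ‖N.m (-x) (x + v) - G 1 v‖ ≤ ‖v‖ ^ 2 := by
  have hxv : ‖x + v‖ ≤ 2 := by linarith [norm_add_le x v]
  have hγ : ∀ t : ℝ, 0 ≤ t → t ≤ 1 → ‖N.m (-(t • x)) (t • (x + v))‖ ≤ 2 * (t * ‖v‖) := by
    intro t h0 h1
    have a1 : |t| ≤ 1 := abs_le.2 ⟨by linarith, h1⟩
    have := N.norm_div (x := t • x) (y := t • (x + v)) (norm_smul_le' a1 (by linarith))
      (norm_smul_le' a1 (by linarith))
    rw [← smul_sub, add_sub_cancel_left, norm_smul, Real.norm_of_nonneg h0] at this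
    nlinarith [mul_nonneg h0 (norm_nonneg v)]
  have H1 := telescope (φ := fun t => N.m (-(t • x)) (t • (x + v)) - G t v) (M := ‖v‖ ^ 2) (C := 3)
    fun t k ht hk htk => ?_
  · simpa [hG0, N.m_zero] using H1
  have a1 : |t| ≤ 1 := abs_le.2 ⟨by linarith, by linarith⟩
  have a2 : |k| ≤ 1 := abs_le.2 ⟨by linarith, by linarith⟩
  have a3 : |t + k| ≤ 1 := abs_le.2 ⟨by linarith, by linarith⟩
  have b1 : ‖-(t • x)‖ ≤ 1 := by rw [norm_neg]; exact norm_smul_le' a1 hx
  have b2 : ‖-(k • x)‖ ≤ 1 := by rw [norm_neg]; exact norm_smul_le' a2 hx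
  have b3 : ‖-((t + k) • x)‖ ≤ 1 := by rw [norm_neg]; exact norm_smul_le' a3 hx
  have b4 : ‖t • (x + v)‖ ≤ 2 := norm_smul_le' a1 hxv
  have b5 : ‖k • (x + v)‖ ≤ 2 := norm_smul_le' a2 hxv
  have hkv : k * ‖v‖ ≤ 1 := mul_le_one₀ (by linarith) (norm_nonneg _) hv
  have htv : t * ‖v‖ ≤ ‖v‖ := mul_le_of_le_one_left (norm_nonneg _) (by linarith)
  have c1 := hγ t ht (by linarith)
  have c2 := hγ k hk.le (by linarith)
  set u := N.m (-(k • x)) (k • (x + v)) with hu
  have c3 := N.norm_c (x := -(t • x)) (y := u) (by linarith) (by linarith)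
  have e1 : N.m (-((t + k) • x)) ((t + k) • (x + v)) =
      N.m (N.c (-(t • x)) u) (N.m (-(t • x)) (t • (x + v))) := by
    have e2 : N.m (-(t • x)) (-(k • x)) = -((t + k) • x) := by
      have := N.hom x (-t) (-k) (by rw [neg_smul]; linarith) (by rw [neg_smul]; linarith)
      rwa [← neg_add, neg_smul, neg_smul, neg_smul] at this
    rw [← N.assoc _ _ _ (by linarith) (by linarith) (by linarith),
      N.c_m (by linarith) (by linarith), hu,
      ← N.assoc _ _ _ (by linarith) (by linarith) (by linarith), e2,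
      N.assoc _ _ _ (by linarith) (by linarith) (by linarith),
      N.hom _ _ _ (by linarith) (by linarith), add_comm k t]
  have d1 := N.est (N.c (-(t • x)) u) (N.m (-(t • x)) (t • (x + v))) (by linarith) (by linarith)
  rw [← e1] at d1
  have d2 : ‖u - k • v‖ ≤ k ^ 2 := by
    have := N.est (-(k • x)) (k • (x + v)) (by linarith) (by linarith)
    rw [← hu, show u - -(k • x) - k • (x + v) = u - k • v by rw [smul_add]; abel, norm_neg,
      norm_smul, norm_smul, Real.norm_of_nonneg hk.le] at this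
    have h2 : ‖x‖ * ‖x + v‖ ≤ 1 * 2 := mul_le_mul hx hxv (norm_nonneg _) zero_le_one
    nlinarith [mul_le_mul_of_nonneg_left h2 (sq_nonneg k), sq_nonneg k]
  have d3 : ‖Ad (-(t • x)) (u - k • v)‖ ≤ 2 * k ^ 2 :=
    ((Ad _).le_opNorm _).trans (mul_le_mul (norm_Ad hAd (by linarith)) d2 (norm_nonneg _)
      zero_le_two)
  have d4 : ‖(G (t + k) - G t - k • H t) v‖ ≤ k ^ 2 * 1 :=
    (ContinuousLinearMap.le_opNorm _ _).trans (mul_le_mul (G_step hAd hx hG hH ht hk htk) hv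
      (norm_nonneg _) (by positivity))
  rw [hH t ⟨ht, by linarith⟩] at d4
  rw [map_sub, hAd _ (by linarith) u (by linarith), map_smul] at d3
  have e3 : N.m (-((t + k) • x)) ((t + k) • (x + v)) - G (t + k) v -
      (N.m (-(t • x)) (t • (x + v)) - G t v) =
      (N.m (-((t + k) • x)) ((t + k) • (x + v)) - N.c (-(t • x)) u - N.m (-(t • x)) (t • (x + v))) +
      (N.c (-(t • x)) u - k • Ad (-(t • x)) v) - (G (t + k) - G t - k • Ad (-(t • x))) v := by
    simp only [sub_apply, smul_apply]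
    abel
  rw [e3]
  refine (norm_sub_le _ _).trans ((add_le_add_left (norm_add_le _ _) _).trans ?_)
  have d5 : ‖N.c (-(t • x)) u‖ * ‖N.m (-(t • x)) (t • (x + v))‖ ≤ 4 * (k * ‖v‖) * (2 * ‖v‖) :=
    mul_le_mul (by linarith) (by linarith) (norm_nonneg _) (by positivity)
  nlinarith [mul_nonneg hk.le (sq_nonneg ‖v‖)]

omit hAd in
theorem isUnit_F [CompleteSpace L] (hx : ‖x‖ ≤ 1) {F : L →L[ℝ] L}
    (hF : ∀ v, ‖v‖ ≤ 1 → ‖N.m (-x) (x + v) - F v‖ ≤ ‖v‖ ^ 2) : IsUnit F := by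
  have h1 : ‖1 - F‖ ≤ 1 / 2 := by
    refine opNorm_le (C := 1) one_pos (by norm_num) fun v hv => ?_
    have h2 := hF v hv
    have hxv : ‖x + v‖ ≤ 2 := by linarith [norm_add_le x v]
    have h3 := N.norm_div (x := x) (y := x + v) (by linarith) (by linarith)
    rw [add_sub_cancel_left] at h3
    have h4 := N.est x (N.m (-x) (x + v)) (by linarith) (by linarith)
    rw [N.m_neg_m (by linarith) (by linarith), add_sub_cancel_left] at h4
    have h5 := norm_sub_le_norm_sub_add_norm_sub v (N.m (-x) (x + v)) (F v)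
    have h6 : ‖x‖ * ‖N.m (-x) (x + v)‖ ≤ 1 * (10 / 9 * ‖v‖) :=
      mul_le_mul hx h3 (norm_nonneg _) zero_le_one
    simp only [sub_apply, one_apply_eq_self]
    linarith [norm_nonneg v]
  simpa using isUnit_one_sub_of_norm_lt_one (x := 1 - F) (by linarith)

theorem hasFDerivAt_m [CompleteSpace L] {F : L → L →L[ℝ] L}
    (hF : ∀ x, ‖x‖ ≤ 1 → ∀ v, ‖v‖ ≤ 1 → ‖N.m (-x) (x + v) - F x v‖ ≤ ‖v‖ ^ 2)
    (hx : ‖x‖ ≤ 1 / 4) (hy : ‖y‖ ≤ 1 / 4) :
    HasFDerivAt (fun p : L × L => N.m p.1 p.2) ((Ring.inverse (F (N.m x y))).comp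
      ((Ad (-y) * F x).comp (ContinuousLinearMap.fst ℝ L L) +
        (F y).comp (ContinuousLinearMap.snd ℝ L L))) (x, y) := by
  have hz := N.norm_m (x := x) (y := y) (by linarith) (by linarith)
  have hU := isUnit_F (by linarith) (hF (N.m x y) (by linarith))
  refine hasFDerivAt_of_sq (ρ := 1 / 10) (C := ‖Ring.inverse (F (N.m x y))‖ * 70) (by norm_num) ?_
  rintro ⟨u, v⟩ hn
  have hu : ‖u‖ ≤ ‖(u, v)‖ := norm_fst_le (u, v)
  have hv : ‖v‖ ≤ ‖(u, v)‖ := norm_snd_le (u, v)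
  set n := ‖(u, v)‖ with hnd
  have hy' : ‖-y‖ ≤ 1 / 4 := by rwa [norm_neg]
  have a1 := norm_add_le x u
  have a2 := norm_add_le y v
  have b1 := N.norm_div (x := x) (y := x + u) (by linarith) (by linarith)
  have b2 := N.norm_div (x := y) (y := y + v) (by linarith) (by linarith)
  rw [add_sub_cancel_left] at b1 b2
  have c1 := hF x (by linarith) u (by linarith)
  have c2 := hF y (by linarith) v (by linarith)
  have e1 := N.m_neg_m (x := x) (y := x + u) (by linarith) (by linarith)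
  have e2 := N.m_neg_m (x := y) (y := y + v) (by linarith) (by linarith)
  set p := N.m (-x) (x + u) with hp
  set q := N.m (-y) (y + v) with hq
  have b3 := N.norm_c (x := -y) (y := p) (by linarith) (by linarith)
  have b4 := N.norm_m (x := -y) (y := p) (by linarith) (by linarith)
  have b5 := N.norm_m (x := N.c (-y) p) (y := q) (by linarith) (by linarith)
  have e3 : N.m y (N.c (-y) p) = N.m p y := by
    rw [c, neg_neg, ← N.assoc _ _ _ (by linarith) (by linarith) (by linarith),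
      N.m_neg_m (by linarith) (by linarith)]
  have e4 : N.m (x + u) (y + v) = N.m (N.m x y) (N.m (N.c (-y) p) q) := by
    rw [← N.assoc _ _ _ (by linarith) (by linarith) (by linarith),
      N.assoc x y _ (by linarith) (by linarith) (by linarith), e3,
      ← N.assoc x p y (by linarith) (by linarith) (by linarith), e1,
      N.assoc _ _ _ (by linarith) (by linarith) (by linarith), e2]
  set w := N.m (N.c (-y) p) q with hw
  have b6 := N.upper (x := N.m x y) (y := w) (by linarith) (by linarith)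
  have c3 := hF (N.m x y) (by linarith) (N.m (N.m x y) w - N.m x y) (by linarith)
  rw [add_sub_cancel, N.neg_m_m (by linarith) (by linarith)] at c3
  set s := N.m (N.m x y) w - N.m x y with hs
  have c4 := N.est (N.c (-y) p) q (by linarith) (by linarith)
  have c5 : ‖Ad (-y) (p - F x u)‖ ≤ 2 * ‖u‖ ^ 2 :=
    ((Ad _).le_opNorm _).trans (mul_le_mul (norm_Ad hAd (by linarith)) c1 (norm_nonneg _)
      zero_le_two)
  rw [map_sub, hAd _ (by linarith) p (by linarith)] at c5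
  have e5 : Ring.inverse (F (N.m x y)) (F (N.m x y) s) = s := by
    rw [← mul_apply_eq_comp, Ring.inverse_mul_cancel _ hU, one_apply_eq_self]
  have e6 : s - Ring.inverse (F (N.m x y)) (Ad (-y) (F x u) + F y v) =
      Ring.inverse (F (N.m x y)) ((w - N.c (-y) p - q) + (N.c (-y) p - Ad (-y) (F x u)) +
        (q - F y v) - (w - F (N.m x y) s)) := by
    rw [← e5, ← map_sub, e5]
    congr 1
    abel
  change ‖N.m (x + u) (y + v) - N.m x y -
    Ring.inverse (F (N.m x y)) (Ad (-y) (F x u) + F y v)‖ ≤ _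
  rw [e4, ← hs, e6, mul_assoc]
  refine (ContinuousLinearMap.le_opNorm _ _).trans (mul_le_mul_of_nonneg_left ?_ (norm_nonneg _))
  refine (norm_sub_le _ _).trans ((add_le_add_left (norm_add₃_le) _).trans ?_)
  have f1 : ‖u‖ ^ 2 ≤ n ^ 2 := by gcongr
  have f2 : ‖v‖ ^ 2 ≤ n ^ 2 := by gcongr
  have f3 : ‖s‖ ^ 2 ≤ (8 * n) ^ 2 := by gcongr; linarith [norm_nonneg u]
  have f4 : ‖N.c (-y) p‖ * ‖q‖ ≤ (4 * n) * (2 * n) :=
    mul_le_mul (by linarith [norm_nonneg u]) (by linarith [norm_nonneg v]) (norm_nonneg _)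
      (by linarith [norm_nonneg v])
  nlinarith [sq_nonneg n]

omit hAd in
theorem smooth [CompleteSpace L] (N : NL L) : ContDiffOn ℝ ∞ (fun p : L × L => N.m p.1 p.2)
    (Metric.ball 0 (1 / 4) ×ˢ Metric.ball 0 (1 / 4)) := by
  obtain ⟨Ad, hAd⟩ := N.exists_Ad
  obtain ⟨ad, had⟩ := exists_ad hAd
  obtain ⟨H, G, hH, hG, h⟩ := exists_HG ad
  have h1 : ∀ x, ‖x‖ ≤ 1 → ∀ t ∈ Icc (0 : ℝ) 1, H x t = Ad (-(t • x)) := fun x hx t ht =>
    H_eq hAd had hx (h x).1 (fun t => ((h x).2.2 t).1) ht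
  have hF : ∀ x, ‖x‖ ≤ 1 → ∀ v, ‖v‖ ≤ 1 → ‖N.m (-x) (x + v) - G x 1 v‖ ≤ ‖v‖ ^ 2 :=
    fun x hx v hv => div_est hAd hx (fun t => ((h x).2.2 t).2) (h x).2.1 (h1 x hx) hv
  set U : Set (L × L) := Metric.ball 0 (1 / 4) ×ˢ Metric.ball 0 (1 / 4) with hU
  have hUo : IsOpen U := Metric.isOpen_ball.prod Metric.isOpen_ball
  have hU' : ∀ p ∈ U, ‖p.1‖ ≤ 1 / 4 ∧ ‖p.2‖ ≤ 1 / 4 := fun p hp =>
    ⟨(mem_ball_zero_iff.1 hp.1).le, (mem_ball_zero_iff.1 hp.2).le⟩
  have hD : ∀ p ∈ U, HasFDerivAt (fun p : L × L => N.m p.1 p.2)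
      ((Ring.inverse (G (N.m p.1 p.2) 1)).comp
      ((H p.2 1 * G p.1 1).comp (ContinuousLinearMap.fst ℝ L L) +
        (G p.2 1).comp (ContinuousLinearMap.snd ℝ L L))) p := by
    intro p hp
    obtain ⟨h2, h3⟩ := hU' p hp
    rw [h1 p.2 (by linarith) 1 (by simp), one_smul]
    exact hasFDerivAt_m hAd (F := fun x => G x 1) hF h2 h3
  have hdiff : DifferentiableOn ℝ (fun p : L × L => N.m p.1 p.2) U := fun p hp =>
    (hD p hp).differentiableAt.differentiableWithinAt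
  have hΦ : ContDiff ℝ ∞ fun p : L × L => (H p.2 1 * G p.1 1).comp (ContinuousLinearMap.fst ℝ L L) +
      (G p.2 1).comp (ContinuousLinearMap.snd ℝ L L) :=
    (((hH.comp contDiff_snd).mul (hG.comp contDiff_fst)).clm_comp contDiff_const).add
      ((hG.comp contDiff_snd).clm_comp contDiff_const)
  rw [contDiffOn_infty]
  intro n
  induction n with
  | zero => exact contDiffOn_zero.2 hdiff.continuousOn
  | succ n ih =>
    rw [Nat.cast_succ, contDiffOn_succ_iff_fderiv_of_isOpen hUo]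
    refine ⟨hdiff, by simp, ContDiffOn.congr ?_ fun p hp => (hD p hp).fderiv⟩
    refine ContDiffOn.clm_comp (fun p hp => ?_) (hΦ.of_le (by exact_mod_cast le_top)).contDiffOn
    obtain ⟨h2, h3⟩ := hU' p hp
    have hz := N.norm_m (x := p.1) (y := p.2) (by linarith) (by linarith)
    obtain ⟨u, hu⟩ := isUnit_F (by linarith) (hF (N.m p.1 p.2) (by linarith))
    have h4 : ContDiffAt ℝ n Ring.inverse (G (N.m p.1 p.2) 1) := hu ▸ contDiffAt_ringInverse ℝ u
    exact h4.comp_contDiffWithinAt p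
      (((hG.of_le (by exact_mod_cast le_top)).contDiffAt).comp_contDiffWithinAt p (ih p hp))

end NL

end Crest.Agent.R217.C11A
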