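import Crest.Agent.R217.GYDefs
import Crest.Agent.R217.GYC11AuxC

/-! # Row 217: radially homogeneous `C^{1,1}` local groups are smooth -/

set_option autoImplicit false

namespace Crest.Agent.R217

open Topology Filter Set
open scoped ContDiff

theorem C11.smooth {L : Type*} [NormedAddCommGroup L] [NormedSpace ℝ L] [FiniteDimensional ℝ L]
    (M : C11 L) : ∃ δ > 0, δ ≤ M.r ∧ ContDiffOn ℝ ∞ (fun p : L × L => M.μ p.1 p.2)
      (Metric.ball 0 δ ×ˢ Metric.ball 0 δ) := by
  have : CompleteSpace L := FiniteDimensional.complete ℝ L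
  have hr := M.r_pos
  obtain ⟨l, hl, hl1, hl2⟩ : ∃ l : ℝ, 0 < l ∧ l * 100 ≤ M.r ∧ M.K * l ≤ 1 / 1000 := by
    refine ⟨min (M.r / 100) (1 / (1000 * (|M.K| + 1))), by positivity,
      by linarith [min_le_left (M.r / 100) (1 / (1000 * (|M.K| + 1)))], ?_⟩
    calc _ ≤ (|M.K| + 1) * (1 / (1000 * (|M.K| + 1))) := by
          gcongr
          · linarith [le_abs_self M.K]
          · exact min_le_right _ _
      _ = _ := by field_simp
  have hs : ∀ x : L, ‖x‖ ≤ 100 → ‖l • x‖ ≤ M.r := fun x hx => by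
    rw [norm_smul, Real.norm_of_nonneg hl.le]
    exact (mul_le_mul_of_nonneg_left hx hl.le).trans hl1
  let N : C11A.NL L :=
    { m := fun x y => l⁻¹ • M.μ (l • x) (l • y)
      assoc := fun x y z hx hy hz => by
        simp only [smul_inv_smul₀ hl.ne', M.assoc _ _ _ (hs x hx) (hs y hy) (hs z hz)]
      hom := fun x s t h1 h2 => by
        have h3 := hs _ h1
        have h4 := hs _ h2
        rw [smul_comm] at h3 h4
        rw [smul_comm l s, smul_comm l t, M.hom _ _ _ h3 h4, smul_comm, inv_smul_smul₀ hl.ne']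
      est := fun x y hx hy => by
        have h1 := M.est _ _ (hs x hx) (hs y hy)
        have e : l⁻¹ • M.μ (l • x) (l • y) - x - y =
            l⁻¹ • (M.μ (l • x) (l • y) - l • x - l • y) := by
          simp only [smul_sub, inv_smul_smul₀ hl.ne']
        rw [norm_smul, norm_smul, Real.norm_of_nonneg hl.le] at h1
        rw [e, norm_smul, Real.norm_of_nonneg (inv_nonneg.2 hl.le), inv_mul_le_iff₀ hl]
        refine h1.trans ?_
        calc _ = l * (M.K * l * (‖x‖ * ‖y‖)) := by ring
          _ ≤ _ := by gcongr }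
  refine ⟨l / 4, by positivity, by linarith, ?_⟩
  have hb : ∀ x : L, x ∈ Metric.ball (0 : L) (l / 4) → l⁻¹ • x ∈ Metric.ball (0 : L) (1 / 4) := by
    intro x hx
    rw [mem_ball_zero_iff] at hx ⊢
    rw [norm_smul, Real.norm_of_nonneg (inv_nonneg.2 hl.le), inv_mul_lt_iff₀ hl]
    linarith
  have h1 := (N.smooth.comp (f := fun p : L × L => (l⁻¹ • p.1, l⁻¹ • p.2))
    (s := Metric.ball 0 (l / 4) ×ˢ Metric.ball 0 (l / 4)) (by fun_prop)
    fun p hp => ⟨hb _ hp.1, hb _ hp.2⟩).const_smul l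
  refine h1.congr fun p _ => ?_
  simp only [N, Function.comp, smul_inv_smul₀ hl.ne']

end Crest.Agent.R217
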