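import Crest.Agent.R217.GYDefs

/-! # Row 217: analytic lemmas for `C^{1,1}` local groups -/

set_option autoImplicit false

namespace Crest.Agent.R217.C11A

open Topology Filter Set
open scoped ContDiff

variable {L B : Type*} [NormedAddCommGroup L] [NormedSpace ℝ L] [NormedAddCommGroup B]
  [NormedSpace ℝ B]

theorem tendsto_half (c : ℝ) : Tendsto (fun m : ℕ => c * (1 / 2 : ℝ) ^ m) atTop (𝓝 0) := by
  simpa using (tendsto_pow_atTop_nhds_zero_of_lt_one (r := (1 / 2 : ℝ)) (by norm_num)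
    (by norm_num)).const_mul c

theorem norm_half (m : ℕ) (x : L) : ‖(1 / 2 : ℝ) ^ m • x‖ = ‖x‖ * (1 / 2) ^ m := by
  rw [norm_smul, Real.norm_of_nonneg (by positivity), mul_comm]

theorem ev_half {ρ : ℝ} (hρ : 0 < ρ) (x : L) : ∀ᶠ m : ℕ in atTop, ‖(1 / 2 : ℝ) ^ m • x‖ ≤ ρ := by
  simp only [norm_half]
  exact (tendsto_half ‖x‖).eventually (eventually_le_nhds hρ)

theorem two_half (m : ℕ) : (2 : ℝ) ^ m * (1 / 2) ^ m = 1 := by
  rw [← mul_pow]; norm_num

/-- An almost additive map is close to a linear map. -/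
theorem exists_linear [CompleteSpace B] {f : L → B} {ρ C C' : ℝ} (hρ : 0 < ρ) (hC : 0 ≤ C)
    (hb : ∀ x, ‖x‖ ≤ ρ → ‖f x‖ ≤ C' * ‖x‖)
    (h : ∀ x y, ‖x‖ ≤ ρ → ‖y‖ ≤ ρ → ‖f (x + y) - f x - f y‖ ≤ C * ‖x‖ * ‖y‖) :
    ∃ a : L →L[ℝ] B, ∀ x, ‖x‖ ≤ ρ → ‖f x - a x‖ ≤ C * ‖x‖ ^ 2 := by
  set s : L → ℕ → B := fun x m => (2 : ℝ) ^ m • f ((1 / 2 : ℝ) ^ m • x) with hs
  have h1 : ∀ x, ‖x‖ ≤ ρ → ∀ m, dist (s x m) (s x (m + 1)) ≤ C * ‖x‖ ^ 2 / 2 / 2 ^ m := by
    intro x hx m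
    set z := (1 / 2 : ℝ) ^ (m + 1) • x with hz
    have e1 : (1 / 2 : ℝ) ^ m • x = z + z := by
      rw [hz, ← add_smul]; congr 1; ring
    have e2 : s x m - s x (m + 1) = (2 : ℝ) ^ m • (f (z + z) - f z - f z) := by
      simp only [hs, e1, ← hz]
      rw [pow_succ]
      module
    have hz1 : ‖z‖ = ‖x‖ * (1 / 2) ^ (m + 1) := norm_half _ _
    have hz2 : ‖z‖ ≤ ρ := by
      rw [hz1]
      exact (mul_le_of_le_one_right (norm_nonneg _) (pow_le_one₀ (by norm_num) (by norm_num))).trans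
        hx
    rw [dist_eq_norm, e2, norm_smul, Real.norm_of_nonneg (by positivity)]
    refine (mul_le_mul_of_nonneg_left (h z z hz2 hz2) (by positivity)).trans ?_
    rw [hz1, one_div_pow, pow_succ]
    have : 0 ≤ C * ‖x‖ ^ 2 / 2 ^ m := by positivity
    calc _ = C * ‖x‖ ^ 2 / 2 ^ m / 4 := by field_simp; ring
      _ ≤ C * ‖x‖ ^ 2 / 2 ^ m / 2 := by linarith
      _ = _ := by ring
  have h2 : ∀ x, ∃ b, Tendsto (s x) atTop (𝓝 b) := by
    intro x
    obtain ⟨k, hk⟩ := (ev_half hρ x).exists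
    obtain ⟨b, hb⟩ := cauchySeq_tendsto_of_complete (cauchySeq_of_le_geometric_two (h1 _ hk))
    refine ⟨(2 : ℝ) ^ k • b, (tendsto_add_atTop_iff_nat k).1 ?_⟩
    refine (hb.const_smul ((2 : ℝ) ^ k)).congr fun m => ?_
    simp only [hs, smul_smul, pow_add, mul_comm]
  choose a ha using h2
  have h3 : ∀ x y, a (x + y) = a x + a y := by
    intro x y
    have t1 := ((ha (x + y)).sub (ha x)).sub (ha y)
    have t2 : Tendsto (fun m => s (x + y) m - s x m - s y m) atTop (𝓝 0) := by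
      refine squeeze_zero_norm' ?_ (tendsto_half (C * ‖x‖ * ‖y‖))
      filter_upwards [ev_half hρ x, ev_half hρ y] with m hx hy
      simp only [hs, smul_add, ← smul_sub]
      rw [norm_smul, Real.norm_of_nonneg (by positivity)]
      refine (mul_le_mul_of_nonneg_left (h _ _ hx hy) (by positivity)).trans (le_of_eq ?_)
      rw [norm_half, norm_half]
      linear_combination (C * ‖x‖ * ‖y‖ * (1 / 2) ^ m) * two_half m
    have := tendsto_nhds_unique t1 t2
    rw [sub_sub, sub_eq_zero] at this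
    exact this
  have h4 : ∀ x, ‖a x‖ ≤ C' * ‖x‖ := by
    intro x
    refine le_of_tendsto (ha x).norm ?_
    filter_upwards [ev_half hρ x] with m hx
    simp only [hs]
    rw [norm_smul, Real.norm_of_nonneg (by positivity)]
    refine (mul_le_mul_of_nonneg_left (hb _ hx) (by positivity)).trans (le_of_eq ?_)
    rw [norm_half]
    linear_combination (C' * ‖x‖) * two_half m
  refine ⟨(AddMonoidHom.mk' a h3).toRealLinearMap
    (AddMonoidHomClass.continuous_of_bound _ C' h4), fun x hx => ?_⟩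
  have := dist_le_of_le_geometric_two_of_tendsto₀ (h1 x hx) (ha x)
  simpa [hs, dist_eq_norm] using this

/-- A map that commutes with doubling and is of second order vanishes. -/
theorem eq_zero_of_double {d : L → B} {ρ C : ℝ} (h2 : ∀ y, ‖y + y‖ ≤ ρ → d (y + y) = d y + d y)
    (h : ∀ y, ‖y‖ ≤ ρ → ‖d y‖ ≤ C * ‖y‖ ^ 2) {y : L} (hy : ‖y‖ ≤ ρ) : d y = 0 := by
  have h0 : ∀ m : ℕ, ‖(1 / 2 : ℝ) ^ m • y‖ ≤ ρ := fun m => by
    rw [norm_half]
    exact (mul_le_of_le_one_right (norm_nonneg _) (pow_le_one₀ (by norm_num) (by norm_num))).trans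
      hy
  have h1 : ∀ m : ℕ, d y = (2 : ℝ) ^ m • d ((1 / 2 : ℝ) ^ m • y) := by
    intro m
    induction m with
    | zero => simp
    | succ m ih =>
      have e1 : (1 / 2 : ℝ) ^ m • y = (1 / 2 : ℝ) ^ (m + 1) • y + (1 / 2 : ℝ) ^ (m + 1) • y := by
        rw [← add_smul]; congr 1; ring
      rw [ih, e1, h2 _ (e1 ▸ h0 m), pow_succ (2 : ℝ), mul_smul, two_smul]
  refine norm_le_zero_iff.1 (ge_of_tendsto' (tendsto_half (C * ‖y‖ ^ 2)) fun m => ?_)
  rw [h1 m, norm_smul, Real.norm_of_nonneg (by positivity)]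
  refine (mul_le_mul_of_nonneg_left (h _ (h0 m)) (by positivity)).trans (le_of_eq ?_)
  rw [norm_half]
  linear_combination (C * ‖y‖ ^ 2 * (1 / 2) ^ m) * two_half m

omit [NormedSpace ℝ B] in
/-- Telescoping. -/
theorem telescope {φ : ℝ → B} {M C : ℝ}
    (h : ∀ t k, 0 ≤ t → 0 < k → t + k ≤ 1 → ‖φ (t + k) - φ t‖ ≤ M * k + C * k ^ 2) :
    ‖φ 1 - φ 0‖ ≤ M := by
  have h1 : ∀ n : ℕ, ‖φ 1 - φ 0‖ ≤ M + C * (1 / 2) ^ n := by
    intro n
    have hk : (0 : ℝ) < (1 / 2) ^ n := by positivity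
    have h2 : ∀ j : ℕ, j ≤ 2 ^ n → ‖φ (j * (1 / 2) ^ n) - φ 0‖ ≤
        j * (M * (1 / 2) ^ n + C * ((1 / 2) ^ n) ^ 2) := by
      intro j
      induction j with
      | zero => simp
      | succ j ih =>
        intro hj
        have h3 : ((j + 1 : ℕ) : ℝ) ≤ 2 ^ n := by exact_mod_cast hj
        have h4 := h (j * (1 / 2) ^ n) _ (by positivity) hk (by
          have := mul_le_mul_of_nonneg_right h3 hk.le
          rw [two_half] at this
          push_cast at this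
          linarith)
        have h5 := ih (by omega)
        push_cast
        rw [add_mul, one_mul, add_mul, one_mul]
        have := norm_sub_le_norm_sub_add_norm_sub (φ (j * (1 / 2) ^ n + (1 / 2) ^ n))
          (φ (j * (1 / 2) ^ n)) (φ 0)
        linarith
    have h6 := h2 (2 ^ n) le_rfl
    push_cast at h6
    rw [two_half] at h6
    refine h6.trans (le_of_eq ?_)
    linear_combination (M + C * (1 / 2) ^ n) * two_half n
  have := ge_of_tendsto' ((tendsto_half C).const_add M) h1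
  simpa using this

theorem opNorm_le {A : L →L[ℝ] B} {a C ρ : ℝ} (hρ : 0 < ρ) (ha : 0 ≤ a)
    (h : ∀ v, ‖v‖ ≤ ρ → ‖A v‖ ≤ a * ‖v‖ + C * ‖v‖ ^ 2) : ‖A‖ ≤ a := by
  refine A.opNorm_le_bound ha fun v => ?_
  have t := (tendsto_half (C * ‖v‖ ^ 2)).const_add (a * ‖v‖)
  rw [add_zero] at t
  refine ge_of_tendsto t ?_
  filter_upwards [ev_half hρ v] with m hm
  have h1 := h _ hm
  rw [map_smul, norm_half, norm_half] at h1
  refine le_of_mul_le_mul_right (h1.trans (le_of_eq ?_)) (by positivity : (0 : ℝ) < (1 / 2) ^ m)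
  ring

theorem eq_of_near {A A' : L →L[ℝ] B} {ρ : ℝ} (hρ : 0 < ρ) (h : ∀ v, ‖v‖ ≤ ρ → A v = A' v) :
    A = A' := by
  rw [← sub_eq_zero, ← norm_le_zero_iff]
  exact opNorm_le (C := 0) hρ le_rfl fun v hv => by simp [h v hv]

theorem hasFDerivAt_of_sq {f : L → B} {A : L →L[ℝ] B} {x : L} {C ρ : ℝ} (hρ : 0 < ρ)
    (h : ∀ v, ‖v‖ ≤ ρ → ‖f (x + v) - f x - A v‖ ≤ C * ‖v‖ ^ 2) : HasFDerivAt f A x := by
  rw [hasFDerivAt_iff_isLittleO_nhds_zero]
  refine Asymptotics.IsBigO.trans_isLittleO (g := fun v : L => ‖v‖ ^ 2)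
    (Asymptotics.IsBigO.of_bound C ?_) (Asymptotics.isLittleO_norm_pow_id (by norm_num))
  filter_upwards [Metric.closedBall_mem_nhds (0 : L) hρ] with v hv
  simpa using h v (by simpa using hv)

/-- The block `A ↦ fst ∘ A ∘ i`. -/
noncomputable def blk (i : L →L[ℝ] L × L) : (L × L →L[ℝ] L × L) →L[ℝ] L →L[ℝ] L :=
  ((ContinuousLinearMap.compL ℝ L (L × L) L) (ContinuousLinearMap.fst ℝ L L)).comp
    ((ContinuousLinearMap.compL ℝ L (L × L) (L × L)).flip i)

theorem blk_apply (i : L →L[ℝ] L × L) (A : L × L →L[ℝ] L × L) (v : L) :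
    blk i A v = (A (i v)).1 := rfl

/-- `H x t = exp (-t ad x)` and `G x t = ∫₀ᵗ H x`. -/
theorem exists_HG [CompleteSpace L] (ad : L →L[ℝ] L →L[ℝ] L) :
    ∃ H G : L → ℝ → L →L[ℝ] L, ContDiff ℝ ∞ (fun x => H x 1) ∧ ContDiff ℝ ∞ (fun x => G x 1) ∧
      ∀ x, H x 0 = 1 ∧ G x 0 = 0 ∧ ∀ t, HasDerivAt (H x) (-(H x t * ad x)) t ∧
        HasDerivAt (G x) (H x t) t := by
  obtain ⟨M, hM, hM'⟩ : ∃ M : L → (L × L →L[ℝ] L × L), ContDiff ℝ ∞ M ∧
      ∀ x p, M x p = (p.2 - ad x p.1, 0) :=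
    ⟨fun x => (ContinuousLinearMap.inl ℝ L L).comp
      (ContinuousLinearMap.snd ℝ L L - (ad x).comp (ContinuousLinearMap.fst ℝ L L)),
      contDiff_const.clm_comp (contDiff_const.sub (ad.contDiff.clm_comp contDiff_const)),
      fun _ _ => rfl⟩
  have hE : ContDiff ℝ ∞ fun x => NormedSpace.exp ((1 : ℝ) • M x) := by
    simp only [one_smul]
    exact (contDiff_iff_contDiffAt.2 fun a => (NormedSpace.exp_analytic a).contDiffAt).comp hM
  refine ⟨fun x t => blk (ContinuousLinearMap.inl ℝ L L) (NormedSpace.exp (t • M x)),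
    fun x t => blk (ContinuousLinearMap.inr ℝ L L) (NormedSpace.exp (t • M x)),
    (blk (ContinuousLinearMap.inl ℝ L L)).contDiff.comp hE,
    (blk (ContinuousLinearMap.inr ℝ L L)).contDiff.comp hE, fun x => ⟨?_, ?_, fun t => ⟨?_, ?_⟩⟩⟩
  · ext v; simp [blk_apply]
  · ext v; simp [blk_apply]
  · refine ((blk (ContinuousLinearMap.inl ℝ L L)).hasFDerivAt.comp_hasDerivAt t
      (hasDerivAt_exp_smul_const (M x) t)).congr_deriv ?_
    ext v
    have : ((-(ad x v), 0) : L × L) = -(ad x v, 0) := by simp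
    simp only [blk_apply, mul_apply_eq_comp, hM', ContinuousLinearMap.inl_apply,
      zero_sub, this, map_neg, Prod.fst_neg, neg_apply]
  · refine ((blk (ContinuousLinearMap.inr ℝ L L)).hasFDerivAt.comp_hasDerivAt t
      (hasDerivAt_exp_smul_const (M x) t)).congr_deriv ?_
    ext v
    simp only [blk_apply, mul_apply_eq_comp, hM', ContinuousLinearMap.inl_apply,
      ContinuousLinearMap.inr_apply, map_zero, sub_zero]

end Crest.Agent.R217.C11A
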