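import Crest.Agent.R217.GYC11AuxA

/-! # Row 217: normalised `C^{1,1}` local groups, the adjoint representation -/

set_option autoImplicit false

namespace Crest.Agent.R217.C11A

open Topology Filter Set
open scoped ContDiff

/-- A normalised law: radius `100`, constant `1 / 1000`. -/
structure NL (L : Type*) [NormedAddCommGroup L] [NormedSpace ℝ L] where
  m : L → L → L
  assoc : ∀ x y z, ‖x‖ ≤ 100 → ‖y‖ ≤ 100 → ‖z‖ ≤ 100 → m (m x y) z = m x (m y z)
  hom : ∀ (x : L) (s t : ℝ), ‖s • x‖ ≤ 100 → ‖t • x‖ ≤ 100 → m (s • x) (t • x) = (s + t) • x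
  est : ∀ x y, ‖x‖ ≤ 100 → ‖y‖ ≤ 100 → ‖m x y - x - y‖ ≤ 1 / 1000 * (‖x‖ * ‖y‖)

namespace NL

variable {L : Type*} [NormedAddCommGroup L] [NormedSpace ℝ L] (N : NL L) {x x' y y' z : L}

/-- The opposite law. -/
def op : NL L where
  m x y := N.m y x
  assoc x y z hx hy hz := (N.assoc z y x hz hy hx).symm
  hom x s t hs ht := by rw [N.hom x t s ht hs, add_comm]
  est x y hx hy := by rw [sub_right_comm, mul_comm ‖x‖]; exact N.est y x hy hx

theorem m_zero (hx : ‖x‖ ≤ 100) : N.m x 0 = x := by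
  simpa [sub_eq_zero] using N.est x 0 hx (by simp)

theorem zero_m (hx : ‖x‖ ≤ 100) : N.m 0 x = x := N.op.m_zero hx

theorem m_neg (hx : ‖x‖ ≤ 100) : N.m x (-x) = 0 := by
  simpa using N.hom x 1 (-1) (by simpa) (by simpa)

theorem neg_m (hx : ‖x‖ ≤ 100) : N.m (-x) x = 0 := N.op.m_neg hx

theorem m_self (hx : ‖x‖ ≤ 100) : N.m x x = x + x := by
  simpa [add_smul] using N.hom x 1 1 (by simpa) (by simpa)

theorem m_neg_m (hx : ‖x‖ ≤ 100) (hy : ‖y‖ ≤ 100) : N.m x (N.m (-x) y) = y := by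
  rw [← N.assoc _ _ _ hx (by simpa) hy, N.m_neg hx, N.zero_m hy]

theorem neg_m_m (hx : ‖x‖ ≤ 100) (hy : ‖y‖ ≤ 100) : N.m (-x) (N.m x y) = y := by
  simpa using N.m_neg_m (x := -x) (by simpa) hy

theorem m_neg_m' (hx : ‖x‖ ≤ 100) (hy : ‖y‖ ≤ 100) : N.m (N.m y (-x)) x = y := N.op.m_neg_m hx hy

theorem neg_m_m' (hx : ‖x‖ ≤ 100) (hy : ‖y‖ ≤ 100) : N.m (N.m y x) (-x) = y := N.op.neg_m_m hx hy

theorem upper (hx : ‖x‖ ≤ 100) (hy : ‖y‖ ≤ 100) : ‖N.m x y - x‖ ≤ 11 / 10 * ‖y‖ := by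
  have h1 := N.est x y hx hy
  have h2 := norm_le_norm_sub_add (N.m x y - x) y
  nlinarith [norm_nonneg y]

theorem lower (hx : ‖x‖ ≤ 100) (hy : ‖y‖ ≤ 100) : 9 / 10 * ‖y‖ ≤ ‖N.m x y - x‖ := by
  have h1 := N.est x y hx hy
  have h2 := norm_le_norm_sub_add y (N.m x y - x)
  rw [norm_sub_rev] at h2
  nlinarith [norm_nonneg y]

theorem norm_m (hx : ‖x‖ ≤ 100) (hy : ‖y‖ ≤ 100) : ‖N.m x y‖ ≤ ‖x‖ + 11 / 10 * ‖y‖ := by
  have h1 := N.upper hx hy
  have h2 := norm_le_norm_sub_add (N.m x y) x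
  linarith

theorem norm_div (hx : ‖x‖ ≤ 40) (hy : ‖y‖ ≤ 40) : ‖N.m (-x) y‖ ≤ 10 / 9 * ‖y - x‖ := by
  have h1 := N.norm_m (x := -x) (y := y) (by rw [norm_neg]; linarith) (by linarith)
  rw [norm_neg] at h1
  have h2 := N.lower (x := x) (y := N.m (-x) y) (by linarith) (by linarith)
  rw [N.m_neg_m (by linarith) (by linarith)] at h2
  linarith

theorem lip (hx : ‖x‖ ≤ 40) (hy : ‖y‖ ≤ 40) (hy' : ‖y'‖ ≤ 40) :
    ‖N.m x y' - N.m x y‖ ≤ 2 * ‖y' - y‖ := by
  have h1 := N.norm_div hy hy'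
  have h2 := norm_sub_le y' y
  have h3 := N.norm_m (x := x) (y := y) (by linarith) (by linarith)
  have h4 := N.upper (x := N.m x y) (y := N.m (-y) y') (by linarith) (by linarith)
  rw [N.assoc _ _ _ (by linarith) (by linarith) (by linarith),
    N.m_neg_m (by linarith) (by linarith)] at h4
  linarith [norm_nonneg (y' - y)]

theorem lip' (hx : ‖x‖ ≤ 40) (hy : ‖y‖ ≤ 40) (hy' : ‖y'‖ ≤ 40) :
    ‖N.m y' x - N.m y x‖ ≤ 2 * ‖y' - y‖ := N.op.lip hx hy hy'

/-- Conjugation. -/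
def c (x y : L) : L := N.m (N.m x y) (-x)

theorem c_m (hx : ‖x‖ ≤ 40) (hy : ‖y‖ ≤ 40) : N.m (N.c x y) x = N.m x y := by
  have h3 := N.norm_m (x := x) (y := y) (by linarith) (by linarith)
  exact N.m_neg_m' (by linarith) (by linarith)

theorem norm_c (hx : ‖x‖ ≤ 20) (hy : ‖y‖ ≤ 20) : ‖N.c x y‖ ≤ 2 * ‖y‖ := by
  have h1 := N.norm_m (x := x) (y := y) (by linarith) (by linarith)
  have h2 : ‖N.c x y‖ ≤ _ :=
    N.norm_m (x := N.m x y) (y := -x) (by linarith) (by rw [norm_neg]; linarith)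
  rw [norm_neg] at h2
  have h3 : _ ≤ ‖N.m (N.c x y) x - x‖ := N.op.lower (x := x) (y := N.c x y) (by linarith)
    (by linarith)
  rw [N.c_m (by linarith) (by linarith)] at h3
  have h4 := N.upper (x := x) (y := y) (by linarith) (by linarith)
  linarith [norm_nonneg y]

theorem c_sub (hx : ‖x‖ ≤ 20) (hy : ‖y‖ ≤ 20) : ‖N.c x y - y‖ ≤ 3 / 1000 * ‖x‖ * ‖y‖ := by
  have h1 := N.norm_c hx hy
  have h2 := N.est (N.c x y) x (by linarith) (by linarith)
  rw [N.c_m (by linarith) (by linarith)] at h2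
  have h3 := N.est x y (by linarith) (by linarith)
  have h4 := norm_sub_le (N.m x y - x - y) (N.m x y - N.c x y - x)
  rw [show N.m x y - x - y - (N.m x y - N.c x y - x) = N.c x y - y by abel] at h4
  nlinarith [norm_nonneg x]

theorem c_mul (hx : ‖x‖ ≤ 20) (hy : ‖y‖ ≤ 20) (hz : ‖z‖ ≤ 20) :
    N.c x (N.m y z) = N.m (N.c x y) (N.c x z) := by
  have h1 := N.norm_c hx hy
  have h2 := N.norm_m (x := x) (y := z) (by linarith) (by linarith)
  rw [show N.c x z = N.m (N.m x z) (-x) from rfl,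
    ← N.assoc _ _ _ (by linarith) (by linarith) (by rw [norm_neg]; linarith),
    ← N.assoc _ _ _ (by linarith) (by linarith) (by linarith), N.c_m (by linarith) (by linarith),
    N.assoc x y z (by linarith) (by linarith) (by linarith)]
  rfl

theorem c_lip (hx : ‖x‖ ≤ 10) (hy : ‖y‖ ≤ 20) (hy' : ‖y'‖ ≤ 20) :
    ‖N.c x y' - N.c x y‖ ≤ 4 * ‖y' - y‖ := by
  have h1 := N.norm_m (x := x) (y := y) (by linarith) (by linarith)
  have h2 := N.norm_m (x := x) (y := y') (by linarith) (by linarith)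
  have h3 := N.lip' (x := -x) (y := N.m x y) (y' := N.m x y') (by rw [norm_neg]; linarith)
    (by linarith) (by linarith)
  have h4 := N.lip (x := x) (y := y) (y' := y') (by linarith) (by linarith) (by linarith)
  exact h3.trans (by linarith)

theorem c_c (hx : ‖x‖ ≤ 4) (hx' : ‖x'‖ ≤ 4) (hy : ‖y‖ ≤ 1) :
    N.c (N.m x x') y = N.c x (N.c x' y) := by
  have h1 := N.norm_m (x := x) (y := x') (by linarith) (by linarith)
  have h2 := N.norm_c (x := x') (y := y) (by linarith) (by linarith)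
  have h3 := N.norm_c (x := x) (y := N.c x' y) (by linarith) (by linarith)
  have h4 : N.m (N.c x (N.c x' y)) (N.m x x') = N.m (N.m x x') y := by
    rw [← N.assoc _ _ _ (by linarith) (by linarith) (by linarith),
      N.c_m (by linarith) (by linarith), N.assoc _ _ _ (by linarith) (by linarith) (by linarith),
      N.c_m (by linarith) (by linarith), N.assoc _ _ _ (by linarith) (by linarith) (by linarith)]
  rw [c, ← h4, N.neg_m_m' (by linarith) (by linarith)]

variable [CompleteSpace L]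

theorem exists_Ad : ∃ Ad : L → L →L[ℝ] L, ∀ x, ‖x‖ ≤ 10 → ∀ y, ‖y‖ ≤ 5 → Ad x y = N.c x y := by
  have key : ∀ x : L, ∃ A : L →L[ℝ] L, ‖x‖ ≤ 10 → ∀ y, ‖y‖ ≤ 5 → A y = N.c x y := by
    intro x
    by_cases hx : ‖x‖ ≤ 10
    swap
    · exact ⟨0, fun h => absurd h hx⟩
    obtain ⟨A, hA⟩ := exists_linear (f := N.c x) (ρ := 5) (C := 1) (C' := 2) (by norm_num)
      zero_le_one (fun y hy => N.norm_c (by linarith) (by linarith)) fun y z hy hz => by
        have h1 := N.norm_m (x := y) (y := z) (by linarith) (by linarith)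
        have h2 := N.c_lip (y := N.m y z) (y' := y + z) hx (by linarith)
          (by linarith [norm_add_le y z])
        have h3 := N.est y z (by linarith) (by linarith)
        rw [sub_sub, norm_sub_rev] at h3
        have h4 := N.norm_c (x := x) (y := y) (by linarith) (by linarith)
        have h5 := N.norm_c (x := x) (y := z) (by linarith) (by linarith)
        have h6 := N.est (N.c x y) (N.c x z) (by linarith) (by linarith)
        rw [← N.c_mul (by linarith) (by linarith) (by linarith)] at h6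
        have h7 := norm_add_le (N.c x (y + z) - N.c x (N.m y z))
          (N.c x (N.m y z) - N.c x y - N.c x z)
        rw [show N.c x (y + z) - N.c x (N.m y z) + (N.c x (N.m y z) - N.c x y - N.c x z) =
          N.c x (y + z) - N.c x y - N.c x z by abel] at h7
        have h8 := mul_le_mul h4 h5 (norm_nonneg _) (by positivity)
        nlinarith [mul_nonneg (norm_nonneg y) (norm_nonneg z)]
    refine ⟨A, fun _ y hy => ?_⟩
    have := eq_zero_of_double (d := fun y => N.c x y - A y) (fun y hy => ?_) hA hy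
    · exact (sub_eq_zero.1 this).symm
    have h1 : ‖y‖ ≤ 5 := by
      rw [← two_smul ℝ, norm_smul, Real.norm_two] at hy
      linarith [norm_nonneg y]
    have h2 := N.norm_c (x := x) (y := y) (by linarith) (by linarith)
    rw [map_add, ← N.m_self (x := y) (by linarith),
      N.c_mul (by linarith) (by linarith) (by linarith), N.m_self (by linarith)]
    abel
  choose Ad hAd using key
  exact ⟨Ad, hAd⟩

section Ad
omit [CompleteSpace L]
variable {N} {Ad : L → L →L[ℝ] L} (hAd : ∀ x, ‖x‖ ≤ 10 → ∀ y, ‖y‖ ≤ 5 → Ad x y = N.c x y)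
include hAd

theorem Ad_sub (hx : ‖x‖ ≤ 10) : ‖Ad x - 1‖ ≤ 3 / 1000 * ‖x‖ :=
  opNorm_le (C := 0) (ρ := 5) (by norm_num) (by positivity) fun v hv => by
    simpa [hAd x hx v hv] using N.c_sub (x := x) (y := v) (by linarith) (by linarith)

theorem Ad_zero : Ad 0 = 1 := by simpa [sub_eq_zero] using Ad_sub hAd (x := 0) (by simp)

theorem norm_Ad (hx : ‖x‖ ≤ 10) : ‖Ad x‖ ≤ 2 :=
  opNorm_le (C := 0) (ρ := 5) (by norm_num) (by positivity) fun v hv => by
    simpa [hAd x hx v hv] using N.norm_c (x := x) (y := v) (by linarith) (by linarith)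

theorem Ad_m (hx : ‖x‖ ≤ 4) (hx' : ‖x'‖ ≤ 4) : Ad (N.m x x') = Ad x * Ad x' := by
  have h1 := N.norm_m (x := x) (y := x') (by linarith) (by linarith)
  refine eq_of_near one_pos fun v hv => ?_
  have h2 := N.norm_c (x := x') (y := v) (by linarith) (by linarith)
  rw [mul_apply_eq_comp, hAd _ (by linarith) v (by linarith), hAd x' (by linarith) v (by linarith),
    hAd x (by linarith) _ (by linarith), N.c_c hx hx' hv]

theorem Ad_add (s t : ℝ) (hs : ‖s • x‖ ≤ 4) (ht : ‖t • x‖ ≤ 4) :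
    Ad ((s + t) • x) = Ad (s • x) * Ad (t • x) := by
  rw [← N.hom x s t (by linarith) (by linarith), Ad_m hAd hs ht]

theorem exists_ad [CompleteSpace L] :
    ∃ ad : L →L[ℝ] L →L[ℝ] L, ∀ x, ‖x‖ ≤ 1 → ‖Ad x - 1 - ad x‖ ≤ 1 * ‖x‖ ^ 2 := by
  refine exists_linear (f := fun x => Ad x - 1) (C' := 3 / 1000) one_pos zero_le_one
    (fun x hx => Ad_sub hAd (by linarith)) fun x y hx hy => ?_
  have h1 := N.norm_m (x := x) (y := y) (by linarith) (by linarith)
  have h2 := norm_add_le x y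
  have h3 := N.norm_div (x := N.m x y) (y := x + y) (by linarith) (by linarith)
  have h4 := N.est x y (by linarith) (by linarith)
  rw [sub_sub, norm_sub_rev] at h4
  have h0 := mul_nonneg (norm_nonneg x) (norm_nonneg y)
  have h0' : ‖x‖ * ‖y‖ ≤ 1 := mul_le_one₀ hx (norm_nonneg _) hy
  set w := N.m (-N.m x y) (x + y) with hw
  have h5 : Ad (x + y) = Ad x * Ad y * Ad w := by
    rw [← Ad_m hAd (by linarith) (by linarith), ← Ad_m hAd (by linarith) (by linarith), hw,
      N.m_neg_m (by linarith) (by linarith)]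
  have e : Ad (x + y) - 1 - (Ad x - 1) - (Ad y - 1) =
      (Ad x - 1) * (Ad y - 1) + Ad x * Ad y * (Ad w - 1) := by
    rw [h5]; noncomm_ring
  have h6 := (norm_mul_le (Ad x - 1) (Ad y - 1)).trans (mul_le_mul (Ad_sub hAd (by linarith))
    (Ad_sub hAd (by linarith)) (norm_nonneg _) (by positivity))
  have h7 := (norm_mul_le (Ad x) (Ad y)).trans (mul_le_mul (norm_Ad hAd (by linarith))
    (norm_Ad hAd (by linarith)) (norm_nonneg _) (by positivity))
  have h8 := (norm_mul_le (Ad x * Ad y) (Ad w - 1)).trans (mul_le_mul h7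
    (Ad_sub hAd (by linarith)) (norm_nonneg _) (by positivity))
  rw [e]
  refine (norm_add_le _ _).trans ?_
  nlinarith

end Ad

end NL

end Crest.Agent.R217.C11A
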