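import Crest.Agent.R217.GYDefs

/-! # Row 217: the basic estimates for a Gleason norm -/

set_option autoImplicit false

namespace Crest.Agent.R217

open Topology Filter Set

variable {G : Type*} [Group G] [TopologicalSpace G]

theorem one_add_pow_le_exp {x : ℝ} (hx : 0 ≤ x) (j : ℕ) : (1 + x) ^ j ≤ Real.exp (j * x) := by
  rw [Real.exp_nat_mul]
  exact pow_le_pow_left₀ (by positivity) (by rw [add_comm]; exact Real.add_one_le_exp x) j

namespace WGleason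

theorem nrm_nonneg (W : WGleason G) (g : G) : 0 ≤ W.nrm g := by
  have h := W.nrm_mul g g⁻¹
  rw [mul_inv_cancel, W.nrm_one, W.nrm_inv] at h
  linarith

theorem nrm_pow_le (W : WGleason G) (g : G) (n : ℕ) : W.nrm (g ^ n) ≤ n * W.nrm g := by
  induction n with
  | zero => simp [W.nrm_one]
  | succ n ih =>
    rw [pow_succ]
    have := W.nrm_mul (g ^ n) g
    push_cast
    linarith

theorem eq_one_of_nrm_eq_zero [T1Space G] (W : WGleason G) {g : G} (h : W.nrm g = 0) : g = 1 := by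
  by_contra hg
  obtain ⟨ε, hε, hU⟩ := W.basis {g}ᶜ (compl_singleton_mem_nhds (Ne.symm hg))
  exact hU g (by rw [h]; exact hε) rfl

/-- convergence in terms of the left invariant distance `nrm (g⁻¹ * ·)`. -/
theorem tendsto_iff [IsTopologicalGroup G] (W : WGleason G) {α : Type*} {l : Filter α}
    {f : α → G} {g : G} :
    Tendsto f l (𝓝 g) ↔ Tendsto (fun a => W.nrm (g⁻¹ * f a)) l (𝓝 0) := by
  constructor
  · intro h
    have h1 : Tendsto (fun a => W.nrm (g⁻¹ * f a)) l (𝓝 (W.nrm (g⁻¹ * g))) :=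
      (W.cont.tendsto _).comp (tendsto_const_nhds.mul h)
    rwa [inv_mul_cancel, W.nrm_one] at h1
  · intro h
    have h1 : Tendsto (fun a => g⁻¹ * f a) l (𝓝 1) := by
      intro U hU
      obtain ⟨ε, hε, hU'⟩ := W.basis U hU
      exact mem_map.2 ((h.eventually (gt_mem_nhds hε)).mono fun a ha => hU' _ ha)
    simpa using (tendsto_const_nhds (x := g)).mul h1

theorem exists_compact_ball [IsTopologicalGroup G] [T2Space G] [LocallyCompactSpace G]
    (W : WGleason G) : ∃ δ > 0, IsCompact {g | W.nrm g ≤ δ} := by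
  obtain ⟨K, hK, hK1⟩ := exists_compact_mem_nhds (1 : G)
  obtain ⟨ε, hε, hU⟩ := W.basis K hK1
  refine ⟨ε / 2, by positivity, hK.of_isClosed_subset (isClosed_le W.cont continuous_const)
    fun g hg => hU g ?_⟩
  have : W.nrm g ≤ ε / 2 := hg
  linarith

/-- completeness. -/
theorem exists_tendsto_of_cauchy [IsTopologicalGroup G] [T2Space G] [LocallyCompactSpace G]
    (W : WGleason G) (u : ℕ → G)
    (hu : ∀ ε > 0, ∃ N, ∀ m ≥ N, ∀ n ≥ N, W.nrm ((u m)⁻¹ * u n) ≤ ε) :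
    ∃ g, Tendsto u atTop (𝓝 g) := by
  obtain ⟨δ, hδ, hK⟩ := W.exists_compact_ball
  obtain ⟨N, hN⟩ := hu δ hδ
  have hle : (hyperfilter ℕ : Filter ℕ) ≤ atTop := Nat.hyperfilter_le_atTop
  obtain ⟨z, -, hz⟩ := hK.ultrafilter_le_nhds
    ((hyperfilter ℕ).map fun n => (u N)⁻¹ * u n) (by
      rw [le_principal_iff, Ultrafilter.coe_map, mem_map]
      exact hle ((eventually_ge_atTop N).mono fun n hn => hN N le_rfl n hn))
  have hz' : Tendsto (fun n => (u N)⁻¹ * u n) (hyperfilter ℕ) (𝓝 z) := hz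
  have hg : Tendsto u (hyperfilter ℕ) (𝓝 (u N * z)) := by
    simpa using (tendsto_const_nhds (x := u N)).mul hz'
  refine ⟨u N * z, W.tendsto_iff.2 ?_⟩
  rw [Metric.tendsto_atTop]
  intro ε hε
  obtain ⟨M, hM⟩ := hu (ε / 2) (by positivity)
  refine ⟨M, fun n hn => ?_⟩
  have h1 : Tendsto (fun m => W.nrm ((u m)⁻¹ * u n)) (hyperfilter ℕ)
      (𝓝 (W.nrm ((u N * z)⁻¹ * u n))) :=
    (W.cont.tendsto _).comp (hg.inv.mul tendsto_const_nhds)
  have h2 : W.nrm ((u N * z)⁻¹ * u n) ≤ ε / 2 :=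
    le_of_tendsto h1 (hle ((eventually_ge_atTop M).mono fun m hm => hM m hm n hn))
  rw [Real.dist_eq, sub_zero, abs_of_nonneg (W.nrm_nonneg _)]
  linarith

/-- the converse of the escape property. -/
theorem exists_escape' (W : WGleason G) : ∃ K δ : ℝ, 0 < K ∧ 0 < δ ∧ ∀ (g : G) (n : ℕ) (s : ℝ),
    s ≤ δ → (∀ i ≤ n, W.nrm (g ^ i) ≤ s) → n * W.nrm g ≤ K * s := by
  have hC := W.one_le_C
  have hC0 : 0 < W.C := by linarith
  refine ⟨W.C, 1 / (2 * W.C ^ 2), hC0, by positivity, fun g n s hs h => ?_⟩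
  by_cases hn : n * W.nrm g ≤ 1 / W.C
  · exact (W.escape g n hn).trans (mul_le_mul_of_nonneg_left (h n le_rfl) hC0.le)
  · exfalso
    push Not at hn
    have ha0 := W.nrm_nonneg g
    have hC1 : 0 < 1 / W.C := by positivity
    have ha : 0 < W.nrm g := by
      rcases ha0.lt_or_eq with h1 | h1
      · exact h1
      · rw [← h1, mul_zero] at hn; linarith
    have hn1 : 1 ≤ n := by
      rcases Nat.eq_zero_or_pos n with rfl | h1
      · simp only [Nat.cast_zero, zero_mul] at hn; linarith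
      · exact h1
    have has : W.nrm g ≤ s := by simpa using h 1 hn1
    set i := ⌊(1 / W.C) / W.nrm g⌋₊ with hi
    have h1 : i * W.nrm g ≤ 1 / W.C := by
      rw [← le_div_iff₀ ha]; exact Nat.floor_le (by positivity)
    have h2 : 1 / W.C < (i + 1) * W.nrm g := by
      rw [← div_lt_iff₀ ha]; exact Nat.lt_floor_add_one _
    have h3 : i ≤ n := by
      have : (i : ℝ) < n := lt_of_mul_lt_mul_right (h1.trans_lt hn) ha.le
      exact_mod_cast this.le
    have h4 : i * W.nrm g ≤ W.C * s :=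
      (W.escape g i h1).trans (mul_le_mul_of_nonneg_left (h i h3) hC0.le)
    have h5 : s ≤ W.C * s := le_mul_of_one_le_left (ha0.trans has) hC
    have h6 : W.C * s ≤ W.C * (1 / (2 * W.C ^ 2)) := mul_le_mul_of_nonneg_left hs hC0.le
    have h7 : W.C * (1 / (2 * W.C ^ 2)) = 1 / W.C / 2 := by field_simp
    linarith

/-- conjugations are Lipschitz at `1`, uniformly on compact sets. -/
theorem conj_lip [IsTopologicalGroup G] (W : WGleason G) {S : Set G} (hS : IsCompact S) :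
    ∃ K δ : ℝ, 0 < K ∧ 0 < δ ∧ ∀ g ∈ S, ∀ k, W.nrm k ≤ δ → W.nrm (g * k * g⁻¹) ≤ K * W.nrm k := by
  obtain ⟨K, δ, hK, hδ, hesc⟩ := W.exists_escape'
  have h1 : ∀ᶠ k in 𝓝 (1 : G), ∀ g ∈ S, W.nrm (g * k * g⁻¹) ≤ δ := by
    refine hS.eventually_forall_of_forall_eventually fun g _ => ?_
    have hc : Continuous fun z : G × G => W.nrm (z.2 * z.1 * z.2⁻¹) := W.cont.comp (by fun_prop)
    have := (hc.tendsto (1, g)).eventually (gt_mem_nhds (a := δ) (by simpa [W.nrm_one] using hδ))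
    exact this.mono fun z hz => hz.le
  obtain ⟨ε, hε, hU⟩ := W.basis _ h1
  refine ⟨4 * K * δ / ε, ε / 2, by positivity, by positivity, fun g hg k hk => ?_⟩
  have ha0 := W.nrm_nonneg k
  have key : ∀ n : ℕ, n * W.nrm k ≤ ε / 2 → n * W.nrm (g * k * g⁻¹) ≤ K * δ := by
    intro n hn
    refine hesc _ n δ le_rfl fun i hi => ?_
    rw [conj_pow]
    refine hU (k ^ i) ?_ g hg
    have h2 : (i : ℝ) * W.nrm k ≤ n * W.nrm k :=
      mul_le_mul_of_nonneg_right (by exact_mod_cast hi) ha0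
    have := W.nrm_pow_le k i
    linarith
  rcases ha0.lt_or_eq with ha | ha
  · set n := ⌊(ε / 2) / W.nrm k⌋₊ with hn
    have h2 : n * W.nrm k ≤ ε / 2 := by
      rw [← le_div_iff₀ ha]; exact Nat.floor_le (by positivity)
    have h3 : ε / 2 < (n + 1) * W.nrm k := by
      rw [← div_lt_iff₀ ha]; exact Nat.lt_floor_add_one _
    have h4 : (1 : ℝ) ≤ n := by
      have : 1 ≤ n := (Nat.one_le_floor_iff _).2 ((one_le_div ha).2 hk)
      exact_mod_cast this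
    have h5 := key n h2
    have h6 : ε / 4 ≤ n * W.nrm k := by nlinarith
    have hx := W.nrm_nonneg (g * k * g⁻¹)
    rw [div_mul_eq_mul_div, le_div_iff₀ hε]
    nlinarith [mul_le_mul_of_nonneg_left h6 hx, mul_le_mul_of_nonneg_left h5 ha0]
  · rw [← ha, mul_zero]
    by_contra hx
    push Not at hx
    obtain ⟨n, hn⟩ := exists_nat_gt (K * δ / W.nrm (g * k * g⁻¹))
    rw [div_lt_iff₀ hx] at hn
    have := key n (by rw [← ha, mul_zero]; positivity)
    linarith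

end WGleason

namespace Gleason

theorem conj_le (Γ : Gleason G) {g h : G} (hg : Γ.nrm g ≤ 1 / Γ.C) (hh : Γ.nrm h ≤ 1 / Γ.C) :
    Γ.nrm (h⁻¹ * g * h) ≤ Γ.nrm g * (1 + Γ.C * Γ.nrm h) := by
  have e : h⁻¹ * g * h = g * (g⁻¹ * h⁻¹ * g * h) := by group
  have h1 := Γ.nrm_mul g (g⁻¹ * h⁻¹ * g * h)
  have h2 := Γ.comm g h hg hh
  rw [e]
  linarith

/-- `d (a^n, b^n) ≲ n d (a, b)`, for `n ‖a‖` bounded (not necessarily small). -/
theorem pow_dist_le (Γ : Gleason G) (R : ℝ) : ∃ K δ : ℝ, 0 < K ∧ 0 < δ ∧ ∀ (n : ℕ) (a b : G),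
    n * Γ.nrm a ≤ R → Γ.nrm a ≤ δ → n * Γ.nrm (a⁻¹ * b) ≤ δ →
    Γ.nrm ((a ^ n)⁻¹ * b ^ n) ≤ K * (n * Γ.nrm (a⁻¹ * b)) := by
  have hC := Γ.one_le_C
  have hC0 : 0 < Γ.C := by linarith
  have hE : 1 ≤ Real.exp (Γ.C * |R|) := Real.one_le_exp (by positivity)
  refine ⟨Real.exp (Γ.C * |R|), 1 / (Γ.C * Real.exp (Γ.C * |R|)), by positivity, by positivity,
    fun n a b hR ha hk => ?_⟩
  set k := a⁻¹ * b with hkdef
  have hb : b = a * k := by rw [hkdef]; group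
  have hα := Γ.nrm_nonneg a
  have hκ := Γ.nrm_nonneg k
  have ha' : Γ.nrm a ≤ 1 / Γ.C := ha.trans (one_div_le_one_div_of_le hC0
    (le_mul_of_one_le_right hC0.le hE))
  have hq : 1 ≤ 1 + Γ.C * Γ.nrm a := le_add_of_nonneg_right (by positivity)
  have hbd : ∀ j ≤ n, j * Γ.nrm k * (1 + Γ.C * Γ.nrm a) ^ j ≤
      Real.exp (Γ.C * |R|) * (n * Γ.nrm k) := by
    intro j hj
    have hj' : (j : ℝ) ≤ n := by exact_mod_cast hj
    rw [mul_comm]
    refine mul_le_mul ((one_add_pow_le_exp (by positivity) j).trans (Real.exp_le_exp.2 ?_))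
      (mul_le_mul_of_nonneg_right hj' hκ) (by positivity) (by positivity)
    rw [mul_left_comm]
    exact mul_le_mul_of_nonneg_left ((mul_le_mul_of_nonneg_right hj' hα).trans
      (hR.trans (le_abs_self R))) hC0.le
  have hsm : Real.exp (Γ.C * |R|) * (n * Γ.nrm k) ≤ 1 / Γ.C := by
    refine (mul_le_mul_of_nonneg_left hk (by positivity)).trans (le_of_eq ?_)
    field_simp
  have key : ∀ j ≤ n, Γ.nrm ((a ^ j)⁻¹ * b ^ j) ≤ j * Γ.nrm k * (1 + Γ.C * Γ.nrm a) ^ j := by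
    intro j
    induction j with
    | zero => intro _; simp [Γ.nrm_one]
    | succ j ih =>
      intro hj
      have h1 := ih (by omega)
      have e : (a ^ (j + 1))⁻¹ * b ^ (j + 1) = (a⁻¹ * ((a ^ j)⁻¹ * b ^ j) * a) * k := by
        rw [pow_succ, pow_succ b, hkdef]; group
      have h2 := Γ.conj_le (h1.trans ((hbd j (by omega)).trans hsm)) ha'
      have h3 := Γ.nrm_mul (a⁻¹ * ((a ^ j)⁻¹ * b ^ j) * a) k
      have h4 : Γ.nrm k ≤ Γ.nrm k * (1 + Γ.C * Γ.nrm a) ^ (j + 1) :=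
        le_mul_of_one_le_right hκ (one_le_pow₀ hq)
      have h5 := mul_le_mul_of_nonneg_right h1 (zero_le_one.trans hq)
      rw [e]
      push_cast
      rw [pow_succ] at h4 ⊢
      nlinarith
  exact (key n le_rfl).trans (hbd n le_rfl)

/-- `d (g^n h^n, (g h)^n) ≲ n² ‖g‖ ‖h‖`. -/
theorem mul_pow_dist (Γ : Gleason G) : ∃ K δ : ℝ, 0 < K ∧ 0 < δ ∧ ∀ (n : ℕ) (g h : G),
    n * Γ.nrm g ≤ δ → n * Γ.nrm h ≤ δ →
    Γ.nrm ((g ^ n * h ^ n)⁻¹ * (g * h) ^ n) ≤ K * (n * Γ.nrm g) * (n * Γ.nrm h) := by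
  have hC := Γ.one_le_C
  have hC0 : 0 < Γ.C := by linarith
  refine ⟨3 * Γ.C, 1 / (2 * Γ.C), by positivity, by positivity, fun n g h hg hh => ?_⟩
  have hα := Γ.nrm_nonneg g
  have hβ := Γ.nrm_nonneg h
  have hδ : 1 / (2 * Γ.C) ≤ 1 / Γ.C := one_div_le_one_div_of_le hC0 (by linarith)
  have hqg : 1 ≤ 1 + Γ.C * Γ.nrm g := le_add_of_nonneg_right (by positivity)
  have hqh : 1 ≤ 1 + Γ.C * Γ.nrm h := le_add_of_nonneg_right (by positivity)
  set q := (1 + Γ.C * Γ.nrm g) * (1 + Γ.C * Γ.nrm h) with hq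
  have hq1 : 1 ≤ q := one_le_mul_of_one_le_of_one_le hqg hqh
  have hbd : ∀ j ≤ n, Γ.C * (j * Γ.nrm g) * (j * Γ.nrm h) * q ^ j ≤
      3 * Γ.C * (n * Γ.nrm g) * (n * Γ.nrm h) := by
    intro j hj
    have hj' : (j : ℝ) ≤ n := by exact_mod_cast hj
    have hg' : j * Γ.nrm g ≤ n * Γ.nrm g := mul_le_mul_of_nonneg_right hj' hα
    have hh' : j * Γ.nrm h ≤ n * Γ.nrm h := mul_le_mul_of_nonneg_right hj' hβ
    have h1 : q ^ j ≤ 3 := by
      rw [hq, mul_pow]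
      refine (mul_le_mul (one_add_pow_le_exp (by positivity) j)
        (one_add_pow_le_exp (by positivity) j) (by positivity) (by positivity)).trans ?_
      rw [← Real.exp_add]
      refine (Real.exp_le_exp.2 (show _ ≤ (1 : ℝ) from ?_)).trans
        (Real.exp_one_lt_d9.le.trans (by norm_num))
      have e1 := mul_le_mul_of_nonneg_left (hg'.trans hg) hC0.le
      have e2 := mul_le_mul_of_nonneg_left (hh'.trans hh) hC0.le
      have e3 : Γ.C * (1 / (2 * Γ.C)) = 1 / 2 := by field_simp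
      linarith
    calc _ ≤ Γ.C * (n * Γ.nrm g) * (n * Γ.nrm h) * 3 := by gcongr
      _ = _ := by ring
  have hsm : 3 * Γ.C * (n * Γ.nrm g) * (n * Γ.nrm h) ≤ 1 / Γ.C := by
    calc _ ≤ 3 * Γ.C * (1 / (2 * Γ.C)) * (1 / (2 * Γ.C)) := by gcongr
      _ = 3 / 4 * (1 / Γ.C) := by field_simp; norm_num
      _ ≤ _ := mul_le_of_le_one_left (by positivity) (by norm_num)
  have key : ∀ j ≤ n, Γ.nrm ((g ^ j * h ^ j)⁻¹ * (g * h) ^ j) ≤
      Γ.C * (j * Γ.nrm g) * (j * Γ.nrm h) * q ^ j := by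
    intro j
    induction j with
    | zero => intro _; simp [Γ.nrm_one]
    | succ j ih =>
      intro hj
      have h1 := ih (by omega)
      have hj' : (j : ℝ) + 1 ≤ n := by exact_mod_cast hj
      have hj0 : (0 : ℝ) ≤ j := Nat.cast_nonneg j
      have hg1 : Γ.nrm g ≤ 1 / Γ.C := by nlinarith
      have hh1 : Γ.nrm h ≤ 1 / Γ.C := by nlinarith
      have hhj := Γ.nrm_pow_le h j
      have hhj1 : Γ.nrm (h ^ j) ≤ 1 / Γ.C := by nlinarith
      set E := (g ^ j * h ^ j)⁻¹ * (g * h) ^ j with hE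
      have e : (g ^ (j + 1) * h ^ (j + 1))⁻¹ * (g * h) ^ (j + 1) =
          h⁻¹ * (((h ^ j)⁻¹ * g⁻¹ * h ^ j * g) * (g⁻¹ * E * g)) * h := by
        rw [pow_succ (g * h), pow_succ g, pow_succ h, hE]; group
      have h2 := Γ.conj_le (h1.trans ((hbd j (by omega)).trans hsm)) hg1
      have h3 := (Γ.comm (h ^ j) g hhj1 hg1).trans (mul_le_mul_of_nonneg_right
        (mul_le_mul_of_nonneg_left hhj hC0.le) hα)
      have h4 := Γ.nrm_mul ((h ^ j)⁻¹ * g⁻¹ * h ^ j * g) (g⁻¹ * E * g)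
      have h5 := mul_le_mul_of_nonneg_right h1 (zero_le_one.trans hqg)
      set P := Γ.C * Γ.nrm g * Γ.nrm h with hP
      have hP0 : 0 ≤ P := by positivity
      have hqj : 1 ≤ q ^ j * (1 + Γ.C * Γ.nrm g) :=
        one_le_mul_of_one_le_of_one_le (one_le_pow₀ hq1) hqg
      have h6 : Γ.nrm (((h ^ j)⁻¹ * g⁻¹ * h ^ j * g) * (g⁻¹ * E * g)) ≤
          P * (j + 1) ^ 2 * (q ^ j * (1 + Γ.C * Γ.nrm g)) := by
        have e1 : Γ.C * (j * Γ.nrm h) * Γ.nrm g = P * j := by rw [hP]; ring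
        have e2 : Γ.C * (j * Γ.nrm g) * (j * Γ.nrm h) * q ^ j * (1 + Γ.C * Γ.nrm g) =
          P * j ^ 2 * (q ^ j * (1 + Γ.C * Γ.nrm g)) := by rw [hP]; ring
        have e3 : P * j ≤ P * j * (q ^ j * (1 + Γ.C * Γ.nrm g)) :=
          le_mul_of_one_le_right (by positivity) hqj
        have e4 : 0 ≤ P * (j + 1) * (q ^ j * (1 + Γ.C * Γ.nrm g)) := by positivity
        rw [e1] at h3
        rw [e2] at h5
        nlinarith
      have h7 : P * (j + 1) ^ 2 * (q ^ j * (1 + Γ.C * Γ.nrm g)) * (1 + Γ.C * Γ.nrm h) =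
          Γ.C * (((j + 1 : ℕ) : ℝ) * Γ.nrm g) * (((j + 1 : ℕ) : ℝ) * Γ.nrm h) * q ^ (j + 1) := by
        rw [hP, pow_succ q, mul_assoc _ _ (1 + Γ.C * Γ.nrm h), mul_assoc (q ^ j), ← hq]
        push_cast; ring
      have h8 : P * (j + 1) ^ 2 * (q ^ j * (1 + Γ.C * Γ.nrm g)) ≤ 1 / Γ.C :=
        (le_mul_of_one_le_right (by positivity) hqh).trans (h7.le.trans ((hbd _ hj).trans hsm))
      rw [e, ← h7]
      exact (Γ.conj_le (h6.trans h8) hh1).trans
        (mul_le_mul_of_nonneg_right h6 (zero_le_one.trans hqh))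
  exact (key n le_rfl).trans (hbd n le_rfl)

/-- `n d (g, h) ≲ d (g^n, h^n)`. -/
theorem le_pow_dist (Γ : Gleason G) : ∃ K δ : ℝ, 0 < K ∧ 0 < δ ∧ ∀ (n : ℕ) (g h : G),
    n * Γ.nrm g ≤ δ → n * Γ.nrm h ≤ δ →
    n * Γ.nrm (g⁻¹ * h) ≤ K * Γ.nrm ((g ^ n)⁻¹ * h ^ n) := by
  have hC := Γ.one_le_C
  have hC0 : 0 < Γ.C := by linarith
  obtain ⟨K, δ, hK, hδ, hm⟩ := Γ.mul_pow_dist
  refine ⟨2 * Γ.C, min (δ / 2) (min (1 / Γ.C / 2) (1 / (2 * Γ.C * K))), by positivity,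
    by positivity, fun n g h hg hh => ?_⟩
  simp only [le_min_iff] at hg hh
  set k := g⁻¹ * h with hk
  have hn : (0 : ℝ) ≤ n := Nat.cast_nonneg n
  have hκ := Γ.nrm_nonneg k
  have h1 : n * Γ.nrm k ≤ n * Γ.nrm g + n * Γ.nrm h := by
    have := Γ.nrm_mul g⁻¹ h
    rw [Γ.nrm_inv] at this
    rw [← mul_add]
    exact mul_le_mul_of_nonneg_left this hn
  have h2 := Γ.escape k n (by linarith [hg.2.1, hh.2.1])
  have h3 := hm n g k (by linarith [hg.1]) (by linarith [hg.1, hh.1])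
  have e : k ^ n = ((g ^ n)⁻¹ * h ^ n) * ((g ^ n * k ^ n)⁻¹ * (g * k) ^ n)⁻¹ := by
    rw [show g * k = h by rw [hk]; group]; group
  have h4 := Γ.nrm_mul ((g ^ n)⁻¹ * h ^ n) ((g ^ n * k ^ n)⁻¹ * (g * k) ^ n)⁻¹
  rw [← e, Γ.nrm_inv] at h4
  have h5 : Γ.C * (K * (n * Γ.nrm g) * (n * Γ.nrm k)) ≤ n * Γ.nrm k / 2 := by
    calc _ ≤ Γ.C * (K * (1 / (2 * Γ.C * K)) * (n * Γ.nrm k)) := by gcongr; exact hg.2.2
      _ = _ := by field_simp
  have h6 := mul_le_mul_of_nonneg_left (h4.trans (add_le_add le_rfl h3)) hC0.le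
  linarith

end Gleason

end Crest.Agent.R217
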