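import Crest.Agent.R217.GYConv
import Crest.Agent.R217.GYEst

/-! # Row 217: every weak Gleason norm is a Gleason norm -/

set_option autoImplicit false

namespace Crest.Agent.R217

open Topology Filter Set

/-- the cutoff function: `1` on `(-∞, e]`, `0` on `[2e, ∞)`, `1/e`-Lipschitz -/
noncomputable def commCut (e t : ℝ) : ℝ := max 0 (min 1 (2 - t / e))

theorem commCut_mem (e t : ℝ) : 0 ≤ commCut e t ∧ commCut e t ≤ 1 :=
  ⟨le_max_left _ _, max_le zero_le_one (min_le_left _ _)⟩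

theorem commCut_eq_one {e t : ℝ} (he : 0 < e) (h : t ≤ e) : commCut e t = 1 := by
  have : t / e ≤ 1 := (div_le_one he).2 h
  rw [commCut, min_eq_left (by linarith), max_eq_right zero_le_one]

theorem lt_of_commCut_ne_zero {e t : ℝ} (he : 0 < e) (h : commCut e t ≠ 0) : t < 2 * e := by
  by_contra hn
  have : 2 ≤ t / e := (le_div_iff₀ he).2 (not_lt.1 hn)
  exact h (max_eq_left ((min_le_right _ _).trans (by linarith)))

theorem commCut_lip {e s t d : ℝ} (he : 0 < e) (h : |s - t| ≤ d) :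
    |commCut e s - commCut e t| ≤ d / e := by
  have h1 : |(2 - s / e) - (2 - t / e)| ≤ d / e := by
    have : (2 - s / e) - (2 - t / e) = -((s - t) / e) := by ring
    rw [this, abs_neg, abs_div, abs_of_pos he]
    exact div_le_div_of_nonneg_right h he.le
  refine le_trans ?_ h1
  unfold commCut
  rw [max_comm 0, max_comm 0]
  refine (abs_max_sub_max_le_abs _ _ _).trans ?_
  refine (abs_min_sub_min_le_max _ _ _ _).trans ?_
  rw [sub_self, abs_zero]
  exact max_le (abs_nonneg _) le_rfl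

theorem continuous_commCut (e : ℝ) : Continuous (commCut e) := by
  unfold commCut
  fun_prop

theorem WGleason.abs_nrm_sub {G : Type*} [Group G] [TopologicalSpace G] (W : WGleason G) (k z : G) :
    |W.nrm (k⁻¹ * z) - W.nrm z| ≤ W.nrm k := by
  have h1 := W.nrm_mul k⁻¹ z
  have h2 := W.nrm_mul k (k⁻¹ * z)
  rw [W.nrm_inv] at h1
  rw [mul_inv_cancel_left] at h2
  rw [abs_le]
  constructor <;> linarith

/-- the lower bound: a bump function detects the norm -/
theorem WGleason.nrm_le_of_bump {G : Type*} [Group G] [TopologicalSpace G] (W : WGleason G)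
    {φ : G → ℝ} (h1 : 1 ≤ φ 1) (h0 : ∀ x, φ x ≠ 0 → W.nrm x < 1 / (2 * W.C ^ 2)) {k : G}
    (hk : W.nrm k ≤ 1 / (2 * W.C)) {p : ℝ} (hp : ∀ x, |φ (k⁻¹ * x) - φ x| ≤ p) :
    W.nrm k ≤ p := by
  have hC : 0 < W.C := zero_lt_one.trans_le W.one_le_C
  have hp0 : 0 ≤ p := (abs_nonneg _).trans (hp 1)
  have hpow : ∀ (n : ℕ) (x : G), |φ ((k ^ n)⁻¹ * x) - φ x| ≤ n * p := by
    intro n
    induction n with
    | zero => simp
    | succ n ih =>
      intro x
      have h2 := hp ((k ^ n)⁻¹ * x)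
      have h3 := ih x
      rw [pow_succ, mul_inv_rev, mul_assoc]
      have := abs_sub_le (φ (k⁻¹ * ((k ^ n)⁻¹ * x))) (φ ((k ^ n)⁻¹ * x)) (φ x)
      push_cast
      linarith
  rcases (W.nrm_nonneg k).eq_or_lt with hk0 | hk0
  · rw [← hk0]; exact hp0
  set n : ℕ := ⌊1 / W.C / W.nrm k⌋₊ with hn
  have a1 : (n : ℝ) * W.nrm k ≤ 1 / W.C :=
    (le_div_iff₀ hk0).1 (Nat.floor_le (by positivity))
  have a2 : 1 / W.C < (n + 1 : ℝ) * W.nrm k := (div_lt_iff₀ hk0).1 (Nat.lt_floor_add_one _)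
  have a3 : 1 / (2 * W.C) ≤ n * W.nrm k := by
    have : 1 / W.C = 1 / (2 * W.C) + 1 / (2 * W.C) := by field_simp; ring
    linarith
  have a4 : 1 / (2 * W.C ^ 2) ≤ W.nrm (k ^ n) := by
    have h2 := a3.trans (W.escape k n a1)
    have : 1 / (2 * W.C ^ 2) = 1 / (2 * W.C) / W.C := by field_simp
    rw [this, div_le_iff₀ hC]
    linarith
  have a5 : φ ((k ^ n)⁻¹ * 1) = 0 := by
    by_contra hne
    have := h0 _ hne
    rw [mul_one, W.nrm_inv] at this
    linarith
  have a6 : 1 ≤ n * p := by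
    have := hpow n 1
    rw [a5, zero_sub, abs_neg] at this
    exact h1.trans ((le_abs_self _).trans this)
  have a7 : 1 / W.C ≤ 1 := (div_le_one hC).2 W.one_le_C
  calc W.nrm k ≤ n * p * W.nrm k := le_mul_of_one_le_left hk0.le a6
    _ = n * W.nrm k * p := by ring
    _ ≤ 1 * p := mul_le_mul_of_nonneg_right (a1.trans a7) hp0
    _ = p := one_mul p

/-- the commutator estimate -/
theorem WGleason.exists_comm {G : Type*} [Group G] [TopologicalSpace G] [IsTopologicalGroup G]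
    [T2Space G] [LocallyCompactSpace G] [SecondCountableTopology G] (W : WGleason G) :
    ∃ M δ : ℝ, 0 ≤ M ∧ 0 < δ ∧ ∀ g h, W.nrm g ≤ δ → W.nrm h ≤ δ →
      W.nrm (g⁻¹ * h⁻¹ * g * h) ≤ M * W.nrm g * W.nrm h := by
  borelize G
  have hC : 0 < W.C := zero_lt_one.trans_le W.one_le_C
  obtain ⟨δ₀, hδ₀, hS⟩ := W.exists_compact_ball
  obtain ⟨K, δ₁, hK, hδ₁, hlip⟩ := W.conj_lip hS
  obtain ⟨e, he, he1, he2⟩ : ∃ e : ℝ, 0 < e ∧ 3 * e ≤ δ₀ ∧ 4 * e ≤ 1 / (2 * W.C ^ 2) := by
    refine ⟨min (δ₀ / 3) (1 / (2 * W.C ^ 2) / 4), by positivity, ?_, ?_⟩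
    · have := min_le_left (δ₀ / 3) (1 / (2 * W.C ^ 2) / 4)
      linarith
    · have := min_le_right (δ₀ / 3) (1 / (2 * W.C ^ 2) / 4)
      linarith
  have hU : {g : G | W.nrm g < e} ∈ 𝓝 (1 : G) :=
    (isOpen_lt W.cont continuous_const).mem_nhds (by simpa [W.nrm_one] using he)
  obtain ⟨D, hD, hconv⟩ := exists_conv hS hU
  have hm : Measurable fun y => commCut e (W.nrm y) :=
    ((continuous_commCut e).comp W.cont).measurable
  obtain ⟨φ, φ1, φ0, hφ⟩ := hconv _ _ hm hm (fun y => commCut_mem _ _) (fun y => commCut_mem _ _)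
    (fun y hy => by
      have := lt_of_commCut_ne_zero he hy
      change W.nrm y ≤ δ₀
      linarith)
    (fun y hy => by
      rw [W.nrm_inv]
      exact ⟨commCut_eq_one he (le_of_lt hy), commCut_eq_one he (le_of_lt hy)⟩)
  have φ0' : ∀ x, φ x ≠ 0 → W.nrm x < 1 / (2 * W.C ^ 2) := by
    intro x hx
    obtain ⟨y, hy, hy'⟩ := φ0 x hx
    have h1 := lt_of_commCut_ne_zero he hy
    have h2 := lt_of_commCut_ne_zero he hy'
    have h3 := W.nrm_mul y (y⁻¹ * x)
    rw [mul_inv_cancel_left] at h3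
    linarith
  have second : ∀ g h, W.nrm g ≤ e → W.nrm h ≤ δ₁ → ∀ x,
      |(φ (g⁻¹ * (h⁻¹ * x)) - φ (h⁻¹ * x)) - (φ (g⁻¹ * x) - φ x)| ≤
        D * (W.nrm g / e) * (K * W.nrm h / e) := by
    intro g h hg hh
    refine (hφ g (W.nrm g / e) (fun y hy => ?_) (fun y => commCut_lip he (W.abs_nrm_sub g y))).2
      h _ fun y hy z => commCut_lip he ((W.abs_nrm_sub _ z).trans ?_)
    · have h1 := lt_of_commCut_ne_zero he hy
      have h2 := W.nrm_mul g (g⁻¹ * y)
      rw [mul_inv_cancel_left] at h2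
      change W.nrm y ≤ δ₀
      linarith
    · have := hlip y⁻¹ (by change W.nrm y⁻¹ ≤ δ₀; rw [W.nrm_inv]; exact hy) h hh
      rwa [inv_inv] at this
  refine ⟨2 * D * K / e ^ 2, min (min e δ₁) (1 / (2 * W.C) / 4), by positivity, by positivity,
    fun g h hg hh => ?_⟩
  rw [le_min_iff, le_min_iff] at hg hh
  refine W.nrm_le_of_bump φ1 φ0' ?_ fun x => ?_
  · have h1 := W.nrm_mul (g⁻¹ * h⁻¹ * g) h
    have h2 := W.nrm_mul (g⁻¹ * h⁻¹) g
    have h3 := W.nrm_mul g⁻¹ h⁻¹
    rw [W.nrm_inv, W.nrm_inv] at h3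
    linarith [hg.2, hh.2]
  · have s1 := second g h hg.1.1 hh.1.2 (h * g * x)
    have s2 := second h g hh.1.1 hg.1.2 (h * g * x)
    have e1 : (g⁻¹ * h⁻¹ * g * h)⁻¹ * x = h⁻¹ * (g⁻¹ * (h * g * x)) := by group
    have e2 : g⁻¹ * (h⁻¹ * (h * g * x)) = x := by group
    rw [e2] at s1
    rw [e1]
    have e3 : 2 * D * K / e ^ 2 * W.nrm g * W.nrm h =
        D * (W.nrm g / e) * (K * W.nrm h / e) + D * (W.nrm h / e) * (K * W.nrm g / e) := by
      field_simp
      ring
    rw [e3, abs_le] at *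
    constructor <;> linarith [s1.1, s1.2, s2.1, s2.2]

theorem WGleason.exists_gleason {G : Type*} [Group G] [TopologicalSpace G] [IsTopologicalGroup G]
    [T2Space G] [LocallyCompactSpace G] [SecondCountableTopology G] (W : WGleason G) :
    Nonempty (Gleason G) := by
  obtain ⟨M, δ, hM, hδ, h⟩ := W.exists_comm
  have hC : 0 < W.C := zero_lt_one.trans_le W.one_le_C
  have hδ' : 0 < 1 / δ := by positivity
  have hC' : 0 < W.C + M + 1 / δ := by positivity
  have h1 : 1 / (W.C + M + 1 / δ) ≤ 1 / W.C := one_div_le_one_div_of_le hC (by linarith)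
  have h2 : 1 / (W.C + M + 1 / δ) ≤ δ := by
    rw [one_div_le hC' hδ]
    linarith
  refine ⟨{ W with
    C := W.C + M + 1 / δ
    one_le_C := by linarith [W.one_le_C]
    escape := fun g n hg => ?_
    comm := fun g k hg hk => ?_ }⟩
  · refine (W.escape g n (hg.trans h1)).trans ?_
    exact mul_le_mul_of_nonneg_right (by linarith) (W.nrm_nonneg _)
  · refine (h g k (hg.trans h2) (hk.trans h2)).trans ?_
    refine mul_le_mul_of_nonneg_right ?_ (W.nrm_nonneg _)
    exact mul_le_mul_of_nonneg_right (by linarith) (W.nrm_nonneg _)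

end Crest.Agent.R217
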