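import Crest.Agent.R217.GYDefs

/-! # Row 217: the convolution lemma used for both Gleason estimates -/

set_option autoImplicit false

namespace Crest.Agent.R217

open Topology Filter Set MeasureTheory

/-- a bounded measurable function vanishing off a set of finite measure -/
theorem conv_aux {G : Type*} [MeasurableSpace G] {μ : Measure G} {S : Set G}
    (hS : MeasurableSet S) (hμ : μ S ≠ ⊤) {f : G → ℝ} (hf : Measurable f) {a : ℝ}
    (h1 : ∀ y ∈ S, |f y| ≤ a) (h0 : ∀ y, y ∉ S → f y = 0) :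
    Integrable f μ ∧ |∫ y, f y ∂μ| ≤ μ.real S * a := by
  have hi : Integrable (S.indicator fun _ => a) μ :=
    (integrable_indicator_iff hS).2 (integrableOn_const hμ)
  have hb : ∀ᵐ y ∂μ, ‖f y‖ ≤ S.indicator (fun _ => a) y := by
    refine Eventually.of_forall fun y => ?_
    by_cases hy : y ∈ S
    · rw [indicator_of_mem hy]; exact h1 y hy
    · rw [indicator_of_notMem hy, h0 y hy, norm_zero]
  refine ⟨hi.mono' hf.aestronglyMeasurable hb, ?_⟩
  have := norm_integral_le_of_norm_le hi hb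
  rwa [integral_indicator_const _ hS, smul_eq_mul] at this

/-- Convolution with respect to a left Haar measure. The constant `D` depends only on `S` and `U`.
`φ x = c ∫ ψ y * η (y⁻¹ x) dy` with `c = 1 / μ (interior U)`, `D = c μ S`. -/
theorem exists_conv {G : Type*} [Group G] [TopologicalSpace G] [IsTopologicalGroup G] [T2Space G]
    [LocallyCompactSpace G] [SecondCountableTopology G] [MeasurableSpace G] [BorelSpace G]
    {S U : Set G} (hS : IsCompact S) (hU : U ∈ 𝓝 (1 : G)) :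
    ∃ D : ℝ, 0 < D ∧ ∀ ψ η : G → ℝ, Measurable ψ → Measurable η →
      (∀ y, 0 ≤ ψ y ∧ ψ y ≤ 1) → (∀ y, 0 ≤ η y ∧ η y ≤ 1) → (∀ y, ψ y ≠ 0 → y ∈ S) →
      (∀ y ∈ U, ψ y = 1 ∧ η y⁻¹ = 1) →
      ∃ φ : G → ℝ, 1 ≤ φ 1 ∧ (∀ x, φ x ≠ 0 → ∃ y, ψ y ≠ 0 ∧ η (y⁻¹ * x) ≠ 0) ∧
        ∀ (g : G) (a : ℝ), (∀ y, ψ (g⁻¹ * y) ≠ 0 → y ∈ S) → (∀ y, |ψ (g⁻¹ * y) - ψ y| ≤ a) →
          (∀ x, |φ (g⁻¹ * x) - φ x| ≤ D * a) ∧
          ∀ (h : G) (b : ℝ), (∀ y ∈ S, ∀ z, |η ((y⁻¹ * h * y)⁻¹ * z) - η z| ≤ b) →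
            ∀ x, |(φ (g⁻¹ * (h⁻¹ * x)) - φ (h⁻¹ * x)) - (φ (g⁻¹ * x) - φ x)| ≤ D * a * b := by
  let μ : Measure G := Measure.haar
  set c : ℝ := (μ.real (interior U))⁻¹ with hc
  have hc0 : 0 ≤ c := inv_nonneg.2 measureReal_nonneg
  have hm0 : 0 ≤ μ.real S := measureReal_nonneg
  refine ⟨c * μ.real S + 1, by positivity, fun ψ η hψ hη ψb ηb ψS hU1 => ?_⟩
  have hSm : MeasurableSet S := hS.measurableSet
  have hSf : μ S ≠ ⊤ := hS.measure_lt_top.ne
  have hUS : U ⊆ S := fun y hy => ψS y (by rw [(hU1 y hy).1]; exact one_ne_zero)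
  have h1S : (1 : G) ∈ S := hUS (mem_of_mem_nhds hU)
  have hUf : μ (interior U) ≠ ⊤ := ne_top_of_le_ne_top hSf (measure_mono (interior_subset.trans hUS))
  have hUp : 0 < μ.real (interior U) :=
    ENNReal.toReal_pos (isOpen_interior.measure_pos μ ⟨1, mem_interior_iff_mem_nhds.2 hU⟩).ne' hUf
  have mη : ∀ x : G, Measurable fun y : G => η (y⁻¹ * x) := fun x =>
    hη.comp (measurable_inv.mul_const x)
  have mψ : ∀ g : G, Measurable fun y : G => ψ (g⁻¹ * y) := fun g =>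
    hψ.comp (measurable_const_mul _)
  have aη : ∀ z, |η z| ≤ 1 := fun z => by rw [abs_of_nonneg (ηb z).1]; exact (ηb z).2
  have aψ : ∀ z, |ψ z| ≤ 1 := fun z => by rw [abs_of_nonneg (ψb z).1]; exact (ψb z).2
  have int1 : ∀ (g x : G), (∀ y, ψ (g⁻¹ * y) ≠ 0 → y ∈ S) →
      Integrable (fun y => ψ (g⁻¹ * y) * η (y⁻¹ * x)) μ := by
    intro g x hg
    refine (conv_aux hSm hSf ((mψ g).fun_mul (mη x)) (a := 1) (fun y _ => ?_) (fun y hy => ?_)).1
    · rw [abs_mul]; exact mul_le_one₀ (aψ _) (abs_nonneg _) (aη _)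
    · rw [not_not.1 (mt (hg y) hy), zero_mul]
  have int0 : ∀ x : G, Integrable (fun y => ψ y * η (y⁻¹ * x)) μ := by
    intro x
    simpa using int1 1 x (by simpa using ψS)
  refine ⟨fun x => c * ∫ y, ψ y * η (y⁻¹ * x) ∂μ, ?_, ?_, ?_⟩
  · have h1 : μ.real (interior U) ≤ ∫ y, ψ y * η (y⁻¹ * 1) ∂μ := by
      have : ∫ y, (interior U).indicator (fun _ => (1 : ℝ)) y ∂μ = μ.real (interior U) := by
        rw [integral_indicator_const _ isOpen_interior.measurableSet, smul_eq_mul, mul_one]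
      rw [← this]
      refine integral_mono ((integrable_indicator_iff isOpen_interior.measurableSet).2
        (integrableOn_const hUf)) (int0 1) fun y => ?_
      by_cases hy : y ∈ interior U
      · simp only [indicator_of_mem hy, mul_one]
        rw [(hU1 y (interior_subset hy)).1, (hU1 y (interior_subset hy)).2, mul_one]
      · simp only [indicator_of_notMem hy]
        exact mul_nonneg (ψb _).1 (ηb _).1
    calc (1 : ℝ) = c * μ.real (interior U) := by rw [hc, inv_mul_cancel₀ hUp.ne']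
      _ ≤ _ := mul_le_mul_of_nonneg_left h1 hc0
  · intro x hx
    by_contra hne
    push Not at hne
    apply hx
    have : (fun y => ψ y * η (y⁻¹ * x)) = fun _ => 0 := by
      funext y
      by_cases hy : ψ y = 0
      · rw [hy, zero_mul]
      · rw [hne y hy, mul_zero]
    simp only [this, integral_zero, mul_zero]
  · intro g a hg ha
    have ha0 : 0 ≤ a := (abs_nonneg _).trans (ha 1)
    have key : ∀ x, c * ∫ y, ψ y * η (y⁻¹ * (g⁻¹ * x)) ∂μ - c * ∫ y, ψ y * η (y⁻¹ * x) ∂μ =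
        c * ∫ y, (ψ (g⁻¹ * y) - ψ y) * η (y⁻¹ * x) ∂μ := by
      intro x
      have h1 : ∫ y, ψ y * η (y⁻¹ * (g⁻¹ * x)) ∂μ = ∫ y, ψ (g⁻¹ * y) * η (y⁻¹ * x) ∂μ := by
        rw [← integral_mul_left_eq_self (fun y => ψ (g⁻¹ * y) * η (y⁻¹ * x)) g]
        simp only [inv_mul_cancel_left, mul_inv_rev, mul_assoc]
      rw [h1, ← mul_sub, ← integral_sub (int1 g x hg) (int0 x)]
      simp only [sub_mul]
    have van : ∀ y, y ∉ S → ψ (g⁻¹ * y) - ψ y = 0 := fun y hy => by
      rw [not_not.1 (mt (hg y) hy), not_not.1 (mt (ψS y) hy), sub_zero]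
    have bd : ∀ x, Integrable (fun y => (ψ (g⁻¹ * y) - ψ y) * η (y⁻¹ * x)) μ ∧
        |∫ y, (ψ (g⁻¹ * y) - ψ y) * η (y⁻¹ * x) ∂μ| ≤ μ.real S * a := by
      intro x
      refine conv_aux hSm hSf (((mψ g).fun_sub hψ).fun_mul (mη x)) (fun y _ => ?_) (fun y hy => ?_)
      · rw [abs_mul]
        exact (mul_le_mul (ha y) (aη _) (abs_nonneg _) ha0).trans (mul_one a).le
      · rw [van y hy, zero_mul]
    refine ⟨fun x => ?_, fun h b hb x => ?_⟩
    · simp only
      rw [key, abs_mul, abs_of_nonneg hc0]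
      have := mul_le_mul_of_nonneg_left (bd x).2 hc0
      nlinarith
    · have hb0 : 0 ≤ b := (abs_nonneg _).trans (hb 1 h1S 1)
      simp only
      rw [key, key, ← mul_sub, ← integral_sub (bd _).1 (bd _).1, abs_mul, abs_of_nonneg hc0]
      have h2 : |∫ y, ((ψ (g⁻¹ * y) - ψ y) * η (y⁻¹ * (h⁻¹ * x)) -
          (ψ (g⁻¹ * y) - ψ y) * η (y⁻¹ * x)) ∂μ| ≤ μ.real S * (a * b) := by
        refine (conv_aux hSm hSf ((((mψ g).fun_sub hψ).fun_mul (mη _)).fun_sub
          (((mψ g).fun_sub hψ).fun_mul (mη x)))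
          (fun y hy => ?_) (fun y hy => ?_)).2
        · rw [← mul_sub, abs_mul]
          refine mul_le_mul (ha y) ?_ (abs_nonneg _) ha0
          have := hb y hy (y⁻¹ * x)
          simpa only [mul_inv_rev, inv_inv, mul_assoc, mul_inv_cancel_left] using this
        · rw [van y hy, zero_mul, zero_mul, sub_zero]
      have := mul_le_mul_of_nonneg_left h2 hc0
      have hab := mul_nonneg ha0 hb0
      nlinarith

end Crest.Agent.R217
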