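import Mathlib

/-!
# Row 217 (Hilbert-Smith): definitions for the Gleason-Yamabe part and for the reduction

`NSS`, weak Gleason and Gleason norms (Tao, *Hilbert's fifth problem*, ch. 1.3 and 1.5), the
exponential data, local Lie data, "good" compact groups and local actions.
-/

set_option autoImplicit false

namespace Crest.Agent.R217

open Topology Filter Set
open scoped ContDiff

/-- No small subgroups. -/
def NSS (G : Type*) [Group G] [TopologicalSpace G] : Prop :=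
  ∃ U ∈ 𝓝 (1 : G), ∀ H : Subgroup G, (H : Set G) ⊆ U → H = ⊥

/-- A weak Gleason norm: a continuous symmetric subadditive "norm" generating the topology at `1`,
with the escape property. -/
structure WGleason (G : Type*) [Group G] [TopologicalSpace G] where
  nrm : G → ℝ
  C : ℝ
  one_le_C : 1 ≤ C
  nrm_one : nrm 1 = 0
  nrm_inv : ∀ g, nrm g⁻¹ = nrm g
  nrm_mul : ∀ g h, nrm (g * h) ≤ nrm g + nrm h
  cont : Continuous nrm
  basis : ∀ U ∈ 𝓝 (1 : G), ∃ ε > 0, ∀ g, nrm g < ε → g ∈ U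
  escape : ∀ (g : G) (n : ℕ), n * nrm g ≤ 1 / C → n * nrm g ≤ C * nrm (g ^ n)

/-- A Gleason norm: a weak Gleason norm with the commutator estimate. -/
structure Gleason (G : Type*) [Group G] [TopologicalSpace G] extends WGleason G where
  comm : ∀ g h, nrm g ≤ 1 / C → nrm h ≤ 1 / C → nrm (g⁻¹ * h⁻¹ * g * h) ≤ C * nrm g * nrm h

/-- The space `L` of one-parameter subgroups, as a normed space, with its exponential map. -/
structure PreExp {G : Type*} [Group G] [TopologicalSpace G] (Γ : Gleason G)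
    (L : Type*) [NormedAddCommGroup L] [NormedSpace ℝ L] where
  exp : L → G
  K : ℝ
  r : ℝ
  one_le_K : 1 ≤ K
  r_pos : 0 < r
  exp_add : ∀ (X : L) (s t : ℝ), exp ((s + t) • X) = exp (s • X) * exp (t • X)
  nrm_exp_le : ∀ X, Γ.nrm (exp X) ≤ ‖X‖
  le_nrm_exp : ∀ X, ‖X‖ ≤ r → ‖X‖ ≤ K * Γ.nrm (exp X)
  trotter : ∀ X Y, ‖X‖ ≤ r → ‖Y‖ ≤ r →
    Γ.nrm ((exp X * exp Y)⁻¹ * exp (X + Y)) ≤ K * ‖X‖ * ‖Y‖
  surj : ∀ φ : ℝ → G, Continuous φ → (∀ s t, φ (s + t) = φ s * φ t) →
    ∃ X : L, ∀ t : ℝ, φ t = exp (t • X)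

/-- A radially homogeneous `C^{1,1}` local group law on a normed space. -/
structure C11 (L : Type*) [NormedAddCommGroup L] [NormedSpace ℝ L] where
  μ : L → L → L
  K : ℝ
  r : ℝ
  r_pos : 0 < r
  assoc : ∀ x y z, ‖x‖ ≤ r → ‖y‖ ≤ r → ‖z‖ ≤ r → μ (μ x y) z = μ x (μ y z)
  hom : ∀ (x : L) (s t : ℝ), ‖s • x‖ ≤ r → ‖t • x‖ ≤ r → μ (s • x) (t • x) = (s + t) • x
  est : ∀ x y, ‖x‖ ≤ r → ‖y‖ ≤ r → ‖μ x y - x - y‖ ≤ K * ‖x‖ * ‖y‖

/-- A chart `e` at the identity in which the group law is smooth near `1`, inversion is `-` and all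
conjugations are linear. -/
structure LocalLie (G : Type*) [Group G] [TopologicalSpace G]
    (L : Type*) [NormedAddCommGroup L] [NormedSpace ℝ L] where
  e : OpenPartialHomeomorph L G
  W : Set L
  W_open : IsOpen W
  zero_mem : (0 : L) ∈ W
  W_sub : W ⊆ e.source
  e_zero : e 0 = 1
  mul_mem : ∀ x ∈ W, ∀ y ∈ W, e x * e y ∈ e.target
  smooth : ContDiffOn ℝ ∞ (fun p : L × L => e.symm (e p.1 * e p.2)) (W ×ˢ W)
  Ad : G → L →L[ℝ] L
  conj : ∀ g : G, ∀ᶠ x in 𝓝 (0 : L), g * e x * g⁻¹ = e (Ad g x)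
  inv : ∀ᶠ x in 𝓝 (0 : L), (e x)⁻¹ = e (-x)

/-- The compact abelian groups that have to be excluded (in fact `ℤ_p` or `ℤ/p^k`): there is a
basis of open subgroups and a nontrivial character of finite order that kills every proper closed
subgroup. -/
structure Good (H : Type*) [CommGroup H] [TopologicalSpace H] where
  p : ℕ
  p_pos : 0 < p
  χ : H →* ℂ
  χ_pow : ∀ h, χ h ^ p = 1
  nontriv : ∃ h, χ h ≠ 1
  ker_open : IsOpen {h | χ h = 1}
  basis : ∀ U ∈ 𝓝 (1 : H), ∃ H' : OpenSubgroup H, (H' : Set H) ⊆ U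
  proper : ∀ H' : Subgroup H, IsClosed (H' : Set H) → H' ≠ ⊤ → ∀ h ∈ H', χ h = 1

/-- A local action of `H` on the closed unit ball of `E` that moves points by at most `ε`. -/
structure LAct (H : Type*) [Group H] [TopologicalSpace H]
    (E : Type*) [NormedAddCommGroup E] (ε : ℝ) where
  act : H → E → E
  cont : ContinuousOn (fun p : H × E => act p.1 p.2) (univ ×ˢ Metric.closedBall 0 1)
  one : ∀ y, ‖y‖ ≤ 1 → act 1 y = y
  mul : ∀ g h y, ‖y‖ ≤ 1 → ‖act h y‖ ≤ 1 → act g (act h y) = act (g * h) y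
  small : ∀ h y, ‖y‖ ≤ 1 → ‖act h y - y‖ ≤ ε

/-- "Theorem S" for the normed space `E` (universe `u` for the acting group). -/
def SmallStmt.{u} (E : Type) [NormedAddCommGroup E] : Prop :=
  ∃ ε > 0, ∀ (H : Type u) [CommGroup H] [TopologicalSpace H] [IsTopologicalGroup H]
    [CompactSpace H], Good H → ∀ a : LAct H E ε, ∀ h, a.act h 0 = 0

/-! Realise the equation lemmas once, in the defining file. -/

theorem anchor_GYDefs_1 : type_of% @NSS.eq_1 := @NSS.eq_1
theorem anchor_GYDefs_2 : type_of% @SmallStmt.eq_1 := @SmallStmt.eq_1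
theorem anchor_GYDefs_3 : type_of% @NSS.eq_def := @NSS.eq_def
theorem anchor_GYDefs_4 : type_of% @SmallStmt.eq_def := @SmallStmt.eq_def

end Crest.Agent.R217
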