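import Crest.Agent.R217.GYEst

/-! # Row 217: the normed space of one-parameter subgroups -/

set_option autoImplicit false

namespace Crest.Agent.R217

open Topology Filter Set

universe u

namespace ExpAux

variable {G : Type u} [Group G] [TopologicalSpace G] (Γ : Gleason G)

theorem C_pos : 0 < Γ.C := one_pos.trans_le Γ.one_le_C

theorem nrm_tri (a b c : G) : Γ.nrm (a⁻¹ * c) ≤ Γ.nrm (a⁻¹ * b) + Γ.nrm (b⁻¹ * c) := by
  simpa only [mul_assoc, mul_inv_cancel_left] using Γ.nrm_mul (a⁻¹ * b) (b⁻¹ * c)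

theorem nrm_zpow_le (g : G) (k : ℤ) : Γ.nrm (g ^ k) ≤ |(k : ℝ)| * Γ.nrm g := by
  obtain ⟨n, rfl | rfl⟩ := k.eq_nat_or_neg
  · simpa using Γ.nrm_pow_le g n
  · simpa [Γ.nrm_inv] using Γ.nrm_pow_le g n

theorem mul_zpow_dist : ∃ K δ : ℝ, 0 < K ∧ 0 < δ ∧ ∀ (k : ℤ) (g h : G),
    |(k : ℝ)| * Γ.nrm g ≤ δ → |(k : ℝ)| * Γ.nrm h ≤ δ →
    Γ.nrm ((g ^ k * h ^ k)⁻¹ * (g * h) ^ k) ≤ K * (|(k : ℝ)| * Γ.nrm g) * (|(k : ℝ)| * Γ.nrm h) := by
  obtain ⟨K, δ, hK, hδ, H⟩ := Γ.mul_pow_dist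
  have hC := C_pos Γ
  refine ⟨K + Γ.C, min δ (1 / Γ.C), by positivity, by positivity, fun k g h hg hh => ?_⟩
  have g0 := Γ.nrm_nonneg g
  have h0 := Γ.nrm_nonneg h
  obtain ⟨n, rfl | rfl⟩ := k.eq_nat_or_neg
  · simp only [zpow_natCast, Int.cast_natCast, Nat.abs_cast] at hg hh ⊢
    refine (H n g h (hg.trans (min_le_left _ _)) (hh.trans (min_le_left _ _))).trans ?_
    gcongr
    linarith
  · simp only [zpow_neg, zpow_natCast, Int.cast_neg, Int.cast_natCast, abs_neg, Nat.abs_cast,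
      ← inv_pow] at hg hh ⊢
    have h1 := H n h⁻¹ g⁻¹ (Γ.nrm_inv h ▸ hh.trans (min_le_left _ _))
      (Γ.nrm_inv g ▸ hg.trans (min_le_left _ _))
    have h2 := Γ.nrm_pow_le g⁻¹ n
    have h3 := Γ.nrm_pow_le h⁻¹ n
    rw [Γ.nrm_inv] at h1 h1 h2 h3
    have h4 := Γ.comm (h⁻¹ ^ n) (g⁻¹ ^ n) (h3.trans (hh.trans (min_le_right _ _)))
      (h2.trans (hg.trans (min_le_right _ _)))
    have h5 := nrm_tri Γ (g⁻¹ ^ n * h⁻¹ ^ n) (h⁻¹ ^ n * g⁻¹ ^ n) ((h⁻¹ * g⁻¹) ^ n)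
    have h6 : Γ.C * Γ.nrm (h⁻¹ ^ n) * Γ.nrm (g⁻¹ ^ n) ≤ Γ.C * (n * Γ.nrm h) * (n * Γ.nrm g) := by
      have := Γ.nrm_nonneg (g⁻¹ ^ n)
      gcongr
    rw [mul_inv_rev (g⁻¹ ^ n), ← mul_assoc] at h5
    rw [mul_inv_rev g, mul_inv_rev (g⁻¹ ^ n)]
    linarith

/-- One-parameter subgroups. -/
@[ext]
structure OP {G : Type u} [Group G] [TopologicalSpace G] (_Γ : Gleason G) : Type u where
  f : ℝ → G
  cont : Continuous f
  add : ∀ s t, f (s + t) = f s * f t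

namespace OP

variable {Γ} (φ ψ : OP Γ)

theorem zero : φ.f 0 = 1 := by simpa using φ.add 0 0

theorem neg (t : ℝ) : φ.f (-t) = (φ.f t)⁻¹ :=
  eq_inv_of_mul_eq_one_left (by rw [← φ.add, neg_add_cancel, φ.zero])

theorem pow (t : ℝ) (n : ℕ) : φ.f t ^ n = φ.f (n * t) := by
  induction n with
  | zero => simp [φ.zero]
  | succ n ih => rw [pow_succ, ih, ← φ.add, Nat.cast_succ, add_one_mul]

theorem zpow (t : ℝ) (k : ℤ) : φ.f t ^ k = φ.f (k * t) := by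
  obtain ⟨n, rfl | rfl⟩ := k.eq_nat_or_neg <;> simp [φ.pow, φ.neg]

theorem tendsto_nrm : Tendsto (fun t => Γ.nrm (φ.f t)) (𝓝 0) (𝓝 0) :=
  (Γ.cont.comp φ.cont).tendsto' 0 0 (by simp [φ.zero, Γ.nrm_one])

theorem exists_bound : ∃ M, ∀ t, Γ.nrm (φ.f t) ≤ M * |t| := by
  obtain ⟨K, δ, hK, hδ, H⟩ := Γ.exists_escape'
  obtain ⟨η, hη, h1⟩ := Metric.eventually_nhds_iff_ball.1 (φ.tendsto_nrm.eventually_le_const hδ)
  simp only [mem_ball_zero_iff, Real.norm_eq_abs] at h1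
  have h2 : ∀ t, |t| ≤ η / 2 → Γ.nrm (φ.f t) ≤ 4 * K * δ / η * |t| := by
    intro t ht
    rcases eq_or_ne t 0 with rfl | h0
    · simp [φ.zero, Γ.nrm_one]
    have ht0 := abs_pos.2 h0
    have h3 : (1 : ℝ) ≤ ⌊η / 2 / |t|⌋₊ := by
      exact_mod_cast (Nat.one_le_floor_iff _).2 ((one_le_div ht0).2 ht)
    have h4 := (div_lt_iff₀ ht0).1 (Nat.lt_floor_add_one (η / 2 / |t|))
    have h5 := (le_div_iff₀ ht0).1 (Nat.floor_le (show 0 ≤ η / 2 / |t| by positivity))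
    have h6 := H (φ.f t) ⌊η / 2 / |t|⌋₊ δ le_rfl fun i hi => by
      rw [φ.pow]
      refine h1 _ ?_
      rw [abs_mul, Nat.abs_cast]
      have : (i : ℝ) ≤ ⌊η / 2 / |t|⌋₊ := by exact_mod_cast hi
      nlinarith
    rw [div_mul_eq_mul_div, le_div_iff₀ hη]
    have h7 : η ≤ 4 * (⌊η / 2 / |t|⌋₊ * |t|) := by nlinarith
    nlinarith [mul_le_mul_of_nonneg_left h7 (Γ.nrm_nonneg (φ.f t)),
      mul_le_mul_of_nonneg_right h6 ht0.le]
  refine ⟨4 * K * δ / η, fun t => ?_⟩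
  obtain ⟨n, hn⟩ := exists_nat_gt (|t| / (η / 2))
  have hn0 : (0 : ℝ) < n := lt_of_le_of_lt (by positivity) hn
  have h3 := h2 (t / n) (by
    rw [abs_div, Nat.abs_cast, div_le_iff₀' hn0]
    exact ((div_lt_iff₀ (half_pos hη)).1 hn).le)
  have h4 := Γ.nrm_pow_le (φ.f (t / n)) n
  rw [φ.pow, mul_div_cancel₀ _ hn0.ne'] at h4
  refine h4.trans ((mul_le_mul_of_nonneg_left h3 hn0.le).trans_eq ?_)
  rw [abs_div, Nat.abs_cast]
  field_simp

noncomputable instance : Norm (OP Γ) := ⟨fun φ => ⨆ t, Γ.nrm (φ.f t) / |t|⟩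

theorem norm_le {M : ℝ} (hM : 0 ≤ M) (h : ∀ t, Γ.nrm (φ.f t) ≤ M * |t|) : ‖φ‖ ≤ M :=
  ciSup_le fun t => div_le_of_le_mul₀ (abs_nonneg t) hM (h t)

theorem norm_nonneg : 0 ≤ ‖φ‖ :=
  Real.iSup_nonneg fun t => div_nonneg (Γ.nrm_nonneg _) (abs_nonneg t)

theorem nrm_le (t : ℝ) : Γ.nrm (φ.f t) ≤ ‖φ‖ * |t| := by
  obtain ⟨M, hM⟩ := φ.exists_bound
  rcases eq_or_ne t 0 with rfl | h0
  · simp [φ.zero, Γ.nrm_one]
  refine (div_le_iff₀ (abs_pos.2 h0)).1 (le_ciSup (f := fun t => Γ.nrm (φ.f t) / |t|) ⟨|M|, ?_⟩ t)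
  rintro _ ⟨s, rfl⟩
  exact div_le_of_le_mul₀ (abs_nonneg s) (abs_nonneg M)
    ((hM s).trans (mul_le_mul_of_nonneg_right (le_abs_self M) (abs_nonneg s)))

end OP

theorem abs_tau_sub (n : ℕ) (t : ℝ) :
    |(⌊((n : ℝ) + 1) * t⌋ : ℝ) * (1 / (n + 1)) - t| ≤ 1 / (n + 1) := by
  have h0 : (0 : ℝ) < n + 1 := by positivity
  have h1 := Int.floor_le (((n : ℝ) + 1) * t)
  have h2 := Int.lt_floor_add_one (((n : ℝ) + 1) * t)
  rw [show (⌊((n : ℝ) + 1) * t⌋ : ℝ) * (1 / (n + 1)) - t =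
    ((⌊((n : ℝ) + 1) * t⌋ : ℝ) - (n + 1) * t) / (n + 1) by field_simp, abs_div, abs_of_pos h0]
  exact div_le_div_of_nonneg_right (abs_le.2 ⟨by linarith, by linarith⟩) h0.le

theorem tendsto_tau (t : ℝ) :
    Tendsto (fun n : ℕ => (⌊((n : ℝ) + 1) * t⌋ : ℝ) * (1 / (n + 1))) atTop (𝓝 t) :=
  tendsto_iff_dist_tendsto_zero.2 (squeeze_zero (fun _ => dist_nonneg) (fun n => abs_tau_sub n t)
    tendsto_one_div_add_atTop_nhds_zero_nat)

theorem OP.norm_le_nrm_one {Γ : Gleason G} (φ : OP Γ) (h : ‖φ‖ ≤ 1 / Γ.C) :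
    ‖φ‖ ≤ Γ.C * Γ.nrm (φ.f 1) := by
  refine φ.norm_le (mul_nonneg (C_pos Γ).le (Γ.nrm_nonneg _)) fun t => ?_
  refine le_of_tendsto_of_tendsto' (((Γ.cont.comp φ.cont).tendsto t).comp (tendsto_tau t))
    ((tendsto_tau t).abs.const_mul _) fun n => ?_
  have h0 : (0 : ℝ) < n + 1 := by positivity
  have h1 := φ.nrm_le (1 / (n + 1))
  rw [abs_of_pos (by positivity), mul_one_div, le_div_iff₀' h0] at h1
  have h2 := Γ.escape (φ.f (1 / (n + 1))) (n + 1) (by exact_mod_cast h1.trans h)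
  rw [φ.pow, Nat.cast_succ, mul_one_div_cancel h0.ne', ← le_div_iff₀' h0] at h2
  simp only [Function.comp_apply, ← φ.zpow]
  refine (nrm_zpow_le Γ _ _).trans ((mul_le_mul_of_nonneg_left h2 (abs_nonneg _)).trans_eq ?_)
  rw [abs_mul, abs_of_pos (show (0 : ℝ) < 1 / (n + 1) by positivity)]
  ring

variable [IsTopologicalGroup G] [T2Space G] [LocallyCompactSpace G]

/-- Ultralimits of sequences that tend to `1` at the rate `1 / n`. -/
theorem exists_op (g : ℕ → G) {M : ℝ} (hM : 0 ≤ M) (hg : ∀ n, Γ.nrm (g n) ≤ M * (1 / (n + 1))) :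
    ∃ x : OP Γ, ‖x‖ ≤ M ∧ ∀ t, Tendsto (fun n => g n ^ ⌊((n : ℝ) + 1) * t⌋)
      (hyperfilter ℕ : Filter ℕ) (𝓝 (x.f t)) := by
  have hU := Nat.hyperfilter_le_atTop
  have h1 : ∀ (n : ℕ) (t : ℝ), Γ.nrm (g n ^ ⌊((n : ℝ) + 1) * t⌋) ≤
      M * |(⌊((n : ℝ) + 1) * t⌋ : ℝ) * (1 / (n + 1))| := fun n t => by
    refine (nrm_zpow_le Γ _ _).trans ((mul_le_mul_of_nonneg_left (hg n) (abs_nonneg _)).trans_eq ?_)
    rw [abs_mul, abs_of_pos (show (0 : ℝ) < 1 / (n + 1) by positivity)]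
    ring
  have h2 : ∀ {s t : ℝ} {a b : G},
      Tendsto (fun n => g n ^ ⌊((n : ℝ) + 1) * s⌋) (hyperfilter ℕ : Filter ℕ) (𝓝 a) →
      Tendsto (fun n => g n ^ ⌊((n : ℝ) + 1) * t⌋) (hyperfilter ℕ : Filter ℕ) (𝓝 b) →
      Tendsto (fun n => g n ^ ⌊((n : ℝ) + 1) * (s + t)⌋) (hyperfilter ℕ : Filter ℕ)
        (𝓝 (a * b)) := by
    intro s t a b ha hb
    have h3 : Tendsto (fun n => g n ^ (⌊((n : ℝ) + 1) * (s + t)⌋ -
        (⌊((n : ℝ) + 1) * s⌋ + ⌊((n : ℝ) + 1) * t⌋))) atTop (𝓝 1) := by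
      rw [Γ.tendsto_iff]
      refine squeeze_zero (fun _ => Γ.nrm_nonneg _) (fun n => ?_)
        (by simpa using tendsto_one_div_add_atTop_nhds_zero_nat.const_mul M)
      have h4 := Int.le_floor_add (((n : ℝ) + 1) * s) ((n + 1) * t)
      have h5 := Int.le_floor_add_floor (((n : ℝ) + 1) * s) ((n + 1) * t)
      rw [inv_one, one_mul, mul_add]
      refine (nrm_zpow_le Γ _ _).trans ((mul_le_of_le_one_left (Γ.nrm_nonneg _) ?_).trans
        (by simpa using hg n))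
      generalize ⌊((n : ℝ) + 1) * s + (n + 1) * t⌋ = a at *
      generalize ⌊((n : ℝ) + 1) * s⌋ = b at *
      generalize ⌊((n : ℝ) + 1) * t⌋ = c at *
      rw [← Int.cast_abs]
      exact_mod_cast abs_le.2 ⟨by omega, by omega⟩
    simpa only [← zpow_add, add_sub_cancel, mul_one] using (ha.mul hb).mul (h3.mono_left hU)
  obtain ⟨δ, hδ, hK⟩ := Γ.exists_compact_ball
  have h3 : ∀ (j : ℕ) (t : ℝ), M * |t| < δ → ∃ y,
      Tendsto (fun n => g n ^ ⌊((n : ℝ) + 1) * (j * t)⌋) (hyperfilter ℕ : Filter ℕ) (𝓝 y) := by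
    intro j t ht
    obtain ⟨y, -, hy⟩ := hK.ultrafilter_le_nhds
      ((hyperfilter ℕ).map fun n => g n ^ ⌊((n : ℝ) + 1) * t⌋) (le_principal_iff.2
        (hU ((((tendsto_tau t).abs.const_mul M).eventually_lt_const ht).mono fun n hn =>
          (h1 n t).trans hn.le)))
    induction j with
    | zero => exact ⟨1, by simp⟩
    | succ j ih =>
      obtain ⟨z, hz⟩ := ih
      exact ⟨z * y, by simpa only [Nat.cast_succ, add_one_mul (j : ℝ)] using h2 hz hy⟩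
  have h4 : ∀ t : ℝ, ∃ y,
      Tendsto (fun n => g n ^ ⌊((n : ℝ) + 1) * t⌋) (hyperfilter ℕ : Filter ℕ) (𝓝 y) := by
    intro t
    obtain ⟨j, hj⟩ := exists_nat_gt (M * |t| / δ)
    have hj0 : (0 : ℝ) < j := lt_of_le_of_lt (by positivity) hj
    have := h3 j (t / j) (by
      rw [abs_div, Nat.abs_cast, ← mul_div_assoc, div_lt_iff₀' hj0]
      exact (div_lt_iff₀ hδ).1 hj)
    rwa [mul_div_cancel₀ _ hj0.ne'] at this
  choose x hx using h4
  have h5 : ∀ s t, x (s + t) = x s * x t := fun s t =>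
    tendsto_nhds_unique (hx _) (h2 (hx s) (hx t))
  have h6 : ∀ t, Γ.nrm (x t) ≤ M * |t| := fun t =>
    le_of_tendsto_of_tendsto' ((Γ.cont.tendsto _).comp (hx t))
      (((tendsto_tau t).abs.const_mul M).mono_left hU) fun n => h1 n t
  have h7 : Continuous x := continuous_iff_continuousAt.2 fun s => by
    refine Γ.tendsto_iff.2 (squeeze_zero (g := fun t => M * |t - s|) (fun _ => Γ.nrm_nonneg _)
      (fun t => ?_) ((by fun_prop : Continuous fun t => M * |t - s|).tendsto' s 0 (by simp)))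
    have := h5 s (t - s)
    rw [add_sub_cancel] at this
    rw [this, inv_mul_cancel_left]
    exact h6 _
  exact ⟨⟨x, h7, h5⟩, OP.norm_le _ hM h6, hx⟩

theorem exists_add : ∃ K r : ℝ, 0 < K ∧ 0 < r ∧ ∀ φ ψ : OP Γ, ∃ x : OP Γ, ‖x‖ ≤ ‖φ‖ + ‖ψ‖ ∧
    ∀ t, ‖φ‖ * |t| < r → ‖ψ‖ * |t| < r →
      Γ.nrm ((φ.f t * ψ.f t)⁻¹ * x.f t) ≤ K * (‖φ‖ * |t|) * (‖ψ‖ * |t|) := by
  obtain ⟨K, δ, hK, hδ, H⟩ := mul_zpow_dist Γ
  refine ⟨K, δ, hK, hδ, fun φ ψ => ?_⟩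
  have hU := Nat.hyperfilter_le_atTop
  obtain ⟨x, hx, hx'⟩ := exists_op Γ (fun n => φ.f (1 / (n + 1)) * ψ.f (1 / (n + 1)))
    (add_nonneg φ.norm_nonneg ψ.norm_nonneg) fun n => by
      refine (Γ.nrm_mul _ _).trans ((add_le_add (φ.nrm_le _) (ψ.nrm_le _)).trans_eq ?_)
      rw [abs_of_pos (show (0 : ℝ) < 1 / (n + 1) by positivity), add_mul]
  refine ⟨x, hx, fun t h1 h2 => ?_⟩
  have h3 := (tendsto_tau t).mono_left hU
  have h4 : ∀ (χ : OP Γ) (k : ℤ) (s : ℝ), |(k : ℝ)| * Γ.nrm (χ.f s) ≤ ‖χ‖ * |k * s| := fun χ k s =>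
    (mul_le_mul_of_nonneg_left (χ.nrm_le s) (abs_nonneg _)).trans_eq (by rw [abs_mul]; ring)
  refine le_of_tendsto_of_tendsto ((Γ.cont.tendsto _).comp
    ((((φ.cont.tendsto t).comp h3).mul ((ψ.cont.tendsto t).comp h3)).inv.mul (hx' t)))
    (((h3.abs.const_mul ‖φ‖).const_mul K).mul (h3.abs.const_mul ‖ψ‖)) ?_
  filter_upwards [(h3.abs.const_mul ‖φ‖).eventually_lt_const h1,
    (h3.abs.const_mul ‖ψ‖).eventually_lt_const h2] with n hn hn'
  simp only [Function.comp_apply, ← OP.zpow]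
  refine (H _ _ _ ((h4 _ _ _).trans hn.le) ((h4 _ _ _).trans hn'.le)).trans ?_
  exact mul_le_mul (mul_le_mul_of_nonneg_left (h4 _ _ _) hK.le) (h4 _ _ _)
    (mul_nonneg (abs_nonneg _) (Γ.nrm_nonneg _))
    (mul_nonneg hK.le (mul_nonneg φ.norm_nonneg (abs_nonneg _)))

/-- Tangency of second order at `0`. -/
def Tan (f g : ℝ → G) : Prop := ∃ K, ∀ᶠ t in 𝓝 (0 : ℝ), Γ.nrm ((f t)⁻¹ * g t) ≤ K * t ^ 2

section Tan

omit [IsTopologicalGroup G] [T2Space G] [LocallyCompactSpace G]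

variable {Γ} {f g k : ℝ → G}

theorem Tan.of_eq (h : ∀ t, f t = g t) : Tan Γ f g :=
  ⟨0, Eventually.of_forall fun t => by simp [h t, Γ.nrm_one]⟩

theorem Tan.symm (h : Tan Γ f g) : Tan Γ g f :=
  h.imp fun _ h => h.mono fun t h => by rwa [← Γ.nrm_inv, mul_inv_rev, inv_inv]

theorem Tan.trans (h : Tan Γ f g) (h' : Tan Γ g k) : Tan Γ f k := by
  obtain ⟨K, h⟩ := h
  obtain ⟨K', h'⟩ := h'
  exact ⟨K + K', (h.and h').mono fun t h => by linarith [nrm_tri Γ (f t) (g t) (k t), h.1, h.2]⟩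

theorem Tan.mul_left (h : Tan Γ f g) (k : ℝ → G) :
    Tan Γ (fun t => k t * f t) fun t => k t * g t := by
  simpa only [Tan, mul_inv_rev, mul_assoc, inv_mul_cancel_left] using h

theorem Tan.mul_right (h : Tan Γ f g) (χ : OP Γ) :
    Tan Γ (fun t => f t * χ.f t) fun t => g t * χ.f t := by
  obtain ⟨K, h⟩ := h
  have hC := C_pos Γ
  have h1 : Tendsto (fun t : ℝ => K * t ^ 2) (𝓝 0) (𝓝 0) :=
    (by fun_prop : Continuous fun t : ℝ => K * t ^ 2).tendsto' 0 0 (by simp)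
  refine ⟨2 * K, ?_⟩
  filter_upwards [h, h1.eventually_le_const (one_div_pos.2 hC),
    χ.tendsto_nrm.eventually_le_const (one_div_pos.2 hC)] with t h2 h3 h4
  have h5 := Γ.conj_le (h2.trans h3) h4
  rw [le_div_iff₀' hC] at h4
  rw [mul_inv_rev, mul_assoc, ← mul_assoc (f t)⁻¹, ← mul_assoc]
  nlinarith [Γ.nrm_nonneg ((f t)⁻¹ * g t)]

theorem Tan.comm (φ ψ : OP Γ) : Tan Γ (fun t => φ.f t * ψ.f t) fun t => ψ.f t * φ.f t := by
  have hC := C_pos Γ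
  refine ⟨Γ.C * ‖ψ‖ * ‖φ‖, ?_⟩
  filter_upwards [φ.tendsto_nrm.eventually_le_const (one_div_pos.2 hC),
    ψ.tendsto_nrm.eventually_le_const (one_div_pos.2 hC)] with t h1 h2
  rw [mul_inv_rev, ← mul_assoc]
  refine (Γ.comm _ _ h2 h1).trans ((mul_le_mul (mul_le_mul_of_nonneg_left (ψ.nrm_le t) hC.le)
    (φ.nrm_le t) (Γ.nrm_nonneg _)
    (mul_nonneg hC.le (mul_nonneg ψ.norm_nonneg (abs_nonneg t)))).trans_eq ?_)
  rw [← sq_abs t]
  ring

theorem Tan.comp (h : Tan Γ f g) (c : ℝ) : Tan Γ (fun t => f (t * c)) fun t => g (t * c) := by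
  obtain ⟨K, h⟩ := h
  exact ⟨K * c ^ 2, (((continuous_mul_const c).tendsto' 0 0 (zero_mul c)).eventually h).mono
    fun t h => h.trans_eq (by ring)⟩

/-- The uniqueness principle. -/
theorem Tan.eq [T1Space G] {φ ψ : OP Γ} (h : Tan Γ φ.f ψ.f) : φ = ψ := by
  obtain ⟨K, h⟩ := h
  ext t
  obtain ⟨K', δ, hK', hδ, H⟩ := Γ.pow_dist_le (‖φ‖ * |t|)
  have h1 := tendsto_const_div_atTop_nhds_zero_nat t
  have h2 := tendsto_const_div_atTop_nhds_zero_nat (K * t ^ 2)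
  refine inv_mul_eq_one.1 (Γ.eq_one_of_nrm_eq_zero (le_antisymm
    (ge_of_tendsto (by simpa using h2.const_mul K') ?_) (Γ.nrm_nonneg _)))
  filter_upwards [h1.eventually h, (φ.tendsto_nrm.comp h1).eventually_le_const hδ,
    h2.eventually_le_const hδ, eventually_gt_atTop 0] with n h3 h4 h5 hn
  have hn' : (0 : ℝ) < n := by exact_mod_cast hn
  have h6 : n * Γ.nrm ((φ.f (t / n))⁻¹ * ψ.f (t / n)) ≤ K * t ^ 2 / n :=
    (mul_le_mul_of_nonneg_left h3 hn'.le).trans_eq (by field_simp)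
  have h7 := H n _ _ ((mul_le_mul_of_nonneg_left (φ.nrm_le (t / n)) hn'.le).trans_eq (by
    rw [abs_div, Nat.abs_cast]; field_simp)) h4 (h6.trans h5)
  rw [φ.pow, ψ.pow, mul_div_cancel₀ _ hn'.ne'] at h7
  exact h7.trans (mul_le_mul_of_nonneg_left h6 hK'.le)

end Tan

variable {Γ}

noncomputable instance : Add (OP Γ) :=
  ⟨fun φ ψ => ((exists_add Γ).choose_spec.choose_spec.2.2 φ ψ).choose⟩

instance : Zero (OP Γ) := ⟨⟨fun _ => 1, continuous_const, fun _ _ => (one_mul 1).symm⟩⟩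

instance : SMul ℝ (OP Γ) := ⟨fun c φ => ⟨fun t => φ.f (t * c),
  φ.cont.comp (continuous_mul_const c), fun s t => by rw [add_mul, φ.add]⟩⟩

instance : Neg (OP Γ) := ⟨fun φ => (-1 : ℝ) • φ⟩

theorem tan_add (φ ψ : OP Γ) : Tan Γ (φ + ψ).f fun t => φ.f t * ψ.f t := by
  have hr := (exists_add Γ).choose_spec.choose_spec.2.1
  have h := ((exists_add Γ).choose_spec.choose_spec.2.2 φ ψ).choose_spec.2
  have h1 : ∀ c : ℝ, Tendsto (fun t : ℝ => c * |t|) (𝓝 0) (𝓝 0) := fun c =>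
    (by fun_prop : Continuous fun t : ℝ => c * |t|).tendsto' 0 0 (by simp)
  refine Tan.symm ⟨(exists_add Γ).choose * ‖φ‖ * ‖ψ‖, ?_⟩
  filter_upwards [(h1 ‖φ‖).eventually_lt_const hr, (h1 ‖ψ‖).eventually_lt_const hr] with t h2 h3
  refine (h t h2 h3).trans_eq ?_
  rw [← sq_abs t]
  ring

noncomputable instance : AddCommGroup (OP Γ) :=
  { AddGroup.ofLeftAxioms
      (fun φ ψ χ => Tan.eq <| ((tan_add _ _).trans ((tan_add φ ψ).mul_right χ)).trans <|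
        (Tan.of_eq fun _ => mul_assoc _ _ _).trans
          ((tan_add _ _).trans ((tan_add ψ χ).mul_left φ.f)).symm)
      (fun φ => Tan.eq <| (tan_add _ _).trans <| Tan.of_eq fun _ => one_mul _)
      (fun φ => Tan.eq <| (tan_add _ _).trans <| Tan.of_eq fun t => (φ.add (t * -1) t).symm.trans
        (by rw [mul_neg_one, neg_add_cancel]; exact φ.zero)) with
    add_comm := fun φ ψ => Tan.eq <| ((tan_add _ _).trans (Tan.comm φ ψ)).trans (tan_add _ _).symm }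

noncomputable instance : Module ℝ (OP Γ) :=
  Module.ofMinimalAxioms
    (fun c φ ψ => Tan.eq <| ((tan_add φ ψ).comp c).trans (tan_add (c • φ) (c • ψ)).symm)
    (fun a b φ => Tan.eq <| ((tan_add (a • φ) (b • φ)).trans <| Tan.of_eq fun t =>
      (φ.add (t * a) (t * b)).symm.trans (congrArg φ.f (mul_add t a b).symm)).symm)
    (fun a b φ => OP.ext (funext fun t => congrArg φ.f (mul_assoc t a b).symm))
    (fun φ => OP.ext (funext fun t => congrArg φ.f (mul_one t)))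

omit [IsTopologicalGroup G] [T2Space G] [LocallyCompactSpace G] in
theorem norm_smul_le' (c : ℝ) (φ : OP Γ) : ‖c • φ‖ ≤ |c| * ‖φ‖ :=
  OP.norm_le _ (mul_nonneg (abs_nonneg c) φ.norm_nonneg) fun t =>
    (φ.nrm_le (t * c)).trans_eq (by rw [abs_mul]; ring)

theorem core : NormedSpace.Core ℝ (OP Γ) where
  norm_nonneg := OP.norm_nonneg
  norm_smul c φ := by
    refine le_antisymm (norm_smul_le' c φ) ?_
    rcases eq_or_ne c 0 with rfl | hc
    · simpa using OP.norm_nonneg _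
    have h := norm_smul_le' c⁻¹ (c • φ)
    rwa [inv_smul_smul₀ hc, abs_inv, le_inv_mul_iff₀ (abs_pos.2 hc)] at h
  norm_triangle φ ψ := ((exists_add Γ).choose_spec.choose_spec.2.2 φ ψ).choose_spec.1
  norm_eq_zero_iff φ := by
    refine ⟨fun h => OP.ext (funext fun t => Γ.eq_one_of_nrm_eq_zero (le_antisymm
      (by simpa [h] using φ.nrm_le t) (Γ.nrm_nonneg _))), ?_⟩
    rintro rfl
    exact le_antisymm (OP.norm_le _ le_rfl fun t => Γ.nrm_one.trans_le (zero_mul _).ge)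
      (OP.norm_nonneg _)

end ExpAux

open ExpAux in
theorem Gleason.exists_preExp {G : Type u} [Group G] [TopologicalSpace G] [IsTopologicalGroup G]
    [T2Space G] [LocallyCompactSpace G] (Γ : Gleason G) :
    ∃ (L : Type u) (_ : NormedAddCommGroup L) (_ : NormedSpace ℝ L), Nonempty (PreExp Γ L) := by
  let _ := NormedAddCommGroup.ofCore (core (Γ := Γ))
  let _ : NormedSpace ℝ (OP Γ) := NormedSpace.ofCore core
  have hK := (exists_add Γ).choose_spec.choose_spec.1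
  have hr := (exists_add Γ).choose_spec.choose_spec.2.1
  have hC := C_pos Γ
  refine ⟨OP Γ, inferInstance, inferInstance, ⟨
    { exp := fun φ => φ.f 1
      K := Γ.C + (exists_add Γ).choose
      r := min (1 / Γ.C) ((exists_add Γ).choose_spec.choose / 2)
      one_le_K := by linarith [Γ.one_le_C]
      r_pos := by positivity
      exp_add := fun φ s t => (congrArg φ.f (mul_add 1 s t)).trans (φ.add _ _)
      nrm_exp_le := fun φ => by simpa using φ.nrm_le 1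
      le_nrm_exp := fun φ h => (φ.norm_le_nrm_one (h.trans (min_le_left _ _))).trans
        (mul_le_mul_of_nonneg_right (by linarith) (Γ.nrm_nonneg _))
      trotter := fun φ ψ h h' => ?_
      surj := fun φ h h' => ⟨⟨φ, h, h'⟩, fun t => congrArg φ (one_mul t).symm⟩ }⟩⟩
  have h1 := ((exists_add Γ).choose_spec.choose_spec.2.2 φ ψ).choose_spec.2 1
  simp only [abs_one, mul_one] at h1
  refine (h1 ((h.trans (min_le_right _ _)).trans_lt (half_lt_self hr))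
    ((h'.trans (min_le_right _ _)).trans_lt (half_lt_self hr))).trans ?_
  gcongr
  linarith

end Crest.Agent.R217
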