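import Crest.Agent.R217.GYDefs

/-! # Row 217: from local Lie data to a Lie group structure -/

set_option autoImplicit false

namespace Crest.Agent.R217

open Topology Filter Set
open scoped Manifold ContDiff

namespace LocalLie

variable {G : Type*} [Group G] [TopologicalSpace G]
  {L : Type*} [NormedAddCommGroup L] [NormedSpace ℝ L]

/-- transport of local Lie data along a continuous linear equivalence. -/
noncomputable def transport (M : LocalLie G L) {L' : Type*} [NormedAddCommGroup L']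
    [NormedSpace ℝ L'] (T : L' ≃L[ℝ] L) : LocalLie G L' where
  e := T.toHomeomorph.toOpenPartialHomeomorph.trans M.e
  W := T ⁻¹' M.W
  W_open := M.W_open.preimage T.continuous
  zero_mem := by simpa using M.zero_mem
  W_sub := fun x hx => by simpa using M.W_sub hx
  e_zero := by simpa using M.e_zero
  mul_mem := fun x hx y hy => by simpa using M.mul_mem _ hx _ hy
  smooth := by
    have h1 : ContDiff ℝ ∞ (fun p : L' × L' => ((T p.1, T p.2) : L × L)) :=
      (T.contDiff.comp contDiff_fst).prodMk (T.contDiff.comp contDiff_snd)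
    have h2 := M.smooth.comp (s := (T ⁻¹' M.W) ×ˢ (T ⁻¹' M.W)) h1.contDiffOn
      (fun p hp => ⟨hp.1, hp.2⟩)
    exact T.symm.contDiff.comp_contDiffOn h2
  Ad := fun g => (T.symm : L →L[ℝ] L').comp ((M.Ad g).comp (T : L' →L[ℝ] L))
  conj := fun g => by
    have h : Tendsto T (𝓝 0) (𝓝 0) := by simpa using T.continuous.tendsto 0
    filter_upwards [h.eventually (M.conj g)] with x hx
    simpa using hx
  inv := by
    have h : Tendsto T (𝓝 0) (𝓝 0) := by simpa using T.continuous.tendsto 0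
    filter_upwards [h.eventually M.inv] with x hx
    simpa using hx

theorem zero_mem_source (M : LocalLie G L) : (0 : L) ∈ M.e.source := M.W_sub M.zero_mem

theorem one_mem_target (M : LocalLie G L) : (1 : G) ∈ M.e.target := by
  rw [← M.e_zero]; exact M.e.map_source M.zero_mem_source

theorem symm_one (M : LocalLie G L) : M.e.symm 1 = 0 := by
  rw [← M.e_zero]; exact M.e.left_inv M.zero_mem_source

theorem tendsto_e (M : LocalLie G L) : Tendsto M.e (𝓝 0) (𝓝 1) := by
  have := (M.e.continuousAt M.zero_mem_source).tendsto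
  rwa [M.e_zero] at this

theorem tendsto_symm (M : LocalLie G L) : Tendsto M.e.symm (𝓝 1) (𝓝 0) := by
  have := (M.e.continuousAt_symm M.one_mem_target).tendsto
  rwa [M.symm_one] at this

variable [IsTopologicalGroup G]

theorem exists_V (M : LocalLie G L) : ∃ V : Set L, IsOpen V ∧ (0 : L) ∈ V ∧ V ⊆ M.W ∧
    ∀ x ∈ V, ∀ y ∈ V, M.e x * (M.e y)⁻¹ ∈ M.e.target ∧ M.e.symm (M.e x * (M.e y)⁻¹) ∈ M.W := by
  have h1 : Tendsto (fun p : L × L => M.e p.1 * (M.e p.2)⁻¹) (𝓝 0 ×ˢ 𝓝 0) (𝓝 1) := by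
    have := (M.tendsto_e.comp (tendsto_fst (g := 𝓝 (0 : L)))).mul
      (M.tendsto_e.comp (tendsto_snd (f := 𝓝 (0 : L)))).inv
    simpa using this
  have h2 : ∀ᶠ g in 𝓝 (1 : G), g ∈ M.e.target ∧ M.e.symm g ∈ M.W :=
    (M.e.open_target.eventually_mem M.one_mem_target).and
      (M.tendsto_symm.eventually (M.W_open.eventually_mem M.zero_mem))
  have h3 := h1.eventually h2
  obtain ⟨t, ht, h⟩ := (eventually_prod_self_iff (r := fun x y : L =>
    M.e x * (M.e y)⁻¹ ∈ M.e.target ∧ M.e.symm (M.e x * (M.e y)⁻¹) ∈ M.W)).1 h3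
  obtain ⟨V, hVt, hVo, hV0⟩ := mem_nhds_iff.1 (inter_mem ht (M.W_open.mem_nhds M.zero_mem))
  exact ⟨V, hVo, hV0, fun x hx => (hVt hx).2, fun x hx y hy => h x (hVt hx).1 y (hVt hy).1⟩

/-- the chart at `g`. -/
noncomputable def chart (M : LocalLie G L) (V : Set L) (hV : IsOpen V) (g : G) :
    OpenPartialHomeomorph G L :=
  ((M.e.restrOpen V hV).trans (Homeomorph.mulLeft g).toOpenPartialHomeomorph).symm

theorem chart_apply (M : LocalLie G L) (V : Set L) (hV : IsOpen V) (g h : G) :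
    M.chart V hV g h = M.e.symm (g⁻¹ * h) := rfl

theorem chart_symm_apply (M : LocalLie G L) (V : Set L) (hV : IsOpen V) (g : G) (x : L) :
    (M.chart V hV g).symm x = g * M.e x := rfl

theorem mem_chart_source (M : LocalLie G L) (V : Set L) (hV : IsOpen V) (g h : G) :
    h ∈ (M.chart V hV g).source ↔ g⁻¹ * h ∈ M.e.target ∧ M.e.symm (g⁻¹ * h) ∈ V := by
  simp only [chart, OpenPartialHomeomorph.symm_source, OpenPartialHomeomorph.trans_target]
  simp
  rfl

theorem mem_chart_target (M : LocalLie G L) (V : Set L) (hV : IsOpen V) (g : G) (x : L) :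
    x ∈ (M.chart V hV g).target ↔ x ∈ M.e.source ∧ x ∈ V := by
  simp [chart]

/-- the charted space structure. -/
@[reducible] noncomputable def chartedSpace (M : LocalLie G L) (V : Set L) (hV : IsOpen V)
    (h0 : (0 : L) ∈ V) : ChartedSpace L G where
  atlas := range (M.chart V hV)
  chartAt := M.chart V hV
  mem_chart_source := fun g => by
    rw [mem_chart_source, inv_mul_cancel, M.symm_one]
    exact ⟨M.one_mem_target, h0⟩
  chart_mem_atlas := fun g => mem_range_self g

omit [IsTopologicalGroup G] in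
theorem smoothAt (M : LocalLie G L) :
    ContDiffAt ℝ ∞ (fun p : L × L => M.e.symm (M.e p.1 * M.e p.2)) (0, 0) :=
  M.smooth.contDiffAt ((M.W_open.prod M.W_open).mem_nhds ⟨M.zero_mem, M.zero_mem⟩)

theorem lieGroup_self (M : LocalLie G L) :
    ∃ c : ChartedSpace L G, @LieGroup ℝ _ L _ L _ _ 𝓘(ℝ, L) ∞ G _ _ c := by
  obtain ⟨V, hV, h0, hVW, hVV⟩ := M.exists_V
  let c : ChartedSpace L G := M.chartedSpace V hV h0
  have hch : ∀ g : G, chartAt L g = M.chart V hV g := fun g => rfl
  have hman : IsManifold 𝓘(ℝ, L) ∞ G := by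
    apply isManifold_of_contDiffOn
    rintro _ _ ⟨g, rfl⟩ ⟨g', rfl⟩
    simp only [modelWithCornersSelf_coe, modelWithCornersSelf_coe_symm, preimage_id, range_id,
      inter_univ, Function.id_comp, Function.comp_id]
    intro x0 hx0
    rw [OpenPartialHomeomorph.trans_source, OpenPartialHomeomorph.symm_source] at hx0
    obtain ⟨hx1, hx2⟩ := hx0
    rw [mem_preimage, mem_chart_source, chart_symm_apply] at hx2
    rw [mem_chart_target] at hx1
    set y0 := M.e.symm (g'⁻¹ * (g * M.e x0)) with hy0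
    have hey : M.e y0 = g'⁻¹ * (g * M.e x0) := M.e.right_inv hx2.1
    obtain ⟨hw1, hw2⟩ := hVV y0 hx2.2 x0 hx1.2
    set w := M.e.symm (M.e y0 * (M.e x0)⁻¹) with hw
    have hew : M.e w = g'⁻¹ * g := by
      rw [hw, M.e.right_inv hw1, hey]; group
    have hs : ContDiffAt ℝ ∞ (fun p : L × L => M.e.symm (M.e p.1 * M.e p.2)) (w, x0) :=
      M.smooth.contDiffAt ((M.W_open.prod M.W_open).mem_nhds ⟨hw2, hVW hx1.2⟩)
    have hs' : ContDiffAt ℝ ∞ (fun x : L => M.e.symm (M.e w * M.e x)) x0 :=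
      hs.comp x0 (f := fun x : L => ((w, x) : L × L)) (contDiffAt_const.prodMk contDiffAt_id)
    apply ContDiffAt.contDiffWithinAt
    convert hs' using 2 with x
    rw [hew, mul_assoc]
    rfl
  have hmul : ContMDiff (𝓘(ℝ, L).prod 𝓘(ℝ, L)) 𝓘(ℝ, L) ∞ (fun p : G × G => p.1 * p.2) := by
    rintro ⟨g, h⟩
    rw [contMDiffAt_iff]
    refine ⟨continuous_mul.continuousAt, ?_⟩
    apply ContDiffAt.contDiffWithinAt
    have e0 : extChartAt (𝓘(ℝ, L).prod 𝓘(ℝ, L)) (g, h) (g, h) = ((0, 0) : L × L) := by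
      rw [extChartAt_prod]
      simp [hch, chart_apply, M.symm_one]
    rw [e0]
    have hs : ContDiffAt ℝ ∞ (fun p : L × L => M.e.symm (M.e (M.Ad h⁻¹ p.1) * M.e p.2)) (0, 0) := by
      have hA : ContDiff ℝ ∞ (fun p : L × L => ((M.Ad h⁻¹ p.1, p.2) : L × L)) :=
        ((M.Ad h⁻¹).contDiff.comp contDiff_fst).prodMk contDiff_snd
      have h1 := M.smoothAt
      have h2 : ((0, 0) : L × L) = (fun p : L × L => ((M.Ad h⁻¹ p.1, p.2) : L × L)) (0, 0) := by
        simp
      rw [h2] at h1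
      have h3 := h1.comp (0, 0) hA.contDiffAt
      exact h3
    refine hs.congr_of_eventuallyEq ?_
    have ht : Tendsto (Prod.fst : L × L → L) (𝓝 (0, 0)) (𝓝 0) := continuous_fst.tendsto (0, 0)
    filter_upwards [ht.eventually (M.conj h⁻¹)] with p hp
    rw [← hp]
    show M.e.symm ((g * h)⁻¹ * ((g * M.e p.1) * (h * M.e p.2))) = _
    congr 1
    group
  have hinv : ContMDiff 𝓘(ℝ, L) 𝓘(ℝ, L) ∞ (fun a : G => a⁻¹) := by
    intro g
    rw [contMDiffAt_iff]
    refine ⟨continuous_inv.continuousAt, ?_⟩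
    apply ContDiffAt.contDiffWithinAt
    have e0 : extChartAt 𝓘(ℝ, L) g g = (0 : L) := by
      simp [hch, chart_apply, M.symm_one]
    rw [e0]
    have hs : ContDiffAt ℝ ∞ (fun x : L => M.Ad g (-x)) 0 :=
      ((M.Ad g).contDiff.comp contDiff_neg).contDiffAt
    refine hs.congr_of_eventuallyEq ?_
    have hn : Tendsto (fun x : L => -x) (𝓝 0) (𝓝 0) := by
      simpa using (continuous_neg (G := L)).tendsto 0
    have hA : Tendsto (fun x : L => M.Ad g (-x)) (𝓝 0) (𝓝 0) := by
      simpa using hs.continuousAt.tendsto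
    filter_upwards [M.inv, hn.eventually (M.conj g),
      hA.eventually (M.e.open_source.eventually_mem M.zero_mem_source)] with x h1 h2 h3
    show M.e.symm ((g⁻¹)⁻¹ * (g * M.e x)⁻¹) = _
    rw [← M.e.left_inv h3, ← h2, ← h1]
    congr 1
    group
  exact ⟨c, { toIsManifold := hman, contMDiff_mul := hmul, contMDiff_inv := hinv }⟩

end LocalLie

theorem LocalLie.lieGroup {G : Type*} [Group G] [TopologicalSpace G] [IsTopologicalGroup G]
    {L : Type*} [NormedAddCommGroup L] [NormedSpace ℝ L] [FiniteDimensional ℝ L]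
    (M : LocalLie G L) :
    ∃ (d : ℕ) (c : ChartedSpace (EuclideanSpace ℝ (Fin d)) G),
      @LieGroup ℝ _ (EuclideanSpace ℝ (Fin d)) _ (EuclideanSpace ℝ (Fin d)) _ _
        𝓘(ℝ, EuclideanSpace ℝ (Fin d)) ∞ G _ _ c :=
  ⟨Module.finrank ℝ L, (M.transport (toEuclidean (E := L)).symm).lieGroup_self⟩

end Crest.Agent.R217
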