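import Crest.Agent.R217.GYEst

/-! # Row 217: `L` is finite dimensional and `exp` is a local homeomorphism at `0` -/

set_option autoImplicit false
set_option linter.unusedSectionVars false

namespace Crest.Agent.R217

open Topology Filter Set
open scoped Pointwise

variable {G : Type*} [Group G] [TopologicalSpace G] [IsTopologicalGroup G] [T2Space G]
  [LocallyCompactSpace G] {Γ : Gleason G} {L : Type*} [NormedAddCommGroup L] [NormedSpace ℝ L]

theorem loc_tri (W : WGleason G) (a b c : G) :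
    W.nrm (a⁻¹ * c) ≤ W.nrm (a⁻¹ * b) + W.nrm (b⁻¹ * c) := by
  have := W.nrm_mul (a⁻¹ * b) (b⁻¹ * c)
  rwa [show a⁻¹ * b * (b⁻¹ * c) = a⁻¹ * c by group] at this

theorem loc_symm (W : WGleason G) (a b : G) : W.nrm (a⁻¹ * b) = W.nrm (b⁻¹ * a) := by
  rw [← W.nrm_inv, mul_inv_rev, inv_inv]

theorem loc_nrm_zpow (W : WGleason G) (g : G) (j : ℤ) : W.nrm (g ^ j) ≤ |(j : ℝ)| * W.nrm g := by
  obtain ⟨n, rfl | rfl⟩ := Int.eq_nat_or_neg j
  · simpa using W.nrm_pow_le g n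
  · simpa [W.nrm_inv] using W.nrm_pow_le g n

theorem loc_ball_mem (W : WGleason G) (a : G) {c : ℝ} (hc : 0 < c) :
    {g | W.nrm (a⁻¹ * g) < c} ∈ 𝓝 a :=
  (isOpen_lt (W.cont.comp (continuous_const.mul continuous_id)) continuous_const).mem_nhds
    (by simpa [W.nrm_one] using hc)

theorem loc_compact_pow (W : WGleason G) {c : ℝ} (hc : IsCompact {g | W.nrm g ≤ c}) (M : ℕ) :
    ∃ T : Set G, IsCompact T ∧ ∀ (k : G) (N j : ℕ), N * W.nrm k ≤ c → j ≤ M * N → k ^ j ∈ T := by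
  induction M with
  | zero =>
    refine ⟨{1}, isCompact_singleton, fun k N j _ hj => ?_⟩
    have : j = 0 := by omega
    simp [this]
  | succ M ih =>
    obtain ⟨T, hT, h⟩ := ih
    refine ⟨{g | W.nrm g ≤ c} * T, hc.mul hT, fun k N j hN hj => ?_⟩
    rw [show j = min j N + (j - min j N) by omega, pow_add]
    refine mul_mem_mul ?_ (h k N _ hN (by rw [add_mul, one_mul] at hj; omega))
    refine (W.nrm_pow_le k _).trans (le_trans (mul_le_mul_of_nonneg_right ?_ (W.nrm_nonneg k)) hN)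
    exact_mod_cast min_le_right j N

theorem loc_compact_floor (W : WGleason G) {c : ℝ} (hc : IsCompact {g | W.nrm g ≤ c}) (t : ℝ) :
    ∃ T : Set G, IsCompact T ∧ ∀ (k : G) (N : ℕ), N * W.nrm k ≤ c → k ^ ⌊t * N⌋ ∈ T := by
  obtain ⟨M, hM⟩ := exists_nat_ge |t|
  obtain ⟨T, hT, h⟩ := loc_compact_pow W hc M
  refine ⟨T ∪ T⁻¹, hT.union hT.inv, fun k N hN => ?_⟩
  have h0 : (0 : ℝ) ≤ N := Nat.cast_nonneg N
  have h1 : ⌊t * N⌋ ≤ ((M * N : ℕ) : ℤ) := by
    have : ((⌊t * N⌋ : ℤ) : ℝ) ≤ ((M * N : ℕ) : ℤ) := by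
      push_cast
      exact (Int.floor_le _).trans (mul_le_mul_of_nonneg_right ((le_abs_self t).trans hM) h0)
    exact_mod_cast this
  have h2 : -((M * N : ℕ) : ℤ) ≤ ⌊t * N⌋ := by
    rw [Int.le_floor]
    push_cast
    have := mul_le_mul_of_nonneg_right ((neg_le_abs t).trans hM) h0
    linarith
  obtain ⟨n, hn | hn⟩ := Int.eq_nat_or_neg ⌊t * N⌋ <;> rw [hn] at h1 h2 ⊢
  · left
    rw [zpow_natCast]
    exact h k N n hN (by omega)
  · right
    rw [zpow_neg, zpow_natCast, Set.inv_mem_inv]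
    exact h k N n hN (by omega)

/-- The one-parameter subgroup obtained as an ultralimit of powers. -/
theorem loc_exists_onePar (W : WGleason G) {c d : ℝ} (hc : IsCompact {g | W.nrm g ≤ c})
    (hd : d ≤ c) (𝒰 : Ultrafilter ℕ) (k : ℕ → G) (N : ℕ → ℕ) (hN : ∀ n, N n * W.nrm (k n) ≤ d)
    (hk : Tendsto (fun n => W.nrm (k n)) 𝒰 (𝓝 0)) :
    ∃ φ : ℝ → G, Continuous φ ∧ (∀ s t, φ (s + t) = φ s * φ t) ∧ (∀ t, W.nrm (φ t) ≤ |t| * d) ∧
      Tendsto (fun n => k n ^ N n) 𝒰 (𝓝 (φ 1)) := by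
  have hex : ∀ t : ℝ, ∃ g, Tendsto (fun n => k n ^ ⌊t * N n⌋) 𝒰 (𝓝 g) := fun t => by
    obtain ⟨T, hT, h⟩ := loc_compact_floor W hc t
    obtain ⟨g, -, hg⟩ := hT.ultrafilter_le_nhds (𝒰.map fun n => k n ^ ⌊t * N n⌋)
      (le_principal_iff.2 (mem_map.2 (univ_mem' fun n => h (k n) (N n) ((hN n).trans hd))))
    exact ⟨g, hg⟩
  choose φ hφ using hex
  have hadd : ∀ s t, φ (s + t) = φ s * φ t := fun s t => by
    have h1 : Tendsto (fun n => k n ^ (⌊(s + t) * N n⌋ - ⌊s * N n⌋ - ⌊t * N n⌋)) 𝒰 (𝓝 1) := by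
      rw [W.tendsto_iff]
      refine squeeze_zero (fun n => W.nrm_nonneg _) (fun n => ?_) hk
      rw [inv_one, one_mul]
      refine (loc_nrm_zpow W _ _).trans (mul_le_of_le_one_left (W.nrm_nonneg _) ?_)
      have a1 := Int.le_floor_add (s * N n) (t * N n)
      have a2 := Int.le_floor_add_floor (s * N n) (t * N n)
      rw [add_mul]
      have : |⌊s * N n + t * N n⌋ - ⌊s * N n⌋ - ⌊t * N n⌋| ≤ 1 := by rw [abs_le]; omega
      exact_mod_cast this
    have h2 := ((hφ s).mul (hφ t)).mul h1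
    rw [mul_one] at h2
    refine tendsto_nhds_unique (hφ (s + t)) (h2.congr fun n => ?_)
    rw [← zpow_add, ← zpow_add]
    congr 1
    ring
  have hb : ∀ t, W.nrm (φ t) ≤ |t| * d := fun t => by
    have h1 : Tendsto (fun n => |t| * d + W.nrm (k n)) 𝒰 (𝓝 (|t| * d + 0)) := hk.const_add _
    rw [add_zero] at h1
    refine le_of_tendsto_of_tendsto' ((W.cont.tendsto _).comp (hφ t)) h1 fun n => ?_
    refine (loc_nrm_zpow W _ _).trans ?_
    have h0 : (0 : ℝ) ≤ N n := Nat.cast_nonneg _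
    have h2 : |((⌊t * N n⌋ : ℤ) : ℝ)| ≤ |t| * N n + 1 := by
      have a1 := Int.floor_le (t * N n)
      have a2 := Int.lt_floor_add_one (t * N n)
      have a3 := mul_le_mul_of_nonneg_right (le_abs_self t) h0
      have a4 := mul_le_mul_of_nonneg_right (neg_le_abs t) h0
      rw [abs_le]
      constructor <;> linarith
    have h3 := mul_le_mul_of_nonneg_right h2 (W.nrm_nonneg (k n))
    have h4 := mul_le_mul_of_nonneg_left (hN n) (abs_nonneg t)
    linarith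
  refine ⟨φ, continuous_iff_continuousAt.2 fun s => ?_, hadd, hb, ?_⟩
  · rw [ContinuousAt, W.tendsto_iff]
    have h1 : Tendsto (fun t : ℝ => |t - s| * d) (𝓝 s) (𝓝 (|s - s| * d)) :=
      Continuous.tendsto (by fun_prop) s
    rw [sub_self, abs_zero, zero_mul] at h1
    refine squeeze_zero (fun t => W.nrm_nonneg _) (fun t => ?_) h1
    rw [show φ t = φ s * φ (t - s) by rw [← hadd, add_sub_cancel], inv_mul_cancel_left]
    exact hb _
  · simpa using hφ 1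

namespace PreExp

theorem loc_exp_zero (E : PreExp Γ L) : E.exp 0 = 1 := by
  have := E.exp_add 0 0 0
  simpa using this

theorem loc_exp_pow (E : PreExp Γ L) (X : L) (n : ℕ) : E.exp X ^ n = E.exp ((n : ℝ) • X) := by
  induction n with
  | zero => simp [E.loc_exp_zero]
  | succ n ih => rw [pow_succ, ih, Nat.cast_succ, E.exp_add, one_smul]

/-- `exp` is bi-Lipschitz near `0`. -/
theorem exists_bilip (E : PreExp Γ L) : ∃ K δ : ℝ, 0 < K ∧ 0 < δ ∧ ∀ X Y : L, ‖X‖ ≤ δ → ‖Y‖ ≤ δ →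
    Γ.nrm ((E.exp X)⁻¹ * E.exp Y) ≤ K * ‖X - Y‖ ∧
      ‖X - Y‖ ≤ K * Γ.nrm ((E.exp X)⁻¹ * E.exp Y) := by
  have hK := E.one_le_K
  have hr := E.r_pos
  refine ⟨2 * E.K, min (E.r / 2) (1 / (2 * E.K ^ 2)), by positivity, by positivity,
    fun X Y hX hY => ?_⟩
  have hX1 := hX.trans (min_le_left _ _)
  have hX2 := hX.trans (min_le_right _ _)
  have hY1 := hY.trans (min_le_left _ _)
  have hZ : ‖Y - X‖ ≤ E.r := (norm_sub_le _ _).trans (by linarith)
  have h1 := E.trotter X (Y - X) (by linarith) hZ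
  rw [add_sub_cancel] at h1
  rw [norm_sub_rev]
  have hZ0 := norm_nonneg (Y - X)
  have hKX : E.K * (E.K * ‖X‖) ≤ 1 / 2 := by
    rw [le_div_iff₀ (by positivity)] at hX2
    nlinarith
  have hKX' : E.K * ‖X‖ ≤ 1 / 2 := le_trans (le_mul_of_one_le_left (by positivity) hK) hKX
  have h2 := Γ.nrm_mul (E.exp (Y - X)) ((E.exp X * E.exp (Y - X))⁻¹ * E.exp Y)
  rw [show E.exp (Y - X) * ((E.exp X * E.exp (Y - X))⁻¹ * E.exp Y) = (E.exp X)⁻¹ * E.exp Y by
    group] at h2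
  have h3 := Γ.nrm_mul ((E.exp X)⁻¹ * E.exp Y) ((E.exp X * E.exp (Y - X))⁻¹ * E.exp Y)⁻¹
  rw [show (E.exp X)⁻¹ * E.exp Y * ((E.exp X * E.exp (Y - X))⁻¹ * E.exp Y)⁻¹ = E.exp (Y - X) by
    group, Γ.nrm_inv] at h3
  have h4 := E.nrm_exp_le (Y - X)
  have h5 := E.le_nrm_exp (Y - X) hZ
  have h6 := mul_le_mul_of_nonneg_right hKX hZ0
  have h7 := mul_le_mul_of_nonneg_right hKX' hZ0
  have h8 := mul_le_mul_of_nonneg_right hK hZ0
  have h9 := mul_le_mul_of_nonneg_left (h3.trans (add_le_add le_rfl h1)) (zero_le_one.trans hK)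
  constructor <;> linarith

theorem finiteDimensional (E : PreExp Γ L) : FiniteDimensional ℝ L := by
  by_contra hfin
  obtain ⟨R, f, hR, hf, hsep⟩ := exists_seq_norm_le_one_le_norm_sub (𝕜 := ℝ) hfin
  obtain ⟨K, δ, hK, hδ, hb⟩ := E.exists_bilip
  obtain ⟨c, hc, hcomp⟩ := Γ.toWGleason.exists_compact_ball
  have hR0 : 0 < R := by linarith
  have hs : 0 < min δ c / R := by positivity
  set s := min δ c / R with hsdef
  have hX : ∀ n, ‖s • f n‖ ≤ min δ c := fun n => by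
    rw [norm_smul, Real.norm_eq_abs, abs_of_pos hs]
    exact (mul_le_mul_of_nonneg_left (hf n) hs.le).trans (le_of_eq (div_mul_cancel₀ _ hR0.ne'))
  obtain ⟨g, -, hg⟩ := hcomp.ultrafilter_le_nhds ((hyperfilter ℕ).map fun n => E.exp (s • f n))
    (le_principal_iff.2 (mem_map.2 (univ_mem' fun n =>
      (E.nrm_exp_le _).trans ((hX n).trans (min_le_right _ _)))))
  have h1 : {n | Γ.nrm (g⁻¹ * E.exp (s • f n)) < s / K / 2} ∈ hyperfilter ℕ :=
    hg (loc_ball_mem Γ.toWGleason g (by positivity))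
  have h2 : {n | Γ.nrm (g⁻¹ * E.exp (s • f n)) < s / K / 2}.Infinite := fun h =>
    h.notMem_hyperfilter h1
  obtain ⟨m, hm, n, hn, hmn⟩ := h2.nontrivial
  have h3 := (hb _ _ ((hX m).trans (min_le_left _ _)) ((hX n).trans (min_le_left _ _))).2
  rw [← smul_sub, norm_smul, Real.norm_eq_abs, abs_of_pos hs] at h3
  have h4 := mul_le_mul_of_nonneg_left (hsep hmn) hs.le
  have h5 := loc_tri Γ.toWGleason (E.exp (s • f m)) g (E.exp (s • f n))
  rw [loc_symm _ _ g] at h5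
  have h6 : Γ.nrm ((E.exp (s • f m))⁻¹ * E.exp (s • f n)) < s / K := by
    simp only [mem_ofPred_eq] at hm hn
    linarith
  rw [lt_div_iff₀ hK] at h6
  linarith

theorem loc_continuousOn (E : PreExp Γ L) {K δ : ℝ} (hb : ∀ X Y : L, ‖X‖ ≤ δ → ‖Y‖ ≤ δ →
    Γ.nrm ((E.exp X)⁻¹ * E.exp Y) ≤ K * ‖X - Y‖) : ContinuousOn E.exp (Metric.closedBall 0 δ) := by
  intro X hX
  rw [ContinuousWithinAt, Γ.toWGleason.tendsto_iff]
  have h1 : Tendsto (fun Y : L => K * ‖X - Y‖) (𝓝 X) (𝓝 (K * ‖X - X‖)) :=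
    Continuous.tendsto (by fun_prop) X
  rw [sub_self, norm_zero, mul_zero] at h1
  refine squeeze_zero' (Eventually.of_forall fun Y => Γ.nrm_nonneg _) ?_
    (h1.mono_left nhdsWithin_le_nhds)
  filter_upwards [self_mem_nhdsWithin] with Y hY
  exact hb X Y (mem_closedBall_zero_iff.1 hX) (mem_closedBall_zero_iff.1 hY)

theorem loc_norm_le (E : PreExp Γ L) {Y : L} {d : ℝ} (h : ∀ t : ℝ, Γ.nrm (E.exp (t • Y)) ≤ |t| * d) :
    ‖Y‖ ≤ E.K * d := by
  have hr := E.r_pos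
  have ht : 0 < E.r / (‖Y‖ + 1) := by positivity
  set t := E.r / (‖Y‖ + 1) with htdef
  have h1 : ‖t • Y‖ = t * ‖Y‖ := by rw [norm_smul, Real.norm_eq_abs, abs_of_pos ht]
  have h2 : t * ‖Y‖ ≤ E.r := by
    rw [htdef, div_mul_eq_mul_div, div_le_iff₀ (by positivity)]
    nlinarith
  have h3 := (E.le_nrm_exp (t • Y) (h1 ▸ h2)).trans
    (mul_le_mul_of_nonneg_left (h t) (zero_le_one.trans E.one_le_K))
  rw [h1, abs_of_pos ht] at h3
  refine le_of_mul_le_mul_left (h3.trans (le_of_eq ?_)) ht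
  ring

theorem loc_image_mem_nhds (E : PreExp Γ L) {δ : ℝ} (hδ : 0 < δ) (hδr : δ ≤ E.r)
    (hcont : ContinuousOn E.exp (Metric.closedBall 0 δ)) :
    E.exp '' Metric.closedBall 0 δ ∈ 𝓝 (1 : G) := by
  have := E.finiteDimensional
  have : ProperSpace L := FiniteDimensional.proper_real L
  by_contra hS
  have hK := E.one_le_K
  have hK0 : 0 < E.K := by linarith
  obtain ⟨c, hc, hcomp⟩ := Γ.toWGleason.exists_compact_ball
  obtain ⟨Kp, δp, hKp, hδp, hp⟩ := Γ.le_pow_dist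
  obtain ⟨d, hd0, hdc, hdp, hdδ⟩ : ∃ d : ℝ, 0 < d ∧ d ≤ c ∧ E.K * d ≤ δp ∧ E.K * d ≤ δ / 2 := by
    refine ⟨min c (min δp (δ / 2) / E.K), by positivity, min_le_left _ _, ?_, ?_⟩
    · refine (mul_le_mul_of_nonneg_left (min_le_right _ _) hK0.le).trans ?_
      rw [mul_div_cancel₀ _ hK0.ne']; exact min_le_left _ _
    · refine (mul_le_mul_of_nonneg_left (min_le_right _ _) hK0.le).trans ?_
      rw [mul_div_cancel₀ _ hK0.ne']; exact min_le_right _ _
  have hdp' : d ≤ δp := (le_mul_of_one_le_left hd0.le hK).trans hdp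
  have hg : ∀ n : ℕ, ∃ g, g ∉ E.exp '' Metric.closedBall 0 δ ∧ Γ.nrm g < 1 / ((n : ℝ) + 1) := by
    intro n
    by_contra! h
    refine hS (mem_of_superset (loc_ball_mem Γ.toWGleason 1 (c := 1 / ((n : ℝ) + 1))
      (by positivity)) fun g hg => ?_)
    by_contra hgS
    have := h g hgS
    simp only [inv_one, one_mul, mem_ofPred_eq] at hg
    linarith
  choose g hgS hg using hg
  have hX : ∀ n, ∃ X ∈ Metric.closedBall (0 : L) δ,
      IsMinOn (fun Z => Γ.nrm ((E.exp Z)⁻¹ * g n)) (Metric.closedBall 0 δ) X := fun n =>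
    (isCompact_closedBall (0 : L) δ).exists_isMinOn ⟨0, Metric.mem_closedBall_self hδ.le⟩
      (Γ.cont.comp_continuousOn (hcont.inv.mul continuousOn_const))
  choose X hXδ hmin using hX
  let k : ℕ → G := fun n => (E.exp (X n))⁻¹ * g n
  have hk0 : ∀ n, 0 < Γ.nrm (k n) := fun n => by
    refine lt_of_le_of_ne (Γ.nrm_nonneg _) fun h => hgS n ⟨X n, hXδ n, ?_⟩
    exact inv_mul_eq_one.1 (Γ.toWGleason.eq_one_of_nrm_eq_zero h.symm)
  have hk1 : ∀ n, Γ.nrm (k n) ≤ 1 / ((n : ℝ) + 1) := fun n => by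
    have : Γ.nrm (k n) ≤ Γ.nrm ((E.exp 0)⁻¹ * g n) := hmin n (Metric.mem_closedBall_self hδ.le)
    rw [E.loc_exp_zero, inv_one, one_mul] at this
    exact this.trans (hg n).le
  have hX1 : ∀ n, ‖X n‖ ≤ E.K * (2 * (1 / ((n : ℝ) + 1))) := fun n => by
    refine (E.le_nrm_exp _ ((mem_closedBall_zero_iff.1 (hXδ n)).trans hδr)).trans
      (mul_le_mul_of_nonneg_left ?_ hK0.le)
    have h1 := Γ.nrm_mul (g n) (k n)⁻¹
    rw [show g n * (k n)⁻¹ = E.exp (X n) by simp [k], Γ.nrm_inv] at h1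
    linarith [hg n, hk1 n]
  have hU : ((hyperfilter ℕ : Ultrafilter ℕ) : Filter ℕ) ≤ atTop := by
    rw [← Nat.cofinite_eq_atTop]; exact hyperfilter_le_cofinite
  have hlim : Tendsto (fun n : ℕ => 1 / ((n : ℝ) + 1)) (hyperfilter ℕ : Ultrafilter ℕ) (𝓝 0) :=
    tendsto_one_div_add_atTop_nhds_zero_nat.mono_left hU
  have hklim : Tendsto (fun n => Γ.nrm (k n)) (hyperfilter ℕ : Ultrafilter ℕ) (𝓝 0) :=
    squeeze_zero (fun n => (hk0 n).le) hk1 hlim
  have hXlim : Tendsto (fun n => ‖X n‖) (hyperfilter ℕ : Ultrafilter ℕ) (𝓝 0) := by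
    refine squeeze_zero (fun n => norm_nonneg _) hX1 ?_
    simpa using (hlim.const_mul 2).const_mul E.K
  let N : ℕ → ℕ := fun n => ⌊d / Γ.nrm (k n)⌋₊
  have hN : ∀ n, N n * Γ.nrm (k n) ≤ d := fun n =>
    (le_div_iff₀ (hk0 n)).1 (Nat.floor_le (div_nonneg hd0.le (hk0 n).le))
  have hN' : ∀ n, d < (N n + 1) * Γ.nrm (k n) := fun n =>
    (div_lt_iff₀ (hk0 n)).1 (Nat.lt_floor_add_one _)
  obtain ⟨φ, hφc, hφ, hφb, hφ1⟩ :=
    loc_exists_onePar Γ.toWGleason hcomp hdc (hyperfilter ℕ) k N hN hklim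
  obtain ⟨Y, hY⟩ := E.surj φ hφc hφ
  have hYn : ‖Y‖ ≤ E.K * d := E.loc_norm_le fun t => hY t ▸ hφb t
  rw [hY, one_smul, Γ.toWGleason.tendsto_iff] at hφ1
  have hsum : Tendsto (fun n => E.K * ‖X n‖ * ‖Y‖ + Kp * Γ.nrm ((E.exp Y)⁻¹ * k n ^ N n))
      (hyperfilter ℕ : Ultrafilter ℕ) (𝓝 0) := by
    simpa using ((hXlim.const_mul E.K).mul_const ‖Y‖).add (hφ1.const_mul Kp)
  obtain ⟨n, h1, h2, h3⟩ := ((hklim.eventually_lt_const (half_pos hd0)).and
    ((hXlim.eventually_lt_const (half_pos hδ)).and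
      (hsum.eventually_lt_const (half_pos hd0)))).exists
  have h4 : d / 2 < N n * Γ.nrm (k n) := by linarith [hN' n]
  have hNpos : (0 : ℝ) < N n := by
    by_contra h
    have := mul_nonpos_of_nonpos_of_nonneg (not_lt.1 h) (hk0 n).le
    linarith
  have hN1 : (1 : ℝ) ≤ N n := by exact_mod_cast (Nat.cast_pos.1 hNpos)
  set Z : L := (N n : ℝ)⁻¹ • Y with hZ
  have hZn : N n * ‖Z‖ = ‖Y‖ := by
    rw [hZ, norm_smul, Real.norm_eq_abs, abs_of_pos (inv_pos.2 hNpos), ← mul_assoc,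
      mul_inv_cancel₀ hNpos.ne', one_mul]
  have hZle : ‖Z‖ ≤ δ / 2 :=
    ((le_mul_of_one_le_left (norm_nonneg _) hN1).trans hZn.le).trans (hYn.trans hdδ)
  have h5 := hp (N n) (E.exp Z) (k n)
    ((mul_le_mul_of_nonneg_left (E.nrm_exp_le Z) hNpos.le).trans (hZn.le.trans (hYn.trans hdp)))
    ((hN n).trans hdp')
  rw [E.loc_exp_pow, hZ, smul_inv_smul₀ hNpos.ne', ← hZ] at h5
  have h6 := E.trotter (X n) Z (by linarith) (by linarith)
  have h7 : Γ.nrm (k n) ≤ Γ.nrm ((E.exp (X n + Z))⁻¹ * g n) :=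
    hmin n (mem_closedBall_zero_iff.2 ((norm_add_le _ _).trans (by linarith)))
  have h8 := loc_tri Γ.toWGleason (E.exp (X n + Z)) (E.exp (X n) * E.exp Z) (g n)
  rw [loc_symm _ (E.exp (X n + Z)) (E.exp (X n) * E.exp Z),
    show (E.exp (X n) * E.exp Z)⁻¹ * g n = (E.exp Z)⁻¹ * k n by simp [k, mul_assoc]] at h8
  have h9 := mul_le_mul_of_nonneg_left (h7.trans (h8.trans (add_le_add h6 le_rfl))) hNpos.le
  have h10 : N n * (E.K * ‖X n‖ * ‖Z‖) = E.K * ‖X n‖ * ‖Y‖ := by rw [← hZn]; ring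
  rw [mul_add, h10] at h9
  linarith

/-- Hirschfeld's argument. -/
theorem image_mem_nhds (E : PreExp Γ L) {δ : ℝ} (hδ : 0 < δ) :
    E.exp '' Metric.closedBall 0 δ ∈ 𝓝 (1 : G) := by
  obtain ⟨K, δb, -, hδb, hb⟩ := E.exists_bilip
  have h1 := E.loc_image_mem_nhds (δ := min δ (min δb E.r)) (lt_min hδ (lt_min hδb E.r_pos))
    ((min_le_right _ _).trans (min_le_right _ _))
    ((E.loc_continuousOn fun X Y hX hY => (hb X Y hX hY).1).mono
      (Metric.closedBall_subset_closedBall ((min_le_right _ _).trans (min_le_left _ _))))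
  exact mem_of_superset h1 (image_mono (Metric.closedBall_subset_closedBall (min_le_left _ _)))

/-- `exp` restricted to a small ball is an open partial homeomorphism. -/
theorem exists_chart (E : PreExp Γ L) : ∃ (e : OpenPartialHomeomorph L G) (δ : ℝ), 0 < δ ∧
    e.source = Metric.ball 0 δ ∧ ∀ X, e X = E.exp X := by
  obtain ⟨K, δb, hK, hδb, hb⟩ := E.exists_bilip
  obtain ⟨ε, hε, hεS⟩ := Γ.basis _ (E.image_mem_nhds hδb)
  set δ := min δb (ε / 2) with hδdef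
  have hδ : 0 < δ := lt_min hδb (half_pos hε)
  have hle : ∀ X ∈ Metric.ball (0 : L) δ, ‖X‖ ≤ δb := fun X hX =>
    (mem_ball_zero_iff.1 hX).le.trans (min_le_left _ _)
  have hinj : InjOn E.exp (Metric.ball 0 δ) := fun X hX Y hY h => by
    have := (hb X Y (hle X hX) (hle Y hY)).2
    rw [h, inv_mul_cancel, Γ.nrm_one, mul_zero] at this
    exact sub_eq_zero.1 (norm_le_zero_iff.1 this)
  have hcont : ContinuousOn E.exp (Metric.ball 0 δ) :=
    (E.loc_continuousOn fun X Y hX hY => (hb X Y hX hY).1).mono fun X hX =>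
      mem_closedBall_zero_iff.2 (hle X hX)
  have hopen : ∀ X ∈ Metric.ball (0 : L) δ, 𝓝 (E.exp X) ≤ map E.exp (𝓝 X) := fun X hX => by
    refine Filter.le_map fun V hV => ?_
    obtain ⟨η, hη, hV⟩ := Metric.mem_nhds_iff.1 hV
    refine mem_of_superset (loc_ball_mem Γ.toWGleason (E.exp X) (c := min (ε / 2) (η / K))
      (by positivity)) fun g hg => ?_
    simp only [mem_ofPred_eq, lt_min_iff] at hg
    have h1 := Γ.nrm_mul (E.exp X) ((E.exp X)⁻¹ * g)
    rw [mul_inv_cancel_left] at h1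
    have h2 := (mem_ball_zero_iff.1 hX).trans_le (min_le_right _ _)
    obtain ⟨Z, hZ, rfl⟩ := hεS g (by linarith [E.nrm_exp_le X, hg.1])
    refine ⟨Z, hV ?_, rfl⟩
    have h3 := (hb X Z (hle X hX) (mem_closedBall_zero_iff.1 hZ)).2
    have h4 := (lt_div_iff₀ hK).1 hg.2
    rw [mem_ball_iff_norm, norm_sub_rev]
    linarith
  refine ⟨OpenPartialHomeomorph.ofContinuousOpenRestrict (hinj.toPartialEquiv _ _) hcont ?_
    Metric.isOpen_ball, δ, hδ, rfl, fun X => rfl⟩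
  rw [isOpenMap_iff_nhds_le]
  intro X
  refine (hopen X X.2).trans (le_of_eq ?_)
  change _ = map (E.exp ∘ Subtype.val) (𝓝 X)
  rw [← map_map, map_nhds_subtype_val]
  congr 1
  exact (Metric.isOpen_ball.nhdsWithin_eq X.2).symm

end PreExp

end Crest.Agent.R217
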