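import Crest.Agent.R217.GYLoc
import Crest.Agent.R217.GYC11

/-! # Row 217: local Lie data from the exponential data -/

set_option autoImplicit false

namespace Crest.Agent.R217

open Topology Filter Set

namespace PreExp.LL

variable {G : Type*} [Group G] [TopologicalSpace G] {Γ : Gleason G} {L : Type*}
  [NormedAddCommGroup L] [NormedSpace ℝ L]

theorem exp_zero (E : PreExp Γ L) : E.exp 0 = 1 := by
  have h := E.exp_add 0 0 0
  simp only [smul_zero] at h
  exact (mul_eq_left.1 h.symm)

theorem exp_neg (E : PreExp Γ L) (X : L) : E.exp (-X) = (E.exp X)⁻¹ := by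
  have h := E.exp_add X 1 (-1)
  rw [add_neg_cancel, zero_smul, exp_zero, one_smul, neg_one_smul] at h
  exact (eq_inv_of_mul_eq_one_right h.symm)

theorem continuous_line [IsTopologicalGroup G] (E : PreExp Γ L) (X : L) :
    Continuous fun t : ℝ => E.exp (t • X) := by
  rw [continuous_iff_continuousAt]
  intro s
  rw [ContinuousAt, Γ.toWGleason.tendsto_iff]
  have h1 : Tendsto (fun t : ℝ => ‖(-s + t) • X‖) (𝓝 s) (𝓝 0) := by
    have : Continuous fun t : ℝ => ‖(-s + t) • X‖ := by fun_prop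
    simpa using this.tendsto s
  refine squeeze_zero (fun t => Γ.toWGleason.nrm_nonneg _) (fun t => ?_) h1
  rw [← exp_neg, ← neg_smul, ← E.exp_add]
  exact E.nrm_exp_le _

/-- small multiples of a vector are small. -/
theorem eventually_small (X : L) {δ : ℝ} (hδ : 0 < δ) : ∀ᶠ t : ℝ in 𝓝[>] 0, ‖t • X‖ ≤ δ := by
  have h : Tendsto (fun t : ℝ => ‖t • X‖) (𝓝 0) (𝓝 0) := by
    have : Continuous fun t : ℝ => ‖t • X‖ := by fun_prop
    simpa using this.tendsto 0
  exact (h.eventually (eventually_le_nhds hδ)).filter_mono nhdsWithin_le_nhds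

variable [IsTopologicalGroup G] [T2Space G] [LocallyCompactSpace G]

/-- two vectors whose one-parameter groups agree to second order are equal. -/
theorem eq_of_close (E : PreExp Γ L) {X Y : L} {D : ℝ}
    (h : ∀ᶠ t : ℝ in 𝓝[>] 0, Γ.nrm ((E.exp (t • X))⁻¹ * E.exp (t • Y)) ≤ D * t ^ 2) : X = Y := by
  obtain ⟨K, δ, hK, hδ, hb⟩ := E.exists_bilip
  have h1 : ∀ᶠ t : ℝ in 𝓝[>] 0, ‖X - Y‖ ≤ K * D * t := by
    filter_upwards [h, eventually_small X hδ, eventually_small Y hδ, self_mem_nhdsWithin]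
      with t h1 h2 h3 ht
    have ht : 0 < t := ht
    have h4 := (hb _ _ h2 h3).2
    rw [← smul_sub, norm_smul, Real.norm_of_nonneg ht.le] at h4
    have h5 : t * ‖X - Y‖ ≤ t * (K * D * t) := by
      calc t * ‖X - Y‖ ≤ K * (D * t ^ 2) := h4.trans (mul_le_mul_of_nonneg_left h1 hK.le)
        _ = t * (K * D * t) := by ring
    exact le_of_mul_le_mul_left h5 ht
  have h2 : Tendsto (fun t : ℝ => K * D * t) (𝓝[>] 0) (𝓝 0) := by
    have : Continuous fun t : ℝ => K * D * t := by fun_prop
    simpa using (this.tendsto 0).mono_left (nhdsWithin_le_nhds (s := Ioi 0))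
  have h3 : ‖X - Y‖ ≤ 0 := ge_of_tendsto h2 h1
  exact sub_eq_zero.1 (norm_le_zero_iff.1 h3)

theorem eq_of_line (E : PreExp Γ L) {X Y : L}
    (h : ∀ t : ℝ, E.exp (t • X) = E.exp (t • Y)) : X = Y :=
  eq_of_close E (D := 0) (Eventually.of_forall fun t => by
    rw [h t, inv_mul_cancel, Γ.nrm_one, zero_mul])

omit [T2Space G] [LocallyCompactSpace G] in
theorem exists_ad (E : PreExp Γ L) (g : G) (X : L) :
    ∃ Y : L, ∀ t : ℝ, g * E.exp (t • X) * g⁻¹ = E.exp (t • Y) := by
  apply E.surj
  · exact (continuous_const.mul (continuous_line E X)).mul continuous_const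
  · intro s t
    rw [E.exp_add]
    group

theorem exists_Ad (E : PreExp Γ L) (g : G) :
    ∃ A : L →L[ℝ] L, ∀ X, g * E.exp X * g⁻¹ = E.exp (A X) := by
  choose a ha using exists_ad E g
  have hsmul : ∀ (c : ℝ) (X : L), a (c • X) = c • a X := by
    intro c X
    apply eq_of_line E
    intro t
    rw [← ha, smul_smul, smul_smul, ha]
  have hadd : ∀ X Y : L, a (X + Y) = a X + a Y := by
    intro X Y
    obtain ⟨K₁, δ₁, hK₁, hδ₁, hc⟩ := Γ.toWGleason.conj_lip (isCompact_singleton (x := g))
    symm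
    apply eq_of_close E (D := E.K * ‖a X‖ * ‖a Y‖ + K₁ * (E.K * ‖X‖ * ‖Y‖))
    have hsq : ∀ᶠ t : ℝ in 𝓝[>] 0, E.K * ‖X‖ * ‖Y‖ * t ^ 2 ≤ δ₁ := by
      have h : Tendsto (fun t : ℝ => E.K * ‖X‖ * ‖Y‖ * t ^ 2) (𝓝 0) (𝓝 0) := by
        have : Continuous fun t : ℝ => E.K * ‖X‖ * ‖Y‖ * t ^ 2 := by fun_prop
        simpa using this.tendsto 0
      exact (h.eventually (eventually_le_nhds hδ₁)).filter_mono nhdsWithin_le_nhds
    filter_upwards [eventually_small X E.r_pos, eventually_small Y E.r_pos,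
      eventually_small (a X) E.r_pos, eventually_small (a Y) E.r_pos, hsq, self_mem_nhdsWithin]
      with t h1 h2 h3 h4 h5 ht
    have ht : 0 < t := ht
    have hn : ∀ U V : L, E.K * ‖t • U‖ * ‖t • V‖ = E.K * ‖U‖ * ‖V‖ * t ^ 2 := by
      intro U V
      rw [norm_smul, norm_smul, Real.norm_of_nonneg ht.le]; ring
    have t1 := E.trotter _ _ h1 h2
    have t2 := E.trotter _ _ h3 h4
    rw [hn, ← smul_add] at t1 t2
    have t3 := hc g rfl _ (t1.trans h5)
    have e1 : (E.exp (t • (a X + a Y)))⁻¹ * E.exp (t • a (X + Y)) =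
        ((E.exp (t • a X) * E.exp (t • a Y))⁻¹ * E.exp (t • (a X + a Y)))⁻¹ *
          (g * ((E.exp (t • X) * E.exp (t • Y))⁻¹ * E.exp (t • (X + Y))) * g⁻¹) := by
      rw [← ha (X + Y), ← ha X, ← ha Y]
      group
    rw [e1]
    refine (Γ.nrm_mul _ _).trans ?_
    rw [Γ.nrm_inv]
    have t4 := mul_le_mul_of_nonneg_left t1 hK₁.le
    nlinarith [t2, t3, t4]
  have := E.finiteDimensional
  let A : L →ₗ[ℝ] L := { toFun := a, map_add' := hadd, map_smul' := hsmul }
  refine ⟨LinearMap.toContinuousLinearMap A, fun X => ?_⟩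
  have h := ha X 1
  rw [one_smul, one_smul] at h
  exact h

end PreExp.LL

open PreExp.LL in
theorem PreExp.exists_localLie {G : Type*} [Group G] [TopologicalSpace G] [IsTopologicalGroup G]
    [T2Space G] [LocallyCompactSpace G] {Γ : Gleason G} {L : Type*} [NormedAddCommGroup L]
    [NormedSpace ℝ L] (E : PreExp Γ L) : Nonempty (LocalLie G L) := by
  have := E.finiteDimensional
  obtain ⟨e, δ, hδ, hsrc, he⟩ := E.exists_chart
  obtain ⟨K, δ₁, hK, hδ₁, hb⟩ := E.exists_bilip
  choose Ad hAd using exists_Ad E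
  have h0 : (0 : L) ∈ e.source := by rw [hsrc]; exact Metric.mem_ball_self hδ
  have he0 : e 0 = 1 := by rw [he, exp_zero]
  have h1 : (1 : G) ∈ e.target := by rw [← he0]; exact e.map_source h0
  have hs1 : e.symm 1 = 0 := by rw [← he0]; exact e.left_inv h0
  have hnhds : {g : G | g ∈ e.target ∧ ‖e.symm g‖ ≤ δ₁} ∈ 𝓝 (1 : G) := by
    have h2 : Tendsto (fun g => ‖e.symm g‖) (𝓝 1) (𝓝 0) := by
      have := (e.continuousAt_symm h1).tendsto.norm
      rwa [hs1, norm_zero] at this
    exact (e.open_target.eventually_mem h1).and (h2.eventually (eventually_le_nhds hδ₁))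
  obtain ⟨ε, hε, hεU⟩ := Γ.basis _ hnhds
  obtain ⟨r, hr, hr1, hr2, hr3, hr4⟩ : ∃ r : ℝ, 0 < r ∧ r ≤ ε / 3 ∧ r ≤ δ / 3 ∧ r ≤ δ₁ / 2 ∧
      r ≤ E.r :=
    ⟨min (min (ε / 3) (δ / 3)) (min (δ₁ / 2) E.r),
      lt_min (lt_min (by linarith) (by linarith)) (lt_min (by linarith) E.r_pos),
      (min_le_left _ _).trans (min_le_left _ _), (min_le_left _ _).trans (min_le_right _ _),
      (min_le_right _ _).trans (min_le_left _ _), (min_le_right _ _).trans (min_le_right _ _)⟩
  have hmul : ∀ x y : L, ‖x‖ ≤ r → ‖y‖ ≤ r →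
      e x * e y ∈ e.target ∧ ‖e.symm (e x * e y)‖ ≤ δ₁ := by
    intro x y hx hy
    apply hεU
    have a1 := Γ.nrm_mul (e x) (e y)
    have a2 := E.nrm_exp_le x
    have a3 := E.nrm_exp_le y
    rw [← he] at a2 a3
    linarith
  let M : C11 L :=
    { μ := fun x y => e.symm (e x * e y)
      K := K * E.K
      r := r
      r_pos := hr
      assoc := fun x y z hx hy hz => by
        rw [e.right_inv (hmul x y hx hy).1, e.right_inv (hmul y z hy hz).1, mul_assoc]
      hom := fun x s t hs ht => by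
        rw [he, he, ← E.exp_add, ← he]
        apply e.left_inv
        rw [hsrc, mem_ball_zero_iff, add_smul]
        have := norm_add_le (s • x) (t • x)
        linarith
      est := fun x y hx hy => by
        have hxy : ‖x + y‖ ≤ δ₁ := by
          have := norm_add_le x y
          linarith
        have b1 := (hb _ _ (hmul x y hx hy).2 hxy).2
        rw [← he (e.symm _), e.right_inv (hmul x y hx hy).1, he, he] at b1
        have b2 := E.trotter x y (hx.trans hr4) (hy.trans hr4)
        rw [sub_sub, he, he]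
        calc _ ≤ _ := b1
          _ ≤ K * (E.K * ‖x‖ * ‖y‖) := mul_le_mul_of_nonneg_left b2 hK.le
          _ = _ := by ring }
  obtain ⟨ρ, hρ, hρr, hsm⟩ := M.smooth
  have hρr : ρ ≤ r := hρr
  refine ⟨{ e := e
            W := Metric.ball 0 ρ
            W_open := Metric.isOpen_ball
            zero_mem := Metric.mem_ball_self hρ
            W_sub := ?_
            e_zero := he0
            mul_mem := ?_
            smooth := hsm
            Ad := Ad
            conj := ?_
            inv := ?_ }⟩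
  · rw [hsrc]
    exact Metric.ball_subset_ball (by linarith)
  · intro x hx y hy
    rw [mem_ball_zero_iff] at hx hy
    exact (hmul x y (by linarith) (by linarith)).1
  · intro g
    exact Eventually.of_forall fun x => by rw [he, he, hAd]
  · exact Eventually.of_forall fun x => by rw [he, he, exp_neg]

end Crest.Agent.R217
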