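import Crest.Agent.R217.GYDefs

/-! # Row 217: escape norms, word-length norms and bump functions (for `GYWeak`) -/

set_option autoImplicit false

namespace Crest.Agent.R217.GYW

open Topology Filter Set

variable {G : Type*} [Group G]

/-- The escape norm: `1 / (first exit time from U)`. -/
noncomputable def esc (U : Set G) (g : G) : ℝ :=
  sSup {r : ℝ | ∃ n : ℕ, g ^ n ∉ U ∧ r = 1 / (n : ℝ)}

theorem esc_bdd (U : Set G) (g : G) : BddAbove {r : ℝ | ∃ n : ℕ, g ^ n ∉ U ∧ r = 1 / (n : ℝ)} := by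
  refine ⟨1, ?_⟩
  rintro r ⟨n, -, rfl⟩
  rcases Nat.eq_zero_or_pos n with rfl | hn
  · simp
  · rw [div_le_one (by exact_mod_cast hn)]; exact_mod_cast hn

theorem le_esc {U : Set G} (h1 : (1 : G) ∈ U) {g : G} {n : ℕ} (hn : g ^ n ∉ U) :
    1 ≤ n * esc U g := by
  have h0 : 0 < n := Nat.pos_of_ne_zero (by rintro rfl; exact hn (by simpa using h1))
  have h : 1 / (n : ℝ) ≤ esc U g := le_csSup (esc_bdd U g) ⟨n, hn, rfl⟩
  rwa [div_le_iff₀' (by exact_mod_cast h0)] at h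

theorem esc_le {U : Set G} {g : G} {a : ℝ} (ha : 0 ≤ a) (h : ∀ n : ℕ, g ^ n ∉ U → 1 ≤ n * a) :
    esc U g ≤ a := by
  refine Real.sSup_le ?_ ha
  rintro r ⟨n, hn, rfl⟩
  rcases Nat.eq_zero_or_pos n with rfl | h0
  · simpa using ha
  · rw [div_le_iff₀' (by exact_mod_cast h0)]; exact h n hn

theorem esc_nonneg (U : Set G) (g : G) : 0 ≤ esc U g := by
  refine Real.sSup_nonneg ?_
  rintro r ⟨n, -, rfl⟩
  positivity

theorem esc_le_one {U : Set G} (h1 : (1 : G) ∈ U) (g : G) : esc U g ≤ 1 := by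
  refine esc_le zero_le_one fun n hn => ?_
  have h0 : 0 < n := Nat.pos_of_ne_zero (by rintro rfl; exact hn (by simpa using h1))
  rw [mul_one]; exact_mod_cast h0

theorem esc_one {U : Set G} (h1 : (1 : G) ∈ U) : esc U 1 = 0 :=
  le_antisymm (esc_le le_rfl fun n hn => (hn (by simpa using h1)).elim) (esc_nonneg _ _)

theorem pow_mem_of_esc {U : Set G} (h1 : (1 : G) ∈ U) {g : G} {n : ℕ} (h : n * esc U g < 1) :
    g ^ n ∈ U := by
  by_contra hn
  exact absurd (le_esc h1 hn) (not_le.2 h)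

theorem mem_of_esc {U : Set G} (h1 : (1 : G) ∈ U) {g : G} (h : esc U g < 1) : g ∈ U := by
  simpa using pow_mem_of_esc h1 (g := g) (n := 1) (by simpa using h)

theorem esc_inv {U : Set G} (hs : ∀ x ∈ U, x⁻¹ ∈ U) (g : G) : esc U g⁻¹ = esc U g := by
  unfold esc
  congr 1
  ext r
  constructor
  · rintro ⟨n, hn, rfl⟩
    exact ⟨n, fun h => hn (by rw [inv_pow]; exact hs _ h), rfl⟩
  · rintro ⟨n, hn, rfl⟩
    exact ⟨n, fun h => hn (by simpa using hs _ h), rfl⟩

/-- Comparison of escape norms. -/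
theorem esc_le_mul {V W : Set G} (h1 : (1 : G) ∈ W) {m : ℕ}
    (hm : ∀ g : G, (∀ i ≤ m, g ^ i ∈ W) → g ∈ V) (g : G) : esc V g ≤ m * esc W g := by
  refine esc_le (mul_nonneg (Nat.cast_nonneg _) (esc_nonneg _ _)) fun n hn => ?_
  have : ∃ i ≤ m, (g ^ n) ^ i ∉ W := by
    by_contra hc
    push Not at hc
    exact hn (hm _ hc)
  obtain ⟨i, hi, h⟩ := this
  rw [← pow_mul] at h
  have h2 := le_esc h1 h
  have h3 : (i : ℝ) ≤ m := by exact_mod_cast hi
  have h4 := esc_nonneg W g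
  push_cast at h2
  calc (1 : ℝ) ≤ n * i * esc W g := h2
    _ ≤ n * m * esc W g := by gcongr
    _ = n * (m * esc W g) := by ring

/-- The largest subadditive function below `N`. -/
noncomputable def wl (N : G → ℝ) (g : G) : ℝ :=
  sInf {r : ℝ | ∃ l : List G, l.prod = g ∧ r = (l.map N).sum}

omit [Group G] in
theorem sum_nonneg' {N : G → ℝ} (hN : ∀ g, 0 ≤ N g) (l : List G) : 0 ≤ (l.map N).sum :=
  List.sum_nonneg (by simp only [List.mem_map]; rintro _ ⟨a, -, rfl⟩; exact hN a)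

theorem wl_le {N : G → ℝ} (hN : ∀ g, 0 ≤ N g) {g : G} (l : List G) (hl : l.prod = g) :
    wl N g ≤ (l.map N).sum :=
  csInf_le ⟨0, by rintro _ ⟨l, -, rfl⟩; exact sum_nonneg' hN l⟩ ⟨l, hl, rfl⟩

theorem le_wl {N : G → ℝ} {g : G} {a : ℝ} (h : ∀ l : List G, l.prod = g → a ≤ (l.map N).sum) :
    a ≤ wl N g :=
  le_csInf ⟨_, [g], by simp, rfl⟩ (by rintro _ ⟨l, hl, rfl⟩; exact h l hl)

theorem wl_nonneg {N : G → ℝ} (hN : ∀ g, 0 ≤ N g) (g : G) : 0 ≤ wl N g :=
  le_wl fun l _ => sum_nonneg' hN l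

theorem wl_one {N : G → ℝ} (hN : ∀ g, 0 ≤ N g) : wl N 1 = 0 :=
  le_antisymm (by simpa using wl_le hN [] rfl) (wl_nonneg hN 1)

theorem wl_le_self {N : G → ℝ} (hN : ∀ g, 0 ≤ N g) (g : G) : wl N g ≤ N g := by
  simpa using wl_le hN (g := g) [g] (by simp)

theorem wl_mul {N : G → ℝ} (hN : ∀ g, 0 ≤ N g) (g h : G) : wl N (g * h) ≤ wl N g + wl N h := by
  have h1 : ∀ l₂ : List G, l₂.prod = h → wl N (g * h) - (l₂.map N).sum ≤ wl N g := by
    intro l₂ h₂
    refine le_wl fun l₁ h₁ => ?_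
    have := wl_le hN (g := g * h) (l₁ ++ l₂) (by rw [List.prod_append, h₁, h₂])
    rw [List.map_append, List.sum_append] at this
    linarith
  have h2 : wl N (g * h) - wl N g ≤ wl N h := le_wl fun l₂ h₂ => by linarith [h1 l₂ h₂]
  linarith

theorem wl_inv {N : G → ℝ} (hN : ∀ g, 0 ≤ N g) (hs : ∀ g, N g⁻¹ = N g) (g : G) :
    wl N g⁻¹ = wl N g := by
  have key : ∀ g : G, wl N g⁻¹ ≤ wl N g := by
    intro g
    refine le_wl fun l hl => ?_
    have := wl_le hN (g := g⁻¹) (l.map fun x => x⁻¹).reverse (by rw [← hl, List.prod_inv_reverse])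
    rw [List.map_reverse, List.sum_reverse, List.map_map] at this
    have e : (N ∘ fun x => x⁻¹) = N := funext fun x => hs x
    rwa [e] at this
  exact le_antisymm (key g) (by simpa using key g⁻¹)

theorem exists_of_wl_lt {N : G → ℝ} {g : G} {a : ℝ} (h : wl N g < a) :
    ∃ l : List G, l.prod = g ∧ (l.map N).sum < a := by
  by_contra hc
  push Not at hc
  exact absurd (le_wl hc) (not_le.2 h)

theorem le_mul_wl {N f : G → ℝ} {M : ℝ} (hM : 0 < M)
    (h : ∀ l : List G, f l.prod ≤ M * (l.map N).sum) (g : G) : f g ≤ M * wl N g := by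
  rw [← div_le_iff₀' hM]
  refine le_wl fun l hl => ?_
  rw [div_le_iff₀' hM, ← hl]
  exact h l

variable [TopologicalSpace G] [IsTopologicalGroup G]

/-- A bump function that is Lipschitz for a symmetric subadditive function `d`. -/
theorem exists_bump [MeasurableSpace G] [BorelSpace G] {U : Set G} (hU : IsOpen U)
    (h1 : (1 : G) ∈ U) {d : G → ℝ} (d0 : ∀ g, 0 ≤ d g) (d1 : d 1 = 0) (dinv : ∀ g, d g⁻¹ = d g)
    (dmul : ∀ g h, d (g * h) ≤ d g + d h) (dU : ∀ g, d g < 1 → g ∈ U) :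
    ∃ ψ : G → ℝ, Measurable ψ ∧ (∀ y, 0 ≤ ψ y ∧ ψ y ≤ 1) ∧
      (∀ y, ψ y ≠ 0 → ∃ a ∈ U, ∃ b ∈ U, y = a * b) ∧ (∀ y ∈ U, ψ y = 1) ∧
      ∀ g x, |ψ (g⁻¹ * x) - ψ x| ≤ d g := by
  set ρ : G → ℝ := fun x => sInf ((fun u => d (x * u⁻¹)) '' U) with hρ
  have hne : ∀ x, ((fun u => d (x * u⁻¹)) '' U).Nonempty := fun x => ⟨_, 1, h1, rfl⟩
  have hbd : ∀ x, BddBelow ((fun u => d (x * u⁻¹)) '' U) := fun x =>
    ⟨0, by rintro _ ⟨u, -, rfl⟩; exact d0 _⟩
  have ρle : ∀ x, ∀ u ∈ U, ρ x ≤ d (x * u⁻¹) := fun x u hu => csInf_le (hbd x) ⟨u, hu, rfl⟩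
  have leρ : ∀ x a, (∀ u ∈ U, a ≤ d (x * u⁻¹)) → a ≤ ρ x := fun x a h =>
    le_csInf (hne x) (by rintro _ ⟨u, hu, rfl⟩; exact h u hu)
  have ρ0 : ∀ x, 0 ≤ ρ x := fun x => leρ x 0 fun u _ => d0 _
  have ρlt : ∀ x a, ρ x < a → ∃ u ∈ U, d (x * u⁻¹) < a := fun x a h => by
    by_contra hc
    push Not at hc
    exact absurd (leρ x a hc) (not_le.2 h)
  have ρlip : ∀ g x, ρ (g * x) ≤ d g + ρ x := fun g x => by
    have : ρ (g * x) - d g ≤ ρ x := leρ _ _ fun u hu => by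
      have := ρle (g * x) u hu
      have := dmul g (x * u⁻¹)
      rw [← mul_assoc] at this
      linarith
    linarith
  have ρm : Measurable ρ := by
    refine measurable_of_Iio fun t => IsOpen.measurableSet ?_
    rw [isOpen_iff_mem_nhds]
    intro x hx
    obtain ⟨u, hu, h⟩ := ρlt x t hx
    have hc : Continuous fun y : G => u * x⁻¹ * y := by fun_prop
    have : ∀ᶠ y in 𝓝 x, u * x⁻¹ * y ∈ U :=
      hc.continuousAt.eventually (hU.mem_nhds (by simpa using hu))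
    filter_upwards [this] with y hy
    have h2 := ρle y _ hy
    have e : y * (u * x⁻¹ * y)⁻¹ = x * u⁻¹ := by group
    rw [e] at h2
    exact lt_of_le_of_lt h2 h
  refine ⟨fun x => max 0 (1 - ρ x), measurable_const.max (measurable_const.sub ρm),
    fun y => ⟨le_max_left _ _, max_le zero_le_one (by linarith [ρ0 y])⟩, fun y hy => ?_,
    fun y hy => ?_, fun g x => ?_⟩
  · have : ρ y < 1 := by
      by_contra hc
      exact hy (max_eq_left (by linarith [not_lt.1 hc]))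
    obtain ⟨u, hu, h⟩ := ρlt y 1 this
    exact ⟨_, dU _ h, u, hu, by group⟩
  · have : ρ y = 0 := le_antisymm (by simpa [d1] using ρle y y hy) (ρ0 y)
    simp [this]
  · have h1 := ρlip g⁻¹ x
    have h2 := ρlip g (g⁻¹ * x)
    rw [dinv] at h1
    rw [mul_inv_cancel_left] at h2
    simp only [max_comm (0 : ℝ)]
    refine (abs_max_sub_max_le_abs _ _ _).trans ?_
    rw [abs_le]
    constructor <;> linarith

theorem exists_nhds_list (L : ℕ) : ∀ V ∈ 𝓝 (1 : G), ∃ W ∈ 𝓝 (1 : G),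
    ∀ l : List G, l.length ≤ L → (∀ x ∈ l, x ∈ W) → l.prod ∈ V := by
  induction L with
  | zero =>
    intro V hV
    refine ⟨univ, univ_mem, fun l hl _ => ?_⟩
    rw [List.length_eq_zero_iff.1 (Nat.le_zero.1 hl)]
    exact mem_of_mem_nhds hV
  | succ L ih =>
    intro V hV
    obtain ⟨V', hV', h⟩ := exists_nhds_one_split hV
    obtain ⟨W, hW, h'⟩ := ih V' hV'
    refine ⟨W ∩ V', inter_mem hW hV', fun l hl hx => ?_⟩
    cases l with
    | nil => exact mem_of_mem_nhds hV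
    | cons a l =>
      rw [List.prod_cons]
      exact h a (hx a (by simp)).2 _ (h' l (by simpa using hl) fun x hx' => (hx x (by simp [hx'])).1)

/-- The bump function with Lipschitz constant `1 / L` for translations by a small
neighbourhood. -/
theorem exists_eta [MeasurableSpace G] [BorelSpace G] {U : Set G} (hU : IsOpen U)
    (h1 : (1 : G) ∈ U) {L : ℕ} (hL : 0 < L) :
    ∃ W ∈ 𝓝 (1 : G), ∃ η : G → ℝ, Measurable η ∧ (∀ y, 0 ≤ η y ∧ η y ≤ 1) ∧
      (∀ y, η y ≠ 0 → ∃ a ∈ U, ∃ b ∈ U, y = a * b) ∧ (∀ y ∈ U, η y = 1) ∧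
      ∀ g ∈ W, ∀ x, |η (g⁻¹ * x) - η x| ≤ 1 / L := by
  classical
  obtain ⟨W, hW, h⟩ := exists_nhds_list L U (hU.mem_nhds h1)
  have hL' : (1 : ℝ) ≤ L := by exact_mod_cast hL
  set N : G → ℝ := fun g => if g ∈ W ∧ g⁻¹ ∈ W then 1 / L else 1 with hN
  have hN1 : ∀ g, 1 / (L : ℝ) ≤ N g := fun g => by
    simp only [hN]
    split_ifs
    · exact le_rfl
    · rw [div_le_one (by linarith)]; exact hL'
  have hN0 : ∀ g, 0 ≤ N g := fun g => le_trans (by positivity) (hN1 g)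
  have hNs : ∀ g, N g⁻¹ = N g := fun g => by simp only [hN, inv_inv, and_comm]
  obtain ⟨η, e1, e2, e3, e4, e5⟩ := exists_bump hU h1 (d := wl N) (wl_nonneg hN0) (wl_one hN0)
    (wl_inv hN0 hNs) (wl_mul hN0) (fun g hg => by
      obtain ⟨l, rfl, hl⟩ := exists_of_wl_lt hg
      refine h l ?_ fun x hx => ?_
      · have h2 := List.card_nsmul_le_sum (l.map N) (1 / (L : ℝ))
          (by simp only [List.mem_map]; rintro _ ⟨a, -, rfl⟩; exact hN1 a)
        rw [List.length_map, nsmul_eq_mul, mul_one_div] at h2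
        have h3 : (l.length : ℝ) / L < 1 := lt_of_le_of_lt h2 hl
        rw [div_lt_one (by linarith)] at h3
        exact_mod_cast h3.le
      · have h2 : N x ≤ (l.map N).sum :=
          List.single_le_sum (by simp only [List.mem_map]; rintro _ ⟨a, -, rfl⟩; exact hN0 a) _
            (List.mem_map_of_mem hx)
        by_contra hc
        have : N x = 1 := by simp only [hN]; rw [if_neg fun h => hc h.1]
        linarith)
  refine ⟨W ∩ W⁻¹, inter_mem hW (inv_mem_nhds_one G hW), η, e1, e2, e3, e4, fun g hg x => ?_⟩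
  refine (e5 g x).trans ((wl_le_self hN0 g).trans ?_)
  simp only [hN]
  rw [if_pos ⟨hg.1, hg.2⟩]

/-- In a compact symmetric set without nontrivial subgroups, long trapped orbits are small. -/
theorem exists_trap [T2Space G] {K : Set G} (hK : IsCompact K) (hs : ∀ x ∈ K, x⁻¹ ∈ K)
    (hH : ∀ H : Subgroup G, (H : Set G) ⊆ K → H = ⊥) {V : Set G} (hV : V ∈ 𝓝 (1 : G)) :
    ∃ m : ℕ, 0 < m ∧ ∀ g : G, (∀ i ≤ m, g ^ i ∈ K) → g ∈ V := by
  by_contra hc
  push Not at hc
  set A : ℕ → Set G := fun m => (interior V)ᶜ ∩ ⋂ i ≤ m + 1, (fun g : G => g ^ i) ⁻¹' K with hA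
  have hcl : ∀ m, IsClosed (A m) := fun m =>
    isOpen_interior.isClosed_compl.inter (isClosed_iInter fun i => isClosed_iInter fun _ =>
      hK.isClosed.preimage (continuous_pow i))
  have hne : ∀ m, (A m).Nonempty := fun m => by
    obtain ⟨g, h1, h2⟩ := hc (m + 1) (Nat.succ_pos m)
    exact ⟨g, fun h => h2 (interior_subset h), by simpa using h1⟩
  have hsub : A 0 ⊆ K := fun g hg => by
    have := hg.2
    simp only [mem_iInter, mem_preimage] at this
    simpa using this 1 le_rfl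
  obtain ⟨g, hg⟩ := IsCompact.nonempty_iInter_of_sequence_nonempty_isCompact_isClosed A
    (fun m g hg => ⟨hg.1, by
      have := hg.2
      simp only [mem_iInter, mem_preimage] at this ⊢
      exact fun i hi => this i (by omega)⟩) hne (hK.of_isClosed_subset (hcl 0) hsub) hcl
  rw [mem_iInter] at hg
  have hp : ∀ i : ℕ, g ^ i ∈ K := fun i => by
    have := (hg i).2
    simp only [mem_iInter, mem_preimage] at this
    exact this i (by omega)
  have hz : Subgroup.zpowers g = ⊥ := hH _ (by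
    rintro _ ⟨k, rfl⟩
    obtain ⟨i, rfl | rfl⟩ := k.eq_nat_or_neg
    · simpa using hp i
    · simpa using hs _ (hp i))
  rw [Subgroup.zpowers_eq_bot] at hz
  exact (hg 0).1 (hz ▸ mem_interior_iff_mem_nhds.2 hV)

end Crest.Agent.R217.GYW
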