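import Crest.Agent.R217.GYConv
import Crest.Agent.R217.GYWeakAux

/-! # Row 217: NSS groups have weak Gleason norms -/

set_option autoImplicit false

namespace Crest.Agent.R217

open Topology Filter Set

namespace GYW

variable {G : Type*} [Group G]

/-- `a` bounds the left difference `∂_g φ`. -/
def Bd (φ : G → ℝ) (g : G) (a : ℝ) : Prop := ∀ x, |φ (g⁻¹ * x) - φ x| ≤ a

theorem Bd.mul {φ : G → ℝ} {g h : G} {a b : ℝ} (hg : Bd φ g a) (hh : Bd φ h b) :
    Bd φ (g * h) (a + b) := by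
  intro x
  have h1 := hg x
  have h2 := hh (g⁻¹ * x)
  rw [mul_inv_rev, mul_assoc]
  rw [abs_le] at h1 h2 ⊢
  constructor <;> linarith [h1.1, h1.2, h2.1, h2.2]

theorem Bd.pow {φ : G → ℝ} {g : G} {a : ℝ} (hg : Bd φ g a) (n : ℕ) : Bd φ (g ^ n) (n * a) := by
  induction n with
  | zero => intro x; simp
  | succ n ih =>
    have := ih.mul hg
    rw [← pow_succ] at this
    intro x
    refine (this x).trans (le_of_eq ?_)
    push_cast; ring

theorem Bd.list {φ N : G → ℝ} {c : ℝ} (l : List G) (h : ∀ x ∈ l, Bd φ x (c * N x)) :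
    Bd φ l.prod (c * (l.map N).sum) := by
  induction l with
  | nil => intro x; simp
  | cons a l ih =>
    rw [List.prod_cons, List.map_cons, List.sum_cons, mul_add]
    exact (h a (by simp)).mul (ih fun x hx => h x (by simp [hx]))

theorem Bd.esc_le {φ : G → ℝ} {K : Set G} (hs : ∀ x ∈ K, x⁻¹ ∈ K) (h1 : 1 ≤ φ 1)
    (hK : ∀ x, φ x ≠ 0 → x ∈ K) {g : G} {a : ℝ} (hg : Bd φ g a) : esc K g ≤ a := by
  refine GYW.esc_le ((abs_nonneg _).trans (hg 1)) fun n hn => ?_
  have h2 := hg.pow n 1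
  have h3 : φ ((g ^ n)⁻¹ * 1) = 0 := by
    by_contra hc
    exact hn (by simpa using hs _ (hK _ hc))
  rw [h3, abs_le] at h2
  linarith [h2.1]

theorem telescope {φ : G → ℝ} {g : G} {b : ℝ} (x : G) (n : ℕ)
    (hb : ∀ i < n, |(φ (g⁻¹ * ((g ^ i)⁻¹ * x)) - φ ((g ^ i)⁻¹ * x)) - (φ (g⁻¹ * x) - φ x)| ≤ b) :
    |(φ ((g ^ n)⁻¹ * x) - φ x) - n * (φ (g⁻¹ * x) - φ x)| ≤ n * b := by
  induction n with
  | zero => simp
  | succ n ih =>
    have h1 := ih fun i hi => hb i (by omega)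
    have h2 := hb n (by omega)
    rw [pow_succ, mul_inv_rev, mul_assoc]
    push_cast
    rw [abs_le] at h1 h2 ⊢
    constructor <;> linarith [h1.1, h1.2, h2.1, h2.2]

variable [TopologicalSpace G] [IsTopologicalGroup G]

/-- The bootstrap step. -/
theorem step [T2Space G] [LocallyCompactSpace G] [SecondCountableTopology G] {K U : Set G}
    (hK : IsCompact K) (hs : ∀ x ∈ K, x⁻¹ ∈ K) (hH : ∀ H : Subgroup G, (H : Set G) ⊆ K → H = ⊥)
    (hU : IsOpen U) (h1 : (1 : G) ∈ U) (hUs : ∀ x ∈ U, x⁻¹ ∈ U)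
    (hUK : ∀ a ∈ U, ∀ b ∈ U, ∀ c ∈ U, ∀ d ∈ U, a * b * (c * d) ∈ K) :
    ∃ C : ℝ, 0 < C ∧ ∀ N : G → ℝ, (∀ g, 0 < N g) → (∀ g, esc U g ≤ N g) → (∀ g, N g⁻¹ = N g) →
      ∀ M : ℝ, 0 < M → (∀ l : List G, esc U l.prod ≤ M * (l.map N).sum) →
        ∀ l : List G, esc U l.prod ≤ (M / 2 + C) * (l.map N).sum := by
  borelize G
  have hUn : U ∈ 𝓝 (1 : G) := hU.mem_nhds h1
  have hUK1 : U ⊆ K := fun a ha => by simpa using hUK a ha 1 h1 1 h1 1 h1
  obtain ⟨D, hD, hconv⟩ := exists_conv hK hUn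
  obtain ⟨m₀, hm₀, hm₀'⟩ := exists_trap hK hs hH hUn
  obtain ⟨L, hL⟩ := exists_nat_gt (2 * m₀ * D)
  have hL0 : (0 : ℝ) < L := lt_of_le_of_lt (by positivity) hL
  obtain ⟨U₁, hU₁, η, η1, η2, η3, η4, η5⟩ := exists_eta hU h1 (L := L) (by exact_mod_cast hL0)
  have hU₂ : ∀ᶠ h in 𝓝 (1 : G), ∀ y ∈ K, y⁻¹ * h * y ∈ U₁ := by
    refine hK.eventually_forall_of_forall_eventually fun y _ => ?_
    have hc : Continuous fun z : G × G => z.2⁻¹ * z.1 * z.2 := by fun_prop
    exact hc.continuousAt.eventually (by simpa using hU₁)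
  set U₂ : Set G := U ∩ {h | ∀ y ∈ K, y⁻¹ * h * y ∈ U₁} with hU₂def
  have hU₂n : U₂ ∈ 𝓝 (1 : G) := inter_mem hUn hU₂
  obtain ⟨m₂, hm₂, hm₂'⟩ := exists_trap hK hs hH hU₂n
  have hm₀r : (0 : ℝ) < m₀ := by exact_mod_cast hm₀
  have hm₂r : (0 : ℝ) < m₂ := by exact_mod_cast hm₂
  refine ⟨2 * D * m₀ * m₂ + 1, by positivity, fun N hN0 hNe hNs M hM hP l => ?_⟩
  have hN0' : ∀ g, 0 ≤ N g := fun g => (hN0 g).le
  have hsum := sum_nonneg' hN0' l
  by_cases hl : ∀ x ∈ l, x ∈ U
  swap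
  · push Not at hl
    obtain ⟨x, hx, hxU⟩ := hl
    have h2 : N x ≤ (l.map N).sum :=
      List.single_le_sum (by simp only [List.mem_map]; rintro _ ⟨a, -, rfl⟩; exact hN0' a) _
        (List.mem_map_of_mem hx)
    have h3 : 1 ≤ esc U x := by simpa using le_esc h1 (g := x) (n := 1) (by simpa using hxU)
    have h4 := esc_le_one h1 l.prod
    have h5 := hNe x
    have h6 : 0 ≤ (M / 2 + 2 * D * m₀ * m₂) * (l.map N).sum := by positivity
    linarith
  obtain ⟨ψ, ψ1, ψ2, ψ3, ψ4, ψ5⟩ := exists_bump hU h1 (d := fun g => M * wl N g)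
    (fun g => mul_nonneg hM.le (wl_nonneg hN0' g)) (by simp [wl_one hN0'])
    (fun g => by simp only [wl_inv hN0' hNs])
    (fun g h => by rw [← mul_add]; exact mul_le_mul_of_nonneg_left (wl_mul hN0' g h) hM.le)
    (fun g hg => mem_of_esc h1 (lt_of_le_of_lt (le_mul_wl hM hP g) hg))
  obtain ⟨φ, φ1, φ2, φ3⟩ := hconv ψ η ψ1 η1 ψ2 η2
    (fun y hy => by
      obtain ⟨a, ha, b, hb, rfl⟩ := ψ3 y hy
      simpa using hUK a ha b hb 1 h1 1 h1)
    (fun y hy => ⟨ψ4 y hy, η4 _ (hUs y hy)⟩)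
  have φK : ∀ x, φ x ≠ 0 → x ∈ K := fun x hx => by
    obtain ⟨y, hy1, hy2⟩ := φ2 x hx
    obtain ⟨a, ha, b, hb, rfl⟩ := ψ3 y hy1
    obtain ⟨c, hc, d, hd, e⟩ := η3 _ hy2
    have := hUK a ha b hb c hc d hd
    rwa [← e, mul_inv_cancel_left] at this
  have hsupp : ∀ g ∈ U, ∀ y, ψ (g⁻¹ * y) ≠ 0 → y ∈ K := fun g hg y hy => by
    obtain ⟨a, ha, b, hb, e⟩ := ψ3 _ hy
    have := hUK 1 h1 g hg a ha b hb
    rwa [← e, one_mul, mul_inv_cancel_left] at this
  have triv : ∀ g ∈ U, Bd φ g D := fun g hg => by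
    have := (φ3 g 1 (hsupp g hg) fun y => by
      have := ψ2 y
      have := ψ2 (g⁻¹ * y)
      rw [abs_le]; constructor <;> linarith [this.1, this.2, (ψ2 y).1, (ψ2 y).2]).1
    rwa [mul_one] at this
  have main : ∀ g ∈ U, Bd φ g ((2 * D * m₂ + D * M / L) * N g) := by
    intro g hg x
    have hNg := hN0 g
    set s : ℝ := m₂ * N g with hsdef
    have hs0 : 0 < s := by positivity
    have hgoal : (2 * D * m₂ + D * M / L) * N g = D * (2 * s) + D * (M * N g) * (1 / L) := by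
      rw [hsdef]; ring
    rw [hgoal]
    have hpos : 0 ≤ D * (M * N g) * (1 / L) := by positivity
    by_cases hs2 : 1 ≤ 2 * s
    · have := triv g hg x
      nlinarith
    push Not at hs2
    set n : ℕ := ⌈1 / (2 * s)⌉₊ with hn
    have hn1 : 1 / (2 * s) ≤ n := Nat.le_ceil _
    have hn2 : (n : ℝ) < 1 / (2 * s) + 1 := Nat.ceil_lt_add_one (by positivity)
    have hn3 : 1 ≤ n * (2 * s) := by rwa [div_le_iff₀ (by positivity)] at hn1
    have hn4 : n * s < 1 := by
      have : n * s < (1 / (2 * s) + 1) * s := by gcongr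
      have e : (1 / (2 * s) + 1) * s = 1 / 2 + s := by field_simp
      linarith
    have hn0 : (0 : ℝ) < n := lt_of_lt_of_le (by positivity) hn1
    have hesc : esc U₂ g ≤ s :=
      (esc_le_mul h1 (fun g h => hm₂' g fun i hi => hUK1 (h i hi)) g).trans
        (mul_le_mul_of_nonneg_left (hNe g) hm₂r.le)
    have hpow : ∀ i ≤ n, g ^ i ∈ U₂ := fun i hi => by
      refine pow_mem_of_esc (mem_of_mem_nhds hU₂n) (lt_of_le_of_lt ?_ hn4)
      have : (i : ℝ) ≤ n := by exact_mod_cast hi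
      have := esc_nonneg U₂ g
      gcongr
    have h2 := (φ3 g (M * N g) (hsupp g hg) fun y =>
      (ψ5 g y).trans (mul_le_mul_of_nonneg_left (wl_le_self hN0' g) hM.le)).2
    have h3 := telescope (φ := φ) (g := g) (b := D * (M * N g) * (1 / L)) x n fun i hi =>
      h2 (g ^ i) (1 / L) (fun y hy z => η5 _ ((hpow i hi.le).2 y hy) z) x
    have h4 := triv _ (hpow n le_rfl).1 x
    have h5 : n * |φ (g⁻¹ * x) - φ x| ≤ D + n * (D * (M * N g) * (1 / L)) := by
      rw [← abs_of_pos hn0, ← abs_mul, abs_of_pos hn0]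
      rw [abs_le] at h3 h4 ⊢
      constructor <;> linarith [h3.1, h3.2, h4.1, h4.2]
    refine le_of_mul_le_mul_left (h5.trans ?_) hn0
    nlinarith
  have h2 := (Bd.list l fun x hx => main x (hl x hx)).esc_le hs φ1 φK
  have h3 := esc_le_mul (hUK1 h1) hm₀' l.prod
  have h4 : m₀ * (D * M / L) ≤ M / 2 := by
    rw [← mul_div_assoc, div_le_div_iff₀ hL0 two_pos]
    nlinarith
  calc esc U l.prod ≤ m₀ * ((2 * D * m₂ + D * M / L) * (l.map N).sum) :=
        h3.trans (mul_le_mul_of_nonneg_left h2 hm₀r.le)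
    _ = (m₀ * (D * M / L) + 2 * D * m₀ * m₂) * (l.map N).sum := by ring
    _ ≤ _ := by gcongr; linarith

/-- The approximate triangle inequality for the escape norm. -/
theorem approx_triangle [T2Space G] [LocallyCompactSpace G] [SecondCountableTopology G]
    {K U : Set G} (hK : IsCompact K) (hs : ∀ x ∈ K, x⁻¹ ∈ K)
    (hH : ∀ H : Subgroup G, (H : Set G) ⊆ K → H = ⊥)
    (hU : IsOpen U) (h1 : (1 : G) ∈ U) (hUs : ∀ x ∈ U, x⁻¹ ∈ U)
    (hUK : ∀ a ∈ U, ∀ b ∈ U, ∀ c ∈ U, ∀ d ∈ U, a * b * (c * d) ∈ K) :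
    ∃ M : ℝ, 0 < M ∧ ∀ l : List G, esc U l.prod ≤ M * (l.map (esc U)).sum := by
  obtain ⟨C, hC, h⟩ := step hK hs hH hU h1 hUs hUK
  refine ⟨2 * C, by positivity, fun l => ?_⟩
  have key : ∀ ε : ℝ, 0 < ε → esc U l.prod ≤ 2 * C * (l.map fun g => esc U g + ε).sum := by
    intro ε hε
    have hN0 : ∀ g, 0 < esc U g + ε := fun g => by linarith [esc_nonneg U g]
    have it : ∀ k : ℕ, ∀ l : List G,
        esc U l.prod ≤ (1 / ε * (1 / 2) ^ k + 2 * C) * (l.map fun g => esc U g + ε).sum := by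
      intro k
      induction k with
      | zero =>
        intro l
        cases l with
        | nil => simp [esc_one h1]
        | cons a l =>
          have h2 := sum_nonneg' (fun g => (hN0 g).le) l
          have h3 := esc_nonneg U a
          rw [List.map_cons, List.sum_cons, pow_zero, mul_one]
          calc esc U (a :: l).prod ≤ 1 := esc_le_one h1 _
            _ = (1 / ε) * ε := by field_simp
            _ ≤ _ := by gcongr <;> linarith
      | succ k ih =>
        intro l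
        have := h (fun g => esc U g + ε) hN0 (fun g => by linarith)
          (fun g => by simp only [esc_inv hUs]) _ (by positivity) ih l
        refine this.trans (le_of_eq ?_)
        ring
    have hlim : Tendsto (fun k : ℕ => (1 / ε * (1 / 2) ^ k + 2 * C) *
        (l.map fun g => esc U g + ε).sum) atTop
        (𝓝 ((1 / ε * 0 + 2 * C) * (l.map fun g => esc U g + ε).sum)) :=
      (((tendsto_pow_atTop_nhds_zero_of_lt_one (by norm_num) (by norm_num)).const_mul _).add_const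
        _).mul_const _
    simpa using ge_of_tendsto' hlim fun k => it k l
  have e : ∀ ε : ℝ, (l.map fun g => esc U g + ε).sum = (l.map (esc U)).sum + l.length * ε := by
    intro ε
    rw [List.sum_map_add]
    simp
  have hlim : Tendsto (fun ε : ℝ => 2 * C * ((l.map (esc U)).sum + l.length * ε)) (𝓝[>] 0)
      (𝓝 (2 * C * ((l.map (esc U)).sum + l.length * 0))) :=
    tendsto_nhdsWithin_of_tendsto_nhds (Continuous.tendsto (by fun_prop) 0)
  have := ge_of_tendsto hlim (eventually_nhdsWithin_of_forall fun ε hε => by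
    rw [← e]; exact key ε hε)
  simpa using this

theorem esc_tendsto {U : Set G} (hU : U ∈ 𝓝 (1 : G)) : Tendsto (esc U) (𝓝 1) (𝓝 0) := by
  rw [Metric.tendsto_nhds]
  intro ε hε
  obtain ⟨n, hn⟩ := exists_nat_one_div_lt hε
  have : ∀ᶠ g in 𝓝 (1 : G), ∀ i ∈ Finset.range (n + 1), g ^ i ∈ U := by
    rw [Finset.eventually_all]
    intro i _
    exact (continuous_pow i).continuousAt.eventually (by simpa using hU)
  filter_upwards [this] with g hg
  rw [Real.dist_eq, sub_zero, abs_of_nonneg (esc_nonneg _ _)]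
  refine lt_of_le_of_lt (esc_le (by positivity) fun j hj => ?_) hn
  have h2 : n + 1 ≤ j := by
    by_contra hc
    exact hj (hg j (Finset.mem_range.2 (by omega)))
  rw [mul_one_div, le_div_iff₀ (by positivity), one_mul]
  exact_mod_cast h2

omit [TopologicalSpace G] [IsTopologicalGroup G] in
theorem esc_escape {U V : Set G} (h1 : (1 : G) ∈ V) (hVU : ∀ a ∈ V, ∀ b ∈ V, a * b ∈ U) {g : G}
    {n : ℕ} (hn : n * esc V g < 1) : n * esc U g ≤ esc V (g ^ n) := by
  rcases Nat.eq_zero_or_pos n with rfl | h0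
  · simpa using esc_nonneg V 1
  have h0' : (0 : ℝ) < n := by exact_mod_cast h0
  rw [← le_div_iff₀' h0']
  refine esc_le (div_nonneg (esc_nonneg _ _) h0'.le) fun T hT => ?_
  have hr : g ^ (T % n) ∈ V := by
    refine pow_mem_of_esc h1 (lt_of_le_of_lt ?_ hn)
    have : ((T % n : ℕ) : ℝ) ≤ n := by exact_mod_cast (Nat.mod_lt T h0).le
    have := esc_nonneg V g
    gcongr
  have hq : (g ^ n) ^ (T / n) ∉ V := fun h => hT (by
    have := hVU _ h _ hr
    rwa [← pow_mul, ← pow_add, Nat.div_add_mod] at this)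
  have h2 := le_esc h1 hq
  have h3 : ((T / n : ℕ) : ℝ) ≤ T / n := Nat.cast_div_le
  have h4 := esc_nonneg V (g ^ n)
  calc (1 : ℝ) ≤ (T / n : ℕ) * esc V (g ^ n) := h2
    _ ≤ T / n * esc V (g ^ n) := by gcongr
    _ = T * (esc V (g ^ n) / n) := by ring

end GYW

open GYW in
theorem exists_wGleason {G : Type*} [Group G] [TopologicalSpace G] [IsTopologicalGroup G]
    [T2Space G] [LocallyCompactSpace G] [SecondCountableTopology G] (h : NSS G) :
    Nonempty (WGleason G) := by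
  obtain ⟨U', hU', hH'⟩ := h
  obtain ⟨K', hK'n, hK'U, hK'⟩ := local_compact_nhds hU'
  set K : Set G := K' ∩ K'⁻¹ with hKdef
  have hK : IsCompact K := hK'.inter_right hK'.inv.isClosed
  have hs : ∀ x ∈ K, x⁻¹ ∈ K := fun x hx => ⟨hx.2, by simpa using hx.1⟩
  have hH : ∀ H : Subgroup G, (H : Set G) ⊆ K → H = ⊥ := fun H h =>
    hH' H fun x hx => hK'U (h hx).1
  have hKn : K ∈ 𝓝 (1 : G) := inter_mem hK'n (inv_mem_nhds_one G hK'n)
  obtain ⟨W, hW, hWK⟩ := exists_nhds_list 4 K hKn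
  set U : Set G := interior W ∩ (interior W)⁻¹ with hUdef
  have hU : IsOpen U := isOpen_interior.inter isOpen_interior.inv
  have h1 : (1 : G) ∈ U := by
    have := mem_interior_iff_mem_nhds.2 hW
    exact ⟨this, by simpa using this⟩
  have hUs : ∀ x ∈ U, x⁻¹ ∈ U := fun x hx => ⟨hx.2, by simpa using hx.1⟩
  have hUK : ∀ a ∈ U, ∀ b ∈ U, ∀ c ∈ U, ∀ d ∈ U, a * b * (c * d) ∈ K := by
    intro a ha b hb c hc d hd
    have := hWK [a, b, c, d] (by simp) (by
      simp only [List.mem_cons, List.not_mem_nil, or_false]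
      rintro x (rfl | rfl | rfl | rfl)
      exacts [interior_subset ha.1, interior_subset hb.1, interior_subset hc.1,
        interior_subset hd.1])
    simpa [mul_assoc] using this
  have hUK1 : U ⊆ K := fun a ha => by simpa using hUK a ha 1 h1 1 h1 1 h1
  have hUn : U ∈ 𝓝 (1 : G) := hU.mem_nhds h1
  obtain ⟨M, hM, hP⟩ := approx_triangle hK hs hH hU h1 hUs hUK
  have e0 := esc_nonneg U
  have hle : ∀ g, esc U g ≤ M * wl (esc U) g := le_mul_wl hM hP
  have cmp : ∀ V ∈ 𝓝 (1 : G), ∃ c : ℝ, 0 < c ∧ ∀ g, esc V g ≤ c * wl (esc U) g := by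
    intro V hV
    obtain ⟨m, hm, hm'⟩ := exists_trap hK hs hH hV
    have hmr : (0 : ℝ) < m := by exact_mod_cast hm
    refine ⟨m * M, by positivity, fun g => ?_⟩
    rw [mul_assoc]
    exact (esc_le_mul h1 (fun g h => hm' g fun i hi => hUK1 (h i hi)) g).trans
      (mul_le_mul_of_nonneg_left (hle g) hmr.le)
  obtain ⟨V, hV, hVU⟩ := exists_nhds_one_split hUn
  obtain ⟨c, hc, hcV⟩ := cmp V hV
  refine ⟨⟨wl (esc U), c + 1, by linarith, wl_one e0, wl_inv e0 (esc_inv hUs), wl_mul e0, ?_, ?_,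
    ?_⟩⟩
  · rw [continuous_iff_continuousAt]
    intro x
    rw [ContinuousAt, tendsto_iff_dist_tendsto_zero]
    have hc : Tendsto (fun y : G => x⁻¹ * y) (𝓝 x) (𝓝 1) := by
      have : Continuous fun y : G => x⁻¹ * y := by fun_prop
      simpa using this.tendsto x
    refine squeeze_zero (fun _ => dist_nonneg) (fun y => ?_) ((esc_tendsto hUn).comp hc)
    have h2 := wl_mul e0 x (x⁻¹ * y)
    have h3 := wl_mul e0 y (x⁻¹ * y)⁻¹
    rw [wl_inv e0 (esc_inv hUs)] at h3
    have h4 := wl_le_self e0 (x⁻¹ * y)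
    rw [mul_inv_cancel_left] at h2
    rw [show y * (x⁻¹ * y)⁻¹ = x by group] at h3
    rw [Real.dist_eq, abs_le, Function.comp_apply]
    constructor <;> linarith
  · intro V' hV'
    obtain ⟨c', hc', h⟩ := cmp V' hV'
    refine ⟨1 / c', by positivity, fun g hg => mem_of_esc (mem_of_mem_nhds hV') ?_⟩
    rw [lt_div_iff₀' hc'] at hg
    exact lt_of_le_of_lt (h g) hg
  · intro g n hn
    have w0 := wl_nonneg e0 g
    have w1 := wl_nonneg e0 (g ^ n)
    have h2 : n * esc V g < 1 := by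
      rw [le_div_iff₀ (by linarith)] at hn
      by_cases h0 : n * wl (esc U) g = 0
      · calc n * esc V g ≤ n * (c * wl (esc U) g) := by gcongr; exact hcV g
          _ = c * (n * wl (esc U) g) := by ring
          _ < 1 := by rw [h0]; simp
      · have h3 : 0 < n * wl (esc U) g := lt_of_le_of_ne (by positivity) (Ne.symm h0)
        calc n * esc V g ≤ n * (c * wl (esc U) g) := by gcongr; exact hcV g
          _ < 1 := by nlinarith
    calc n * wl (esc U) g ≤ n * esc U g := by gcongr; exact wl_le_self e0 g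
      _ ≤ esc V (g ^ n) := esc_escape (mem_of_mem_nhds hV) hVU h2
      _ ≤ c * wl (esc U) (g ^ n) := hcV _
      _ ≤ (c + 1) * wl (esc U) (g ^ n) := by gcongr; linarith

end Crest.Agent.R217
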