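import Crest.Agent.R217.Chars

/-! # Row 217: a nontrivial compact group contains a good subgroup -/

set_option autoImplicit false

namespace Crest.Agent.R217

open Topology Filter Set

universe u

theorem zorn_ge {α : Type*} [Preorder α] (s : Set α)
    (ih : ∀ c ⊆ s, IsChain (· ≤ ·) c → ∀ y ∈ c, ∃ lb ∈ s, ∀ z ∈ c, lb ≤ z) {x : α} (hx : x ∈ s) :
    ∃ m, Minimal (· ∈ s) m :=
  (@zorn_le_nonempty₀ αᵒᵈ _ s (fun c hc hch => ih c hc hch.symm) x hx).imp fun _ h => h.2

section

variable {H : Type*} [CommGroup H] [TopologicalSpace H]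

theorem exists_char_eq [CompactSpace H] {L : Subgroup H} (hL : IsClosed (L : Set H))
    {θ : H →* Circle} (hθ : Continuous θ) {x : H} (hx : x ∈ L) (h : ¬ IsOfFinOrder (θ x))
    (w : Circle) : ∃ y ∈ L, θ y = w := by
  have : Fact ((0 : ℝ) < 1) := ⟨one_pos⟩
  let e := AddCircle.homeomorphCircle (one_ne_zero (α := ℝ))
  obtain ⟨a, ha⟩ := e.surjective (θ x)
  rw [AddCircle.homeomorphCircle_apply] at ha
  have h1 : addOrderOf a = 0 := addOrderOf_eq_zero_iff'.2 fun n hn h0 =>
    h (isOfFinOrder_iff_pow_eq_one.2 ⟨n, hn, by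
      rw [← ha, ← AddCircle.toCircle_nsmul, h0, AddCircle.toCircle_zero]⟩)
  have h2 := e.surjective.denseRange.comp (AddCircle.denseRange_zsmul_iff.2 h1) e.continuous
  refine h2.induction_on w (hL.isCompact.image hθ).isClosed fun n => ⟨x ^ n, L.zpow_mem hx n, ?_⟩
  rw [Function.comp_apply, AddCircle.homeomorphCircle_apply, AddCircle.toCircle_zsmul, ha,
    map_zpow]

theorem isOpen_ker_of_pow {θ : H →* Circle} (hθ : Continuous θ) {n : ℕ} (hn : 0 < n)
    (h : ∀ x, θ x ^ n = 1) : IsOpen {x | θ x = 1} := by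
  have h1 : {w : Circle | w ^ n = 1 ∧ w ≠ 1}.Finite := by
    refine ((Polynomial.nthRootsFinset n (1 : ℂ)).finite_toSet.preimage
      Circle.coe_injective.injOn).subset fun w hw => ?_
    exact (Polynomial.mem_nthRootsFinset hn _).2 (by rw [← Circle.coe_pow, hw.1, Circle.coe_one])
  convert (h1.isClosed.preimage hθ).isOpen_compl using 1
  ext x
  simp [h x]

variable [IsTopologicalGroup H] [T2Space H] [CompactSpace H] [SecondCountableTopology H]

theorem good_of_min {ψ : H →* Circle} (hψ : Continuous ψ) {x : H} (hp : (orderOf (ψ x)).Prime)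
    (hmin : ∀ L : Subgroup H, IsClosed (L : Set H) → (∃ y ∈ L, ψ y = ψ x) → L = ⊤) :
    Nonempty (Good H) := by
  have hx : IsOfFinOrder (ψ x) := orderOf_pos_iff.1 hp.pos
  have hz : ∀ y, ψ y ∈ Subgroup.zpowers (ψ x) := fun y => by
    have := hmin ((Subgroup.zpowers (ψ x)).comap ψ)
      ((finite_zpowers.2 hx).isClosed.preimage hψ) ⟨x, Subgroup.mem_zpowers _, rfl⟩
    exact Subgroup.mem_comap.1 (this ▸ Subgroup.mem_top y)
  have hpow : ∀ y, ψ y ^ orderOf (ψ x) = 1 := fun y => by
    obtain ⟨k, hk⟩ := hz y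
    rw [← hk, ← zpow_natCast, ← zpow_mul, mul_comm, zpow_mul, zpow_natCast, pow_orderOf_eq_one,
      one_zpow]
  have hker : ∀ {θ : H →* Circle}, Continuous θ → IsClosed (θ.ker : Set H) := fun hθ =>
    isClosed_singleton.preimage hθ
  have hopen : ∀ θ : H →* Circle, Continuous θ → IsOpen {y | θ y = 1} := by
    intro θ hθ
    have h1 : IsOfFinOrder (θ x) := by
      by_contra h
      obtain ⟨y, hy, h2⟩ := exists_char_eq (hker hψ) hθ (x := x ^ orderOf (ψ x))
        (by rw [MonoidHom.mem_ker, map_pow, hpow])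
        (fun h' => h ((map_pow θ x _ ▸ h').of_pow hp.ne_zero)) (θ x)
      have h3 := hmin θ.ker (hker hθ) ⟨x * y⁻¹, by simp [MonoidHom.mem_ker, h2],
        by simp [MonoidHom.mem_ker.1 hy]⟩
      exact h (by rw [MonoidHom.mem_ker.1 (h3 ▸ Subgroup.mem_top x)]; exact IsOfFinOrder.one)
    refine isOpen_ker_of_pow hθ h1.orderOf_pos fun y => ?_
    have h2 := hmin (θ ^ orderOf (θ x)).ker (hker (hθ.pow _))
      ⟨x, by simp [MonoidHom.mem_ker], rfl⟩
    exact MonoidHom.mem_ker.1 (h2 ▸ Subgroup.mem_top y)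
  refine ⟨⟨orderOf (ψ x), hp.pos, Circle.coeHom.comp ψ, fun y => ?_, ⟨x, fun h => ?_⟩, ?_,
    fun U hU => ?_, fun L hL hne y hy => ?_⟩⟩
  · rw [MonoidHom.comp_apply, ← map_pow, hpow, map_one]
  · exact hp.ne_one (orderOf_eq_one_iff.2 (Circle.ext h))
  · convert hopen ψ hψ using 3 with y
    exact Circle.coe_eq_one
  · obtain ⟨L, hL⟩ := (isOpen_interior (s := U)).isClosed_compl.isCompact.elim_directed_cover
      (fun L : OpenSubgroup H => (L : Set H)ᶜ) (fun L => L.isClosed.isOpen_compl)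
      (fun y hy => by
        obtain ⟨θ, hθ, h⟩ := exists_char_ne_one (g := y)
          (by rintro rfl; exact hy (mem_interior_iff_mem_nhds.2 hU))
        exact mem_iUnion.2 ⟨⟨θ.ker, hopen θ hθ⟩, h⟩)
      fun L L' => ⟨L ⊓ L', compl_subset_compl.2 inter_subset_left,
        compl_subset_compl.2 inter_subset_right⟩
    exact ⟨L, (compl_subset_compl.1 hL).trans interior_subset⟩
  · by_contra h
    have : Fact (orderOf (ψ x)).Prime := ⟨hp⟩
    obtain ⟨k, hk⟩ := mem_zpowers_of_prime_card (Nat.card_zpowers (ψ x))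
      (g := ⟨ψ y, hz y⟩) (g' := ⟨ψ x, hz x⟩) fun h' => h (congrArg (fun w => (w.1 : ℂ)) h')
    exact hne (hmin L hL ⟨y ^ k, L.zpow_mem hy k, (map_zpow ψ y k).trans (congrArg Subtype.val hk)⟩)

theorem exists_good_comm {g : H} (hg : g ≠ 1) :
    ∃ L : Subgroup H, IsClosed (L : Set H) ∧ Nonempty (Good L) := by
  obtain ⟨ψ, hψ, hψg⟩ := exists_char_ne_one hg
  obtain ⟨x, hx⟩ : ∃ x, (orderOf (ψ x)).Prime := by
    by_cases h : IsOfFinOrder (ψ g)
    · refine ⟨g ^ (orderOf (ψ g) / (orderOf (ψ g)).minFac), ?_⟩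
      rw [map_pow, orderOf_pow_orderOf_div h.orderOf_pos.ne' (Nat.minFac_dvd _)]
      exact Nat.minFac_prime (mt orderOf_eq_one_iff.1 hψg)
    · obtain ⟨y, -, hy⟩ := exists_char_eq (L := ⊤) isClosed_univ hψ (Subgroup.mem_top g) h (-1)
      refine ⟨y, ?_⟩
      rw [hy, orderOf_eq_prime (p := 2) (by simp) fun h => by
        have := congrArg Subtype.val h
        norm_num at this]
      exact Nat.prime_two
  obtain ⟨L, ⟨hL, y, hy, hyx⟩, hmin⟩ := zorn_ge
    {L : Subgroup H | IsClosed (L : Set H) ∧ ∃ y ∈ L, ψ y = ψ x} (fun c hc hch L₀ hL₀ => by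
      have : Nonempty c := ⟨⟨L₀, hL₀⟩⟩
      have hcl : ∀ L : c, IsClosed ((L.1 : Set H) ∩ ψ ⁻¹' {ψ x}) := fun L =>
        (hc L.2).1.inter (isClosed_singleton.preimage hψ)
      obtain ⟨y, hy⟩ := IsCompact.nonempty_iInter_of_directed_nonempty_isCompact_isClosed
        (fun L : c => (L.1 : Set H) ∩ ψ ⁻¹' {ψ x})
        (fun L L' => by
          rcases hch.total L.2 L'.2 with h | h
          exacts [⟨L, subset_rfl, inter_subset_inter_left _ h⟩,
            ⟨L', inter_subset_inter_left _ h, subset_rfl⟩])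
        (fun L => (hc L.2).2) (fun L => (hcl L).isCompact) hcl
      refine ⟨⨅ L : c, L.1, ⟨?_, y, ?_, ?_⟩, fun L hL => ?_⟩
      · rw [Subgroup.coe_iInf]
        exact isClosed_iInter fun L => (hc L.2).1
      · exact Subgroup.mem_iInf.2 fun L => (mem_iInter.1 hy L).1
      · exact (mem_iInter.1 hy ⟨L₀, hL₀⟩).2
      · exact iInf_le (fun L : c => L.1) ⟨L, hL⟩)
    (x := ⊤) ⟨isClosed_univ, x, Subgroup.mem_top x, rfl⟩
  have : SecondCountableTopology L := TopologicalSpace.Subtype.secondCountableTopology (L : Set H)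
  have : CompactSpace L := isCompact_iff_compactSpace.1 hL.isCompact
  refine ⟨L, hL, good_of_min (ψ := ψ.comp L.subtype) (hψ.comp continuous_subtype_val)
    (x := ⟨y, hy⟩) (hyx ▸ hx) fun L' hL' ⟨z, hz, h⟩ => ?_⟩
  refine Subgroup.map_injective L.subtype_injective (le_antisymm (Subgroup.map_mono le_top) ?_)
  exact (Subgroup.map_subtype_le _).trans (hmin
    ⟨hL.isClosedEmbedding_subtypeVal.isClosedMap _ hL', z, ⟨z, hz, rfl⟩, h.trans hyx⟩
    (Subgroup.map_subtype_le _))

end

theorem exists_good {G : Type u} [Group G] [TopologicalSpace G] [IsTopologicalGroup G]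
    [T2Space G] [SecondCountableTopology G] (K : Subgroup G) (hK : IsCompact (K : Set G))
    (hne : K ≠ ⊥) :
    ∃ (H : Type u) (_ : CommGroup H) (_ : TopologicalSpace H) (_ : IsTopologicalGroup H)
      (_ : CompactSpace H) (f : H →* G), Nonempty (Good H) ∧ Continuous f ∧
        Function.Injective f ∧ ∀ h, f h ∈ K := by
  obtain ⟨⟨g, hgK⟩, hg⟩ := Subgroup.ne_bot_iff_exists_ne_one.1 hne
  have hA : (Subgroup.zpowers g).topologicalClosure ≤ K :=
    Subgroup.topologicalClosure_minimal _ (Subgroup.zpowers_le.2 hgK) hK.isClosed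
  let : CommGroup (Subgroup.zpowers g).topologicalClosure :=
    Subgroup.commGroupTopologicalClosure _ fun x y => mul_comm' x y
  have : CompactSpace (Subgroup.zpowers g).topologicalClosure :=
    isCompact_iff_compactSpace.1 (hK.of_isClosed_subset (Subgroup.isClosed_topologicalClosure _) hA)
  have : SecondCountableTopology (Subgroup.zpowers g).topologicalClosure :=
    TopologicalSpace.Subtype.secondCountableTopology
      ((Subgroup.zpowers g).topologicalClosure : Set G)
  obtain ⟨L, hL, hgood⟩ := exists_good_comm (H := (Subgroup.zpowers g).topologicalClosure)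
    (g := ⟨g, Subgroup.le_topologicalClosure _ (Subgroup.mem_zpowers g)⟩)
    fun h => hg (Subtype.ext (show g = 1 from congrArg Subtype.val h))
  exact ⟨L, inferInstance, inferInstance, inferInstance, isCompact_iff_compactSpace.1 hL.isCompact,
    (Subgroup.subtype _).comp L.subtype, hgood, continuous_subtype_val.comp continuous_subtype_val,
    Subtype.val_injective.comp Subtype.val_injective, fun h => hA h.1.2⟩

end Crest.Agent.R217
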