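import Crest.Agent.R217.Grid2Aux

/-! # Row 217: the two dimensional grid -/

set_option autoImplicit false

namespace Crest.Agent.R217

open Matrix Complex

namespace G2

variable {N : ℕ}

theorem sinZ_ct : (sinZ N)ᴴ = sinZ N := by
  simp only [sinZ, conjTranspose_smul, conjTranspose_sub, sft_ct, neg_zero, neg_neg]
  match_scalars <;> simp <;> ring

theorem sinW_ct : (sinW N)ᴴ = sinW N := by
  simp only [sinW, conjTranspose_smul, conjTranspose_sub, sft_ct, neg_zero, neg_neg]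
  match_scalars <;> simp <;> ring

theorem b12_ct : (b12 N)ᴴ = b21 N := by
  simp only [b12, b21, conjTranspose_smul, conjTranspose_sub, conjTranspose_add, sft_ct, neg_zero,
    neg_neg]
  match_scalars <;> simp

theorem b21_ct : (b21 N)ᴴ = b12 N := by rw [← b12_ct, conjTranspose_conjTranspose]

theorem herm_S2 : (S2 N).IsHermitian := by
  unfold IsHermitian S2
  rw [lift2_ct]
  congr 1
  funext a b
  rcases a with ⟨_ | _, _ | _⟩ <;> rcases b with ⟨_ | _, _ | _⟩ <;>
    simp [sinZ_ct, sinW_ct, b12_ct, b21_ct, sft_ct]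

theorem herm_S2' : (S2' N).IsHermitian := by
  unfold IsHermitian S2'
  rw [lift2_ct]
  congr 1
  funext a b
  rcases a with ⟨_ | _, _ | _⟩ <;> rcases b with ⟨_ | _, _ | _⟩ <;>
    simp [sinZ_ct, sinW_ct, b12_ct, b21_ct, sft_ct]

/-- expand products of combinations of shifts and compare coefficients -/
macro "sft_ring" : tactic => `(tactic| (
  simp only [sinZ, sinW, b12, b21, Matrix.mul_add, Matrix.add_mul, Matrix.mul_sub, Matrix.sub_mul,
    Matrix.smul_mul, Matrix.mul_smul, Matrix.neg_mul, Matrix.mul_neg, Matrix.mul_zero,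
    Matrix.zero_mul, sft_mul, conjTranspose_sub, conjTranspose_zero, sft_ct, neg_zero,
    Int.reduceNeg, Int.reduceAdd, add_zero, zero_add, add_neg_cancel, neg_add_cancel]
  try (match_scalars <;> (apply Complex.ext <;> norm_num))))

variable [NeZero N]

theorem S2_mul : S2 N * S2' N = 1 := by
  rw [S2, S2', lift2_mul, lift2_one]
  congr 1
  funext a b
  rcases a with ⟨_ | _, _ | _⟩ <;> rcases b with ⟨_ | _, _ | _⟩ <;>
    simp only [Fintype.sum_prod_type, Fintype.sum_bool, Prod.mk.injEq, Bool.false_eq_true,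
      Bool.true_eq_false, and_true, and_false, and_self, if_true, if_false] <;>
    sft_ring

theorem d2_mul : d2 N * d2 N = 0 := by
  rw [d2, lift2_mul, lift2_zero]
  congr 1
  funext a b
  rcases a with ⟨_ | _, _ | _⟩ <;> rcases b with ⟨_ | _, _ | _⟩ <;>
    simp only [Fintype.sum_prod_type, Fintype.sum_bool] <;>
    sft_ring
  abel

theorem anti2 : d2 N * S2 N + S2 N * (d2 N)ᴴ = 0 := by
  rw [d2, S2, lift2_ct, lift2_mul, lift2_mul, lift2_add, lift2_zero]
  congr 1
  funext a b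
  rcases a with ⟨_ | _, _ | _⟩ <;> rcases b with ⟨_ | _, _ | _⟩ <;>
    simp only [Fintype.sum_prod_type, Fintype.sum_bool] <;>
    sft_ring

/-- the number of directions -/
def dg2 (a : Bool × Bool) : ℕ := a.1.toNat + a.2.toNat

/-- the contraction in the first direction -/
def E1 (a : Z2 N) : Matrix (Z2 N) (Z2 N) ℂ := fun x y => if x.2 = y.2 then e1 a.1 x.1 y.1 else 0

/-- the contraction in the second direction, after projecting the first one -/
def E2 (a : Z2 N) : Matrix (Z2 N) (Z2 N) ℂ := fun x y => if x.1 = a.1 then e1 a.2 x.2 y.2 else 0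

/-- the contraction towards `a` -/
def h2 (a : Z2 N) : Matrix (Cell2 N) (Cell2 N) ℂ := lift2 N fun
  | (true, false), (false, false) => E1 a
  | (true, true), (false, true) => E1 a
  | (false, true), (false, false) => E2 a
  | _, _ => 0

omit [NeZero N] in
theorem E1_supp {a x y : Z2 N} (h : E1 a x y ≠ 0) : dist2 N x a ≤ dist2 N y a := by
  unfold E1 at h
  split_ifs at h with h1
  · have := e1_supp h
    unfold dist2
    rw [h1]
    omega
  · exact (h rfl).elim

omit [NeZero N] in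
theorem E2_supp {a x y : Z2 N} (h : E2 a x y ≠ 0) : dist2 N x a ≤ dist2 N y a := by
  unfold E2 at h
  split_ifs at h with h1
  · have := e1_supp h
    unfold dist2
    rw [h1, sub_self, ZMod.valMinAbs_zero]
    omega
  · exact (h rfl).elim

theorem h2_id {ρmax : ℕ} (h : 2 * ρmax + 2 ≤ N) (a : Z2 N) (j : Cell2 N)
    (hj : dist2 N j.1 a ≤ ρmax) (i : Cell2 N) : (d2 N * h2 a + h2 a * d2 N) i j =
      (1 : Matrix (Cell2 N) (Cell2 N) ℂ) i j -
        if i = (a, (false, false)) ∧ dg2 j.2 = 0 then 1 else 0 := by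
  obtain ⟨⟨x1, x2⟩, α⟩ := i
  obtain ⟨⟨y1, y2⟩, β⟩ := j
  obtain ⟨a1, a2⟩ := a
  simp only [dist2] at hj
  have A1 := eA a1 x1 y1
  have A2 := eA a2 x2 y2
  have B1 := eB a1 x1 y1 (by omega)
  have B2 := eB a2 x2 y2 (by omega)
  rw [d2, h2, lift2_mul, lift2_mul, lift2_add]
  rcases α with ⟨_ | _, _ | _⟩ <;> rcases β with ⟨_ | _, _ | _⟩ <;>
    simp only [lift2, Fintype.sum_prod_type, Fintype.sum_bool, Matrix.mul_zero, Matrix.zero_mul,
      add_zero, zero_add, Matrix.mul_sub, Matrix.sub_mul, Matrix.add_apply, Matrix.sub_apply,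
      sft_mul_apply, mul_sft_apply, one_apply, dg2, Matrix.zero_apply] <;>
    simp [E1, E2]
  · rw [sub_eq_iff_eq_add] at A1 A2
    rw [A1, A2]
    simp only [ite_and]
    split_ifs <;> ring
  · rw [sub_eq_iff_eq_add] at A1 B2
    rw [A1, B2]
    simp only [ite_and]
    split_ifs <;> ring
  · simp only [sub_eq_iff_eq_add, zero_add]
  · by_cases h2 : x2 = y2 <;> simp [h2, B1]
  · by_cases h2 : x2 = y2 <;> simp [h2, B1]

end G2

open G2

theorem HI_S2 (N : ℕ) [NeZero N] : HI (S2 N) (S2' N) := ⟨herm_S2, herm_S2', S2_mul⟩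

theorem S2_supp (N : ℕ) [NeZero N] (i j : Cell2 N) (h : S2 N i j ≠ 0) : dist2 N i.1 j.1 ≤ 1 := by
  obtain ⟨x, ⟨_ | _, _ | _⟩⟩ := i <;> obtain ⟨y, ⟨_ | _, _ | _⟩⟩ := j <;>
    first
    | exact (h rfl).elim
    | exact ((Nr.sft (by simp) (by simp)).smul _) x y h
    | exact Nr.sinW.neg x y h
    | exact Nr.b12 x y h
    | exact Nr.b21 x y h
    | exact Nr.sinZ x y h

theorem S2'_supp (N : ℕ) [NeZero N] (i j : Cell2 N) (h : S2' N i j ≠ 0) : dist2 N i.1 j.1 ≤ 1 := by
  obtain ⟨x, ⟨_ | _, _ | _⟩⟩ := i <;> obtain ⟨y, ⟨_ | _, _ | _⟩⟩ := j <;>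
    first
    | exact (h rfl).elim
    | exact ((Nr.sft (by simp) (by simp)).smul _) x y h
    | exact Nr.sinZ.neg x y h
    | exact Nr.b12 x y h
    | exact Nr.b21 x y h
    | exact Nr.sinW x y h

theorem exists_grid2 (N ρmax : ℕ) [NeZero N] (h : 2 * ρmax + 2 ≤ N) :
    ∃ g : Grid (Cell2 N) (Z2 N) 2 ρmax,
      g.dist = dist2 N ∧ g.vtx = Prod.fst ∧ g.S = S2 N ∧ g.S' = S2' N := by
  refine ⟨{
    dist := dist2 N
    dist_self := dist2_self N
    dist_comm := dist2_comm N
    dist_tri := dist2_tri N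
    vtx := Prod.fst
    deg := fun i => dg2 i.2
    deg_le := ?_
    d := d2 N
    S := S2 N
    S' := S2' N
    d_supp := ?_
    S_supp := fun i j hij => ⟨?_, S2_supp N i j hij⟩
    S'_supp := S2'_supp N
    dd := d2_mul
    hS := HI_S2 N
    anti := anti2
    eps_d := ?_
    d_mu := ?_
    cS := I
    eps_S := ?_
    pt := fun a => (a, (false, false))
    vtx_pt := fun _ => rfl
    deg_pt := fun _ => rfl
    h := h2
    h_supp := ?_
    h_id := h2_id h }, rfl, rfl, rfl, rfl⟩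
  · rintro ⟨x, ⟨_ | _, _ | _⟩⟩ <;> simp [dg2]
  · intro i j hij
    obtain ⟨x, ⟨_ | _, _ | _⟩⟩ := i <;> obtain ⟨y, ⟨_ | _, _ | _⟩⟩ := j <;>
      first
      | exact (hij rfl).elim
      | exact ⟨rfl, ((Nr.sft (by simp) (by simp)).sub (Nr.sft (by simp) (by simp))) x y hij⟩
  · obtain ⟨x, ⟨_ | _, _ | _⟩⟩ := i <;> obtain ⟨y, ⟨_ | _, _ | _⟩⟩ := j <;>
      first
      | exact (hij rfl).elim
      | rfl
  · rw [d2, vecMul_lift2 fun a => if dg2 a = 0 then (1 : ℂ) else 0]
    funext j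
    obtain ⟨y, ⟨_ | _, _ | _⟩⟩ := j <;>
      simp [Fintype.sum_prod_type, dg2, vecMul_sub, one_vecMul_sft]
  · rw [d2, lift2_mulVec fun a => if dg2 a = 2 then (1 : ℂ) else 0]
    funext j
    obtain ⟨y, ⟨_ | _, _ | _⟩⟩ := j <;>
      simp [Fintype.sum_prod_type, dg2, sub_mulVec, sft_mulVec_one]
  · rw [S2, vecMul_lift2 fun a => if dg2 a = 0 then (1 : ℂ) else 0]
    funext j
    obtain ⟨y, ⟨_ | _, _ | _⟩⟩ := j <;>
      simp [Fintype.sum_prod_type, dg2, vecMul_smul, one_vecMul_sft]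
  · intro a i j hij
    obtain ⟨x, ⟨_ | _, _ | _⟩⟩ := i <;> obtain ⟨y, ⟨_ | _, _ | _⟩⟩ := j <;>
      first
      | exact (hij rfl).elim
      | exact ⟨rfl, E1_supp hij⟩
      | exact ⟨rfl, E2_supp hij⟩

end Crest.Agent.R217
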