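import Crest.Agent.R217.GridDefs

/-! # Row 217: calculus of shifts on the discrete two-torus -/

set_option autoImplicit false

namespace Crest.Agent.R217.G2

open Matrix Complex

variable {N : ℕ} [NeZero N]

theorem sft_mul_apply {κ : Type*} (s t : ℤ) (A : Matrix (Z2 N) κ ℂ) (x : Z2 N) (y : κ) :
    (sft N s t * A) x y = A (x - ((s : ZMod N), (t : ZMod N))) y := by
  simp only [Matrix.mul_apply, sft, ← sub_eq_iff_eq_add, ite_mul, one_mul, zero_mul]
  rw [Finset.sum_ite_eq]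
  simp

theorem mul_sft_apply {κ : Type*} (s t : ℤ) (A : Matrix κ (Z2 N) ℂ) (x : κ) (y : Z2 N) :
    (A * sft N s t) x y = A x (y + ((s : ZMod N), (t : ZMod N))) := by
  simp only [Matrix.mul_apply, sft, mul_ite, mul_one, mul_zero]
  rw [Finset.sum_ite_eq']
  simp

theorem sft_mul (s t s' t' : ℤ) : sft N s t * sft N s' t' = sft N (s + s') (t + t') := by
  ext x y
  rw [mul_sft_apply]
  simp only [sft, add_assoc, Prod.mk_add_mk, Int.cast_add, add_comm (s' : ZMod N),
    add_comm (t' : ZMod N)]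

omit [NeZero N] in
theorem sft_ct (s t : ℤ) : (sft N s t)ᴴ = sft N (-s) (-t) := by
  ext x y
  have : (y = x + ((s : ZMod N), (t : ZMod N))) ↔ x = y + (((-s : ℤ) : ZMod N), ((-t : ℤ) : ZMod N)) := by
    rw [Int.cast_neg, Int.cast_neg, ← Prod.neg_mk, ← sub_eq_add_neg, eq_sub_iff_add_eq, eq_comm]
  simp only [conjTranspose_apply, sft, this]
  split_ifs <;> simp

omit [NeZero N] in
theorem sft_zero : sft N 0 0 = 1 := by
  ext x y
  simp [sft, one_apply, Prod.mk_zero_zero]

theorem one_vecMul_sft (s t : ℤ) : (1 : Z2 N → ℂ) ᵥ* sft N s t = 1 := by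
  funext y
  simp [vecMul, dotProduct, sft]

theorem sft_mulVec_one (s t : ℤ) : sft N s t *ᵥ (1 : Z2 N → ℂ) = 1 := by
  funext x
  simp [mulVec, dotProduct, sft, ← sub_eq_iff_eq_add]

section lift
variable {τ : Type*}

theorem lift2_mul [Fintype τ] (T T' : τ → τ → Matrix (Z2 N) (Z2 N) ℂ) :
    lift2 N T * lift2 N T' = lift2 N fun a c => ∑ b, T a b * T' b c := by
  ext x y
  simp only [lift2, Matrix.mul_apply, Matrix.sum_apply, Fintype.sum_prod_type_right]

omit [NeZero N] in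
theorem lift2_ct (T : τ → τ → Matrix (Z2 N) (Z2 N) ℂ) :
    (lift2 N T)ᴴ = lift2 N fun a b => (T b a)ᴴ := rfl

omit [NeZero N] in
theorem lift2_add (T T' : τ → τ → Matrix (Z2 N) (Z2 N) ℂ) :
    lift2 N T + lift2 N T' = lift2 N fun a b => T a b + T' a b := rfl

omit [NeZero N] in
theorem lift2_zero : (0 : Matrix (Z2 N × τ) (Z2 N × τ) ℂ) = lift2 N fun _ _ => 0 := rfl

omit [NeZero N] in
theorem lift2_one [DecidableEq τ] :
    (1 : Matrix (Z2 N × τ) (Z2 N × τ) ℂ) = lift2 N fun a b => if a = b then sft N 0 0 else 0 := by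
  ext x y
  simp only [lift2, sft_zero, one_apply, Prod.ext_iff (x := x)]
  by_cases h : x.2 = y.2 <;> simp [h, one_apply]

theorem vecMul_lift2 [Fintype τ] (f : τ → ℂ) (T : τ → τ → Matrix (Z2 N) (Z2 N) ℂ) :
    (fun i : Z2 N × τ => f i.2) ᵥ* lift2 N T = fun j => ∑ a, f a * (1 ᵥ* T a j.2) j.1 := by
  funext j
  simp only [vecMul, dotProduct, lift2, Fintype.sum_prod_type_right, Finset.mul_sum, Pi.one_apply,
    one_mul]

theorem lift2_mulVec [Fintype τ] (f : τ → ℂ) (T : τ → τ → Matrix (Z2 N) (Z2 N) ℂ) :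
    lift2 N T *ᵥ (fun i : Z2 N × τ => f i.2) = fun i => ∑ a, f a * (T i.2 a *ᵥ 1) i.1 := by
  funext j
  simp only [mulVec, dotProduct, lift2, Fintype.sum_prod_type_right, Finset.mul_sum, Pi.one_apply,
    mul_one, mul_comm]

end lift

/-! ### supports -/

/-- entries only between neighbouring vertices -/
def Nr (A : Matrix (Z2 N) (Z2 N) ℂ) : Prop := ∀ x y, A x y ≠ 0 → dist2 N x y ≤ 1

omit [NeZero N]

theorem Nr.zero : Nr (0 : Matrix (Z2 N) (Z2 N) ℂ) := fun _ _ h => (h rfl).elim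

theorem Nr.add {A B : Matrix (Z2 N) (Z2 N) ℂ} (hA : Nr A) (hB : Nr B) : Nr (A + B) :=
  fun x y h => by
    by_cases h1 : A x y = 0
    · exact hB x y fun h2 => h (by simp [h1, h2])
    · exact hA x y h1

theorem Nr.smul {A : Matrix (Z2 N) (Z2 N) ℂ} (hA : Nr A) (c : ℂ) : Nr (c • A) :=
  fun x y h => hA x y fun h2 => h (by simp [h2])

theorem Nr.neg {A : Matrix (Z2 N) (Z2 N) ℂ} (hA : Nr A) : Nr (-A) :=
  fun x y h => hA x y fun h2 => h (by simp [h2])

theorem Nr.sub {A B : Matrix (Z2 N) (Z2 N) ℂ} (hA : Nr A) (hB : Nr B) : Nr (A - B) := by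
  rw [sub_eq_add_neg]; exact hA.add hB.neg

theorem natAbs_vm_cast (s : ℤ) : ((s : ZMod N)).valMinAbs.natAbs ≤ s.natAbs := by
  rcases Nat.eq_zero_or_pos N with rfl | hN
  · exact le_rfl
  · have : NeZero N := ⟨hN.ne'⟩
    exact ZMod.natAbs_min_of_le_div_two N _ _ (ZMod.coe_valMinAbs _) (ZMod.natAbs_valMinAbs_le _)

theorem Nr.sft {s t : ℤ} (hs : s.natAbs ≤ 1) (ht : t.natAbs ≤ 1) : Nr (sft N s t) := fun x y h => by
  have e : x = y + ((s : ZMod N), (t : ZMod N)) := by
    by_contra hne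
    exact h (if_neg hne)
  subst e
  have h1 := natAbs_vm_cast (N := N) s
  have h2 := natAbs_vm_cast (N := N) t
  simp only [dist2, Prod.fst_add, Prod.snd_add, add_sub_cancel_left]
  omega

theorem Nr.sinZ : Nr (sinZ N) := ((Nr.sft (by simp) (by simp)).sub (Nr.sft (by simp) (by simp))).smul _

theorem Nr.sinW : Nr (sinW N) := ((Nr.sft (by simp) (by simp)).sub (Nr.sft (by simp) (by simp))).smul _

theorem Nr.b12 : Nr (b12 N) :=
  ((((Nr.sft (by simp) (by simp)).sub (Nr.sft (by simp) (by simp))).add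
    (Nr.sft (by simp) (by simp))).add (Nr.sft (by simp) (by simp))).smul _

theorem Nr.b21 : Nr (b21 N) :=
  ((((Nr.sft (by simp) (by simp)).sub (Nr.sft (by simp) (by simp))).add
    (Nr.sft (by simp) (by simp))).add (Nr.sft (by simp) (by simp))).smul _

/-! ### the one dimensional contraction -/

/-- the coefficient of the edge `[k, k + 1]` in the path from `0` to `m` -/
def cc (k m : ℤ) : ℤ := if 0 ≤ k ∧ k < m then 1 else if m ≤ k ∧ k < 0 then -1 else 0

/-- the coefficient of the edge based at `u` in the short path from `a` to `v` -/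
def e1 (a u v : ZMod N) : ℂ := (cc (u - a).valMinAbs (v - a).valMinAbs : ℤ)

theorem e1_supp {a u v : ZMod N} (h : e1 a u v ≠ 0) :
    (u - a).valMinAbs.natAbs ≤ (v - a).valMinAbs.natAbs := by
  have : cc (u - a).valMinAbs (v - a).valMinAbs ≠ 0 := fun h0 => h (by rw [e1, h0, Int.cast_zero])
  unfold cc at this
  split_ifs at this <;> omega

theorem vm_pred [NeZero N] (u : ZMod N) : (u - 1).valMinAbs = u.valMinAbs - 1 ∨
    (u - 1).valMinAbs = u.valMinAbs - 1 + N := by
  have h := ZMod.valMinAbs_mem_Ioc u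
  have hN := Nat.pos_of_neZero N
  rw [Set.mem_Ioc] at h
  by_cases hc : -(N : ℤ) < (u.valMinAbs - 1) * 2
  · exact Or.inl ((ZMod.valMinAbs_spec _ _).2 ⟨by simp, hc, by omega⟩)
  · exact Or.inr ((ZMod.valMinAbs_spec _ _).2 ⟨by simp, by omega, by omega⟩)

theorem eA [NeZero N] (a x y : ZMod N) :
    e1 a (x - 1) y - e1 a x y = (if x = y then 1 else 0) - (if x = a then 1 else 0) := by
  have h1 : x = y ↔ (x - a).valMinAbs = (y - a).valMinAbs := by
    rw [ZMod.valMinAbs_inj, sub_left_inj]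
  have h2 : x = a ↔ (x - a).valMinAbs = 0 := by rw [ZMod.valMinAbs_eq_zero, sub_eq_zero]
  have h3 := vm_pred (x - a)
  have h4 := ZMod.valMinAbs_mem_Ioc (x - a)
  have h5 := ZMod.valMinAbs_mem_Ioc (y - a)
  have h6 := ZMod.valMinAbs_mem_Ioc (x - a - 1)
  rw [Set.mem_Ioc] at h4 h5 h6
  have key : cc (x - a - 1).valMinAbs (y - a).valMinAbs - cc (x - a).valMinAbs (y - a).valMinAbs =
      (if x = y then 1 else 0) - (if x = a then 1 else 0) := by
    simp only [h1, h2, cc]
    split_ifs <;> omega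
  rw [e1, e1, sub_right_comm, ← Int.cast_sub, key]
  split_ifs <;> simp

theorem eB [NeZero N] (a x y : ZMod N) (h : 2 * (y - a).valMinAbs.natAbs + 2 ≤ N) :
    e1 a x (y + 1) - e1 a x y = if x = y then 1 else 0 := by
  have h1 : x = y ↔ (x - a).valMinAbs = (y - a).valMinAbs := by
    rw [ZMod.valMinAbs_inj, sub_left_inj]
  have h3 : (y + 1 - a).valMinAbs = (y - a).valMinAbs + 1 :=
    (ZMod.valMinAbs_spec _ _).2 ⟨by simp; ring, by omega, by omega⟩
  have key : cc (x - a).valMinAbs ((y - a).valMinAbs + 1) - cc (x - a).valMinAbs (y - a).valMinAbs =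
      if x = y then 1 else 0 := by
    simp only [h1, cc]
    split_ifs <;> omega
  rw [e1, e1, h3, ← Int.cast_sub, key]
  split_ifs <;> simp

end Crest.Agent.R217.G2
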