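import Crest.Agent.R217.Ctl

/-!
# Row 217: the cubical grid of the torus `(ℤ/N)^(2k)`, its duality, the standard cuts
-/

set_option autoImplicit false

namespace Crest.Agent.R217

open Matrix Complex

abbrev Z2 (N : ℕ) := ZMod N × ZMod N

/-- cells of the two dimensional grid: base vertex and the set of directions. -/
abbrev Cell2 (N : ℕ) := Z2 N × (Bool × Bool)

abbrev Cell (k N : ℕ) := Fin k → Cell2 N

abbrev Vtx (k N : ℕ) := Fin k → Z2 N

section two

variable (N : ℕ)

/-- translation by `(s, t)`; `z = sft 1 0`, `w = sft 0 1`. -/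
def sft (s t : ℤ) : Matrix (Z2 N) (Z2 N) ℂ :=
  fun x y => if x = y + ((s : ZMod N), (t : ZMod N)) then 1 else 0

/-- a matrix on cells from a table of matrices on vertices. -/
def lift2 {τ : Type*} (T : τ → τ → Matrix (Z2 N) (Z2 N) ℂ) : Matrix (Z2 N × τ) (Z2 N × τ) ℂ :=
  fun x y => T x.2 y.2 x.1 y.1

noncomputable def sinZ : Matrix (Z2 N) (Z2 N) ℂ := (-I / 2) • (sft N 1 0 - sft N (-1) 0)

noncomputable def sinW : Matrix (Z2 N) (Z2 N) ℂ := (-I / 2) • (sft N 0 1 - sft N 0 (-1))

noncomputable def b12 : Matrix (Z2 N) (Z2 N) ℂ :=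
  (I / 2) • (sft N 0 1 - sft N 0 0 + sft N (-1) 0 + sft N (-1) 1)

noncomputable def b21 : Matrix (Z2 N) (Z2 N) ℂ :=
  (-I / 2) • (sft N 0 (-1) - sft N 0 0 + sft N 1 0 + sft N 1 (-1))

/-- the boundary operator. -/
def d2 : Matrix (Cell2 N) (Cell2 N) ℂ := lift2 N fun
  | (false, false), (true, false) => sft N 1 0 - sft N 0 0
  | (false, false), (false, true) => sft N 0 1 - sft N 0 0
  | (false, true), (true, true) => sft N 1 0 - sft N 0 0
  | (true, false), (true, true) => sft N 0 0 - sft N 0 1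
  | _, _ => 0

/-- the strict hermitian duality: hyperbolic on degrees `0, 2` and `β` on degree `1`. -/
noncomputable def S2 : Matrix (Cell2 N) (Cell2 N) ℂ := lift2 N fun
  | (false, false), (true, true) => I • sft N 0 0
  | (true, true), (false, false) => (-I) • sft N 0 0
  | (true, false), (true, false) => -sinW N
  | (true, false), (false, true) => b12 N
  | (false, true), (true, false) => b21 N
  | (false, true), (false, true) => sinZ N
  | _, _ => 0

/-- the inverse of `S2` (`det β = -1`). -/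
noncomputable def S2' : Matrix (Cell2 N) (Cell2 N) ℂ := lift2 N fun
  | (false, false), (true, true) => I • sft N 0 0
  | (true, true), (false, false) => (-I) • sft N 0 0
  | (true, false), (true, false) => -sinZ N
  | (true, false), (false, true) => b12 N
  | (false, true), (true, false) => b21 N
  | (false, true), (false, true) => sinW N
  | _, _ => 0

/-- the sup distance on the discrete two-torus. -/
def dist2 (x y : Z2 N) : ℕ := max (x.1 - y.1).valMinAbs.natAbs (x.2 - y.2).valMinAbs.natAbs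

/-- the standard double cut. -/
noncomputable def cut2 : Cut (Z2 N) :=
  (fun x => if 0 < x.1.valMinAbs then 1 else 0, fun x => if 0 < x.2.valMinAbs then I else -I)

/-- the standard square. -/
def K2 (M : ℕ) (x : Z2 N) : Prop := x.1.valMinAbs.natAbs ≤ M ∧ x.2.valMinAbs.natAbs ≤ M

end two

/-- Kronecker product of a family. -/
def piKron {κ α : Type*} [Fintype κ] (M : κ → Matrix α α ℂ) : Matrix (κ → α) (κ → α) ℂ :=
  fun x y => ∏ j, M j (x j) (y j)

def vtx {k N : ℕ} (c : Cell k N) : Vtx k N := fun j => (c j).1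

def tdist {k N : ℕ} (x y : Vtx k N) : ℕ := Finset.univ.sup fun j => dist2 N (x j) (y j)

noncomputable def SK (k N : ℕ) : Matrix (Cell k N) (Cell k N) ℂ := piKron fun _ => S2 N

noncomputable def SK' (k N : ℕ) : Matrix (Cell k N) (Cell k N) ℂ := piKron fun _ => S2' N

noncomputable def cutsStd (k N : ℕ) : List (Cut (Vtx k N)) :=
  List.ofFn fun j : Fin k => (fun x => (cut2 N).1 (x j), fun x => (cut2 N).2 (x j))

def Kstd (k N M : ℕ) (x : Vtx k N) : Prop := ∀ j, K2 N M (x j)

/-- Positions of the vertices of a grid of mesh `η`. -/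
structure Pos (V E : Type*) [NormedAddCommGroup E] (dist : V → V → ℕ) (η : ℝ) where
  pos : V → E
  le : ∀ x y, ‖pos x‖ ≤ 1 → dist x y * η ≤ 1 → ‖pos x - pos y‖ ≤ dist x y * η
  ge : ∀ x y, dist x y * η ≤ ‖pos x - pos y‖
  round : ∀ v : E, ‖v‖ ≤ 2 → ∃ y, ‖pos y - v‖ ≤ η

theorem dist2_self (N : ℕ) (x : Z2 N) : dist2 N x x = 0 := by simp [dist2]

theorem dist2_comm (N : ℕ) (x y : Z2 N) : dist2 N x y = dist2 N y x := by
  unfold dist2
  rw [← neg_sub x.1 y.1, ← neg_sub x.2 y.2, ZMod.natAbs_valMinAbs_neg, ZMod.natAbs_valMinAbs_neg]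

theorem natAbs_valMinAbs_tri {N : ℕ} (a b c : ZMod N) :
    (a - c).valMinAbs.natAbs ≤ (a - b).valMinAbs.natAbs + (b - c).valMinAbs.natAbs := by
  have h := ZMod.natAbs_valMinAbs_add_le (a - b) (b - c)
  rw [sub_add_sub_cancel] at h
  exact h.trans (Int.natAbs_add_le _ _)

theorem dist2_tri (N : ℕ) (x y z : Z2 N) : dist2 N x z ≤ dist2 N x y + dist2 N y z := by
  unfold dist2
  have h1 := natAbs_valMinAbs_tri x.1 y.1 z.1
  have h2 := natAbs_valMinAbs_tri x.2 y.2 z.2
  omega

theorem tdist_le_iff {k N : ℕ} {x y : Vtx k N} {r : ℕ} :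
    tdist x y ≤ r ↔ ∀ j, dist2 N (x j) (y j) ≤ r := by
  simp [tdist, Finset.sup_le_iff]

theorem tdist_self {k N : ℕ} (x : Vtx k N) : tdist x x = 0 :=
  Nat.le_zero.1 (tdist_le_iff.2 fun _ => (dist2_self N _).le)

theorem tdist_comm {k N : ℕ} (x y : Vtx k N) : tdist x y = tdist y x := by
  unfold tdist; congr 1; funext j; exact dist2_comm N _ _

theorem tdist_tri {k N : ℕ} (x y z : Vtx k N) : tdist x z ≤ tdist x y + tdist y z :=
  tdist_le_iff.2 fun j => (dist2_tri N _ (y j) _).trans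
    (add_le_add (tdist_le_iff.1 le_rfl j) (tdist_le_iff.1 le_rfl j))

/-- no wrapping around away from the seam. -/
theorem valMinAbs_sub_of_lt {N : ℕ} [NeZero N] (a b : ZMod N)
    (h : 2 * (a.valMinAbs.natAbs + (a - b).valMinAbs.natAbs) < N) :
    b.valMinAbs = a.valMinAbs - (a - b).valMinAbs := by
  have hb : b = ((a.valMinAbs - (a - b).valMinAbs : ℤ) : ZMod N) := by push_cast; simp
  rw [ZMod.valMinAbs_spec]
  refine ⟨hb, ?_, ?_⟩ <;> omega

/-! Realise the equation lemmas once, in the defining file. -/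

theorem anchor_GridDefs_1 : type_of% @sft.eq_1 := @sft.eq_1
theorem anchor_GridDefs_2 : type_of% @lift2.eq_1 := @lift2.eq_1
theorem anchor_GridDefs_3 : type_of% @sinZ.eq_1 := @sinZ.eq_1
theorem anchor_GridDefs_4 : type_of% @sinW.eq_1 := @sinW.eq_1
theorem anchor_GridDefs_5 : type_of% @b12.eq_1 := @b12.eq_1
theorem anchor_GridDefs_6 : type_of% @b21.eq_1 := @b21.eq_1
theorem anchor_GridDefs_7 : type_of% @d2.eq_1 := @d2.eq_1
theorem anchor_GridDefs_8 : type_of% @S2.eq_1 := @S2.eq_1
theorem anchor_GridDefs_9 : type_of% @S2'.eq_1 := @S2'.eq_1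
theorem anchor_GridDefs_10 : type_of% @dist2.eq_1 := @dist2.eq_1
theorem anchor_GridDefs_11 : type_of% @cut2.eq_1 := @cut2.eq_1
theorem anchor_GridDefs_12 : type_of% @K2.eq_1 := @K2.eq_1
theorem anchor_GridDefs_13 : type_of% @piKron.eq_1 := @piKron.eq_1
theorem anchor_GridDefs_14 : type_of% @vtx.eq_1 := @vtx.eq_1
theorem anchor_GridDefs_15 : type_of% @tdist.eq_1 := @tdist.eq_1
theorem anchor_GridDefs_16 : type_of% @SK.eq_1 := @SK.eq_1
theorem anchor_GridDefs_17 : type_of% @SK'.eq_1 := @SK'.eq_1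
theorem anchor_GridDefs_18 : type_of% @cutsStd.eq_1 := @cutsStd.eq_1
theorem anchor_GridDefs_19 : type_of% @Kstd.eq_1 := @Kstd.eq_1
theorem anchor_GridDefs_20 : type_of% @sft.eq_def := @sft.eq_def
theorem anchor_GridDefs_21 : type_of% @lift2.eq_def := @lift2.eq_def
theorem anchor_GridDefs_22 : type_of% @sinZ.eq_def := @sinZ.eq_def
theorem anchor_GridDefs_23 : type_of% @sinW.eq_def := @sinW.eq_def
theorem anchor_GridDefs_24 : type_of% @b12.eq_def := @b12.eq_def
theorem anchor_GridDefs_25 : type_of% @b21.eq_def := @b21.eq_def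
theorem anchor_GridDefs_26 : type_of% @d2.eq_def := @d2.eq_def
theorem anchor_GridDefs_27 : type_of% @S2.eq_def := @S2.eq_def
theorem anchor_GridDefs_28 : type_of% @S2'.eq_def := @S2'.eq_def
theorem anchor_GridDefs_29 : type_of% @dist2.eq_def := @dist2.eq_def
theorem anchor_GridDefs_30 : type_of% @cut2.eq_def := @cut2.eq_def
theorem anchor_GridDefs_31 : type_of% @K2.eq_def := @K2.eq_def
theorem anchor_GridDefs_32 : type_of% @piKron.eq_def := @piKron.eq_def
theorem anchor_GridDefs_33 : type_of% @vtx.eq_def := @vtx.eq_def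
theorem anchor_GridDefs_34 : type_of% @tdist.eq_def := @tdist.eq_def
theorem anchor_GridDefs_35 : type_of% @SK.eq_def := @SK.eq_def
theorem anchor_GridDefs_36 : type_of% @SK'.eq_def := @SK'.eq_def
theorem anchor_GridDefs_37 : type_of% @cutsStd.eq_def := @cutsStd.eq_def
theorem anchor_GridDefs_38 : type_of% @Kstd.eq_def := @Kstd.eq_def

end Crest.Agent.R217
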