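import Crest.Agent.R217.GridDefs

/-! # Row 217: powers of an even dimensional grid -/

set_option autoImplicit false

namespace Crest.Agent.R217

open Matrix Complex

theorem piKron_mul {κ α : Type*} [Fintype κ] [DecidableEq κ] [Fintype α]
    (M M' : κ → Matrix α α ℂ) : piKron M * piKron M' = piKron fun j => M j * M' j := by
  classical
  ext x z
  simp only [piKron, Matrix.mul_apply, ← Finset.prod_mul_distrib]
  rw [Finset.prod_univ_sum, Fintype.piFinset_univ]

theorem piKron_one {κ α : Type*} [Fintype κ] [DecidableEq α] :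
    piKron (fun _ : κ => (1 : Matrix α α ℂ)) = 1 := by
  classical
  ext x y
  simp only [piKron, Matrix.one_apply]
  by_cases h : x = y
  · simp [h]
  · rw [if_neg h]
    obtain ⟨j, hj⟩ := Function.ne_iff.1 h
    exact Finset.prod_eq_zero (Finset.mem_univ j) (if_neg hj)

theorem piKron_conjTranspose {κ α : Type*} [Fintype κ] (M : κ → Matrix α α ℂ) :
    (piKron M)ᴴ = piKron fun j => (M j)ᴴ := by
  ext x y
  simp only [piKron, conjTranspose_apply, star_prod]

namespace GP

section Kron
variable {κ α : Type*} [Fintype κ]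

theorem zero_slot {M : κ → Matrix α α ℂ} (j : κ) (h : M j = 0) : piKron M = 0 := by
  ext x y
  exact Finset.prod_eq_zero (Finset.mem_univ j) (by simp [h])

theorem add_slot {M M' M'' : κ → Matrix α α ℂ} (j : κ) (h : ∀ i, i ≠ j → M' i = M i)
    (h' : ∀ i, i ≠ j → M'' i = M i) (x y : κ → α)
    (e : M j (x j) (y j) + M' j (x j) (y j) = M'' j (x j) (y j)) :
    piKron M x y + piKron M' x y = piKron M'' x y := by
  classical
  simp only [piKron]
  rw [← Finset.mul_prod_erase _ _ (Finset.mem_univ j),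
    ← Finset.mul_prod_erase _ _ (Finset.mem_univ j),
    ← Finset.mul_prod_erase _ (fun i => M'' i (x i) (y i)) (Finset.mem_univ j), ← e, add_mul]
  congr 2
  · exact Finset.prod_congr rfl fun i hi => by rw [h' i (Finset.ne_of_mem_erase hi)]
  · exact Finset.prod_congr rfl fun i hi => by
      rw [h' i (Finset.ne_of_mem_erase hi), h i (Finset.ne_of_mem_erase hi)]

theorem add_slot_zero {M M' : κ → Matrix α α ℂ} (j : κ) (h : ∀ i, i ≠ j → M' i = M i)
    (e : M j + M' j = 0) : piKron M + piKron M' = 0 := by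
  classical
  rw [← zero_slot (M := Function.update M j 0) j (by simp)]
  ext x y
  refine add_slot j h (fun i hi => by simp [hi]) x y ?_
  rw [← Matrix.add_apply, e]
  simp

theorem vecMul_piKron [DecidableEq κ] [Fintype α] (u : κ → α → ℂ) (M : κ → Matrix α α ℂ) :
    (fun x : κ → α => ∏ j, u j (x j)) ᵥ* piKron M = fun y => ∏ j, (u j ᵥ* M j) (y j) := by
  classical
  funext y
  simp only [piKron, vecMul, dotProduct, ← Finset.prod_mul_distrib]
  rw [Finset.prod_univ_sum, Fintype.piFinset_univ]

theorem piKron_mulVec [DecidableEq κ] [Fintype α] (u : κ → α → ℂ) (M : κ → Matrix α α ℂ) :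
    piKron M *ᵥ (fun x : κ → α => ∏ j, u j (x j)) = fun y => ∏ j, (M j *ᵥ u j) (y j) := by
  classical
  funext y
  simp only [piKron, mulVec, dotProduct, ← Finset.prod_mul_distrib]
  rw [Finset.prod_univ_sum, Fintype.piFinset_univ]

theorem ne_zero_slot {M : κ → Matrix α α ℂ} {x y : κ → α} (h : piKron M x y ≠ 0) (j : κ) :
    M j (x j) (y j) ≠ 0 :=
  Finset.prod_ne_zero_iff.1 h j (Finset.mem_univ j)

theorem sum_succ {f g : κ → ℕ} (j : κ) (h : ∀ i, i ≠ j → f i = g i) (e : f j = g j + 1) :
    ∑ i, f i = ∑ i, g i + 1 := by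
  classical
  rw [← Finset.add_sum_erase _ _ (Finset.mem_univ j), ← Finset.add_sum_erase _ g (Finset.mem_univ j),
    e, Finset.sum_congr rfl fun i hi => h i (Finset.ne_of_mem_erase hi)]
  ring

end Kron

/-- three part family -/
def tri {k : ℕ} {β : Type*} (j : Fin k) (A B C : Fin k → β) : Fin k → β :=
  fun i => if i < j then A i else if i = j then B i else C i

theorem tri_lt {k : ℕ} {β : Type*} {i j : Fin k} (A B C : Fin k → β) (h : i < j) :
    tri j A B C i = A i := if_pos h

theorem tri_self {k : ℕ} {β : Type*} (j : Fin k) (A B C : Fin k → β) : tri j A B C j = B j := by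
  simp [tri]

theorem tri_gt {k : ℕ} {β : Type*} {i j : Fin k} (A B C : Fin k → β) (h : j < i) :
    tri j A B C i = C i := by
  rw [tri, if_neg (not_lt.2 h.le), if_neg h.ne']

theorem sum_antisymm {k : ℕ} {β : Type*} [AddCommGroup β] [Module ℂ β] (X : Fin k → Fin k → β)
    (h : ∀ j l, X j l + X l j = 0) : ∑ j, ∑ l, X j l = 0 := by
  have h2 : (2 : ℂ) • ∑ j, ∑ l, X j l = 0 := by
    rw [two_smul]
    conv_lhs => rw [Finset.sum_comm, Finset.sum_comm (f := fun l j => X j l)]
    nth_rewrite 2 [Finset.sum_comm]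
    simp only [← Finset.sum_add_distrib, h, Finset.sum_const_zero]
  exact (smul_eq_zero.1 h2).resolve_left two_ne_zero

variable {α V : Type} [Fintype α] [DecidableEq α] {n ρmax : ℕ} (g : Grid α V n ρmax)

/-- the grading operator -/
noncomputable def γ : Matrix α α ℂ := diagonal fun i => (-1) ^ g.deg i

/-- projection onto the base point -/
noncomputable def p (a : V) : Matrix α α ℂ := fun i j => if i = g.pt a ∧ g.deg j = 0 then 1 else 0

theorem γ_ne {i j : α} (h : γ g i j ≠ 0) : i = j := by
  by_contra h0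
  exact h (diagonal_apply_ne _ h0)

theorem γγ : γ g * γ g = 1 := by
  rw [γ, diagonal_mul_diagonal, ← diagonal_one]
  congr 1
  funext i
  rw [← mul_pow]; simp

theorem γH : (γ g)ᴴ = γ g := by
  rw [γ, diagonal_conjTranspose]
  congr 1
  funext i
  simp

theorem γd : g.d * γ g + γ g * g.d = 0 := by
  ext i j
  rw [Matrix.add_apply, γ, mul_diagonal, diagonal_mul]
  by_cases h : g.d i j = 0
  · simp [h]
  · rw [(g.d_supp i j h).1, pow_succ]
    simp only [Matrix.zero_apply]
    ring

theorem γh (a : V) : γ g * g.h a + g.h a * γ g = 0 := by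
  ext i j
  rw [Matrix.add_apply, γ, mul_diagonal, diagonal_mul]
  by_cases h : g.h a i j = 0
  · simp [h]
  · rw [(g.h_supp a i j h).1, pow_succ]
    simp only [Matrix.zero_apply]
    ring

theorem γS (hn : Even n) : g.S * γ g = γ g * g.S := by
  ext i j
  rw [γ, mul_diagonal, diagonal_mul]
  by_cases h : g.S i j = 0
  · simp [h]
  · have h1 := (g.S_supp i j h).1
    have h3 : Even (g.deg i + g.deg j) := by rw [h1]; exact hn
    rw [mul_comm]
    congr 1
    rcases Nat.even_or_odd (g.deg i) with h2 | h2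
    · rw [h2.neg_one_pow, Even.neg_one_pow ((Nat.even_add.1 h3).1 h2)]
    · rw [h2.neg_one_pow, Odd.neg_one_pow ((Nat.even_add'.1 h3).1 h2)]

theorem γp (a : V) : γ g * p g a = p g a := by
  ext i j
  rw [γ, diagonal_mul, p]
  split_ifs with h
  · rw [h.1, g.deg_pt]; simp
  · simp

theorem pγ (a : V) : p g a * γ g = p g a := by
  ext i j
  rw [γ, mul_diagonal, p]
  split_ifs with h
  · rw [h.2]; simp
  · simp

theorem dp (a : V) : g.d * p g a = 0 := by
  ext i j
  rw [Matrix.mul_apply]
  refine Finset.sum_eq_zero fun t _ => ?_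
  rw [p]
  split_ifs with h
  · by_contra h0
    have := (g.d_supp i t (left_ne_zero_of_mul h0)).1
    rw [h.1, g.deg_pt] at this
    omega
  · simp

theorem pd (a : V) : p g a * g.d = 0 := by
  ext i j
  rw [Matrix.mul_apply]
  by_cases h : i = g.pt a
  · have := congrFun g.eps_d j
    simp only [p, h, true_and]
    exact this
  · simp [p, h]

/-- the partial differentials -/
noncomputable def dj {k : ℕ} (j : Fin k) : Matrix (Fin k → α) (Fin k → α) ℂ :=
  piKron (tri j (fun _ => γ g) (fun _ => g.d) fun _ => 1)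

/-- the partial contractions -/
noncomputable def hj {k : ℕ} (a : Fin k → V) (j : Fin k) : Matrix (Fin k → α) (Fin k → α) ℂ :=
  piKron (tri j (fun i => p g (a i)) (fun i => g.h (a i)) fun _ => 1)

variable {k : ℕ}

theorem dj_anti (j l : Fin k) : dj g j * dj g l + dj g l * dj g j = 0 := by
  wlog hjl : j ≤ l generalizing j l
  · rw [add_comm]; exact this l j (le_of_not_ge hjl)
  rw [dj, dj, piKron_mul, piKron_mul]
  rcases hjl.eq_or_lt with rfl | hjl
  · rw [zero_slot j (by simp only [tri_self, g.dd]), add_zero]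
  · refine add_slot_zero j (fun i hi => ?_) ?_
    · rcases lt_or_gt_of_ne hi with h | h
      · rw [tri_lt _ _ _ h, tri_lt _ _ _ (h.trans hjl)]
      · rw [tri_gt _ _ _ h, Matrix.mul_one, Matrix.one_mul]
    · simp only [tri_self, tri_lt _ _ _ hjl, γd]

theorem dj_S (hn : Even n) (j : Fin k) :
    dj g j * piKron (fun _ => g.S) + piKron (fun _ => g.S) * (dj g j)ᴴ = 0 := by
  rw [dj, piKron_conjTranspose, piKron_mul, piKron_mul]
  refine add_slot_zero j (fun i hi => ?_) ?_
  · rcases lt_or_gt_of_ne hi with h | h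
    · rw [tri_lt _ _ _ h, γH, γS g hn]
    · rw [tri_gt _ _ _ h, conjTranspose_one, Matrix.mul_one, Matrix.one_mul]
  · simp only [tri_self, g.anti]

theorem dj_hj_ne (a : Fin k → V) {j l : Fin k} (hjl : j ≠ l) :
    dj g j * hj g a l + hj g a l * dj g j = 0 := by
  rw [dj, hj, piKron_mul, piKron_mul]
  rcases lt_or_gt_of_ne hjl with hjl | hjl
  · rw [zero_slot j (by simp only [tri_self, tri_lt _ _ _ hjl, dp]),
      zero_slot j (by simp only [tri_self, tri_lt _ _ _ hjl, pd]), add_zero]
  · refine add_slot_zero l (fun i hi => ?_) ?_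
    · rcases lt_or_gt_of_ne hi with h | h
      · rw [tri_lt _ _ _ h, tri_lt _ _ _ (h.trans hjl), γp, pγ]
      · rw [tri_gt _ _ _ h, Matrix.mul_one, Matrix.one_mul]
    · simp only [tri_self, tri_lt _ _ _ hjl, γh]

/-- partial projections -/
noncomputable def U (a : Fin k → V) (m : ℕ) : Matrix (Fin k → α) (Fin k → α) ℂ :=
  piKron fun i => if i.val < m then p g (a i) else 1

theorem dj_hj_self (a : Fin k → V) (j : Fin k) (x y : Fin k → α)
    (hy : g.dist (g.vtx (y j)) (a j) ≤ ρmax) :
    (dj g j * hj g a j + hj g a j * dj g j) x y = U g a j x y - U g a (j + 1) x y := by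
  rw [dj, hj, piKron_mul, piKron_mul, Matrix.add_apply, eq_sub_iff_add_eq,
    add_slot (M'' := tri j (fun i => p g (a i)) (fun i => g.d * g.h (a i) + g.h (a i) * g.d)
      fun _ => 1) j, U, U]
  · refine add_slot j (fun i hi => ?_) (fun i hi => ?_) x y ?_
    · rcases lt_or_gt_of_ne hi with h | h
      · rw [tri_lt _ _ _ h, if_pos (show i.val < j + 1 from Nat.lt_succ_of_lt h)]
      · rw [tri_gt _ _ _ h, if_neg (show ¬ i.val < j + 1 from not_lt.2 h)]
    · rcases lt_or_gt_of_ne hi with h | h
      · rw [tri_lt _ _ _ h, if_pos (show i.val < j from h)]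
      · rw [tri_gt _ _ _ h, if_neg (show ¬ i.val < j from not_lt.2 h.le)]
    · rw [tri_self, g.h_id _ _ hy, if_pos (Nat.lt_succ_self _), if_neg (lt_irrefl _), p,
        sub_add_cancel]
  · intro i hi
    rcases lt_or_gt_of_ne hi with h | h
    · rw [tri_lt _ _ _ h, tri_lt _ _ _ h, γp, pγ]
    · rw [tri_gt _ _ _ h, tri_gt _ _ _ h]
  · intro i hi
    rcases lt_or_gt_of_ne hi with h | h
    · rw [tri_lt _ _ _ h, tri_lt _ _ _ h, tri_lt _ _ _ h, γp]
    · rw [tri_gt _ _ _ h, tri_gt _ _ _ h, tri_gt _ _ _ h, Matrix.mul_one]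
  · simp only [tri_self, Matrix.add_apply]

theorem h_id (a : Fin k → V) (y : Fin k → α) (hy : ∀ j, g.dist (g.vtx (y j)) (a j) ≤ ρmax)
    (x : Fin k → α) :
    ((∑ j, dj g j) * (∑ j, hj g a j) + (∑ j, hj g a j) * ∑ j, dj g j :
      Matrix (Fin k → α) (Fin k → α) ℂ) x y =
      (1 : Matrix _ _ ℂ) x y -
        if (x = fun j => g.pt (a j)) ∧ ∑ j, g.deg (y j) = 0 then 1 else 0 := by
  have e1 : (∑ j, dj g j) * (∑ j, hj g a j) + (∑ j, hj g a j) * ∑ j, dj g j =
      ∑ j, (dj g j * hj g a j + hj g a j * dj g j) := by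
    rw [Finset.sum_mul_sum, Finset.sum_mul_sum, Finset.sum_comm (f := fun l j => hj g a l * dj g j),
      ← Finset.sum_add_distrib]
    refine Finset.sum_congr rfl fun j _ => ?_
    rw [← Finset.sum_add_distrib, Finset.sum_eq_single j (fun l _ hl => dj_hj_ne g a hl.symm)
      (by simp)]
  rw [e1, Matrix.sum_apply, Finset.sum_congr rfl fun j _ => dj_hj_self g a j x y (hy j),
    Fin.sum_univ_eq_sum_range (fun m => U g a m x y - U g a (m + 1) x y), Finset.sum_range_sub']
  congr 1
  · rw [U, ← piKron_one]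
    simp
  · simp only [U, piKron, Fin.is_lt, if_true, p]
    rw [Finset.prod_ite_zero, Finset.prod_const_one]
    congr 1
    simp [funext_iff, forall_and]

theorem eps_eq : (fun x : Fin k → α => if ∑ j, g.deg (x j) = 0 then (1 : ℂ) else 0) =
    fun x => ∏ j, (fun i => if g.deg i = 0 then (1 : ℂ) else 0) (x j) := by
  funext x
  simp only
  rw [Finset.prod_ite_zero, Finset.prod_const_one]
  congr 1
  simp

theorem mu_eq : (fun x : Fin k → α => if ∑ j, g.deg (x j) = k * n then (1 : ℂ) else 0) =
    fun x => ∏ j, (fun i => if g.deg i = n then (1 : ℂ) else 0) (x j) := by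
  funext x
  simp only
  rw [Finset.prod_ite_zero, Finset.prod_const_one]
  congr 1
  have : k * n = ∑ _j : Fin k, n := by simp
  rw [this, Finset.sum_eq_sum_iff_of_le fun j _ => g.deg_le (x j)]

/-- the power of a grid -/
noncomputable def pow (hn : Even n) (k : ℕ) : Grid (Fin k → α) (Fin k → V) (k * n) ρmax where
  dist := fun x y => Finset.univ.sup fun j => g.dist (x j) (y j)
  dist_self := fun a => by simp [g.dist_self]
  dist_comm := fun a b => by simp only [g.dist_comm]
  dist_tri := fun a b c => Finset.sup_le fun j hj => (g.dist_tri _ (b j) _).trans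
    (add_le_add (Finset.le_sup (f := fun j => g.dist (a j) (b j)) hj)
      (Finset.le_sup (f := fun j => g.dist (b j) (c j)) hj))
  vtx := fun c j => g.vtx (c j)
  deg := fun c => ∑ j, g.deg (c j)
  deg_le := fun c => (Finset.sum_le_sum fun j _ => g.deg_le (c j)).trans (by simp)
  d := ∑ j, dj g j
  S := piKron fun _ => g.S
  S' := piKron fun _ => g.S'
  d_supp := by
    intro x y h
    rw [Matrix.sum_apply] at h
    obtain ⟨j, _, hj⟩ := Finset.exists_ne_zero_of_sum_ne_zero h
    have h1 : ∀ i, i ≠ j → x i = y i := by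
      intro i hi
      have := ne_zero_slot hj i
      rcases lt_or_gt_of_ne hi with h | h
      · rw [tri_lt _ _ _ h] at this
        exact γ_ne g this
      · rw [tri_gt _ _ _ h] at this
        by_contra h0
        exact this (Matrix.one_apply_ne h0)
    have h2 := ne_zero_slot hj j
    rw [tri_self] at h2
    refine ⟨sum_succ j (fun i hi => by rw [h1 i hi]) (g.d_supp _ _ h2).1,
      Finset.sup_le fun i _ => ?_⟩
    by_cases hi : i = j
    · rw [hi]; exact (g.d_supp _ _ h2).2
    · simp only [h1 i hi, g.dist_self]; exact Nat.zero_le _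
  S_supp := by
    intro x y h
    refine ⟨?_, Finset.sup_le fun i _ => (g.S_supp _ _ (ne_zero_slot h i)).2⟩
    rw [← Finset.sum_add_distrib,
      Finset.sum_congr rfl fun i _ => (g.S_supp _ _ (ne_zero_slot h i)).1]
    simp
  S'_supp := fun x y h => Finset.sup_le fun i _ => g.S'_supp _ _ (ne_zero_slot h i)
  dd := by
    rw [Finset.sum_mul_sum]
    exact sum_antisymm _ (dj_anti g)
  hS := ⟨by rw [IsHermitian, piKron_conjTranspose, g.hS.hA.eq],
    by rw [IsHermitian, piKron_conjTranspose, g.hS.hB.eq],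
    by rw [piKron_mul, g.hS.mul, piKron_one]⟩
  anti := by
    rw [conjTranspose_sum, Finset.sum_mul, Finset.mul_sum, ← Finset.sum_add_distrib]
    exact Finset.sum_eq_zero fun j _ => dj_S g hn j
  eps_d := by
    rw [eps_eq, vecMul_sum]
    refine Finset.sum_eq_zero fun j _ => ?_
    rw [dj, vecMul_piKron fun _ i => if g.deg i = 0 then (1 : ℂ) else 0]
    funext y
    exact Finset.prod_eq_zero (Finset.mem_univ j) (by rw [tri_self, g.eps_d]; rfl)
  d_mu := by
    rw [mu_eq, sum_mulVec]
    refine Finset.sum_eq_zero fun j _ => ?_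
    rw [dj, piKron_mulVec fun _ i => if g.deg i = n then (1 : ℂ) else 0]
    funext y
    exact Finset.prod_eq_zero (Finset.mem_univ j) (by rw [tri_self, g.d_mu]; rfl)
  cS := g.cS ^ k
  eps_S := by
    rw [eps_eq, mu_eq, vecMul_piKron fun _ i => if g.deg i = 0 then (1 : ℂ) else 0, g.eps_S]
    funext y
    simp only [Pi.smul_apply, smul_eq_mul]
    rw [Finset.prod_mul_distrib]
    simp
  pt := fun a j => g.pt (a j)
  vtx_pt := fun a => by simp only [g.vtx_pt]
  deg_pt := fun a => by simp only [g.deg_pt, Finset.sum_const_zero]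
  h := fun a => ∑ j, hj g a j
  h_supp := by
    intro a x y h
    rw [Matrix.sum_apply] at h
    obtain ⟨j, _, hj⟩ := Finset.exists_ne_zero_of_sum_ne_zero h
    have h1 : ∀ i, i ≠ j → g.deg (x i) = g.deg (y i) ∧
        g.dist (g.vtx (x i)) (a i) ≤ g.dist (g.vtx (y i)) (a i) := by
      intro i hi
      have := ne_zero_slot hj i
      rcases lt_or_gt_of_ne hi with h | h
      · rw [tri_lt _ _ _ h, p] at this
        have h3 : x i = g.pt (a i) ∧ g.deg (y i) = 0 := by
          by_contra h0
          exact this (if_neg h0)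
        rw [h3.1, h3.2, g.deg_pt, g.vtx_pt, g.dist_self]
        exact ⟨rfl, Nat.zero_le _⟩
      · rw [tri_gt _ _ _ h] at this
        have h3 : x i = y i := by
          by_contra h0
          exact this (Matrix.one_apply_ne h0)
        rw [h3]
        exact ⟨rfl, le_rfl⟩
    have h2 := ne_zero_slot hj j
    rw [tri_self] at h2
    refine ⟨sum_succ j (fun i hi => (h1 i hi).1) (g.h_supp _ _ _ h2).1,
      Finset.sup_mono_fun fun i _ => ?_⟩
    by_cases hi : i = j
    · rw [hi]; exact (g.h_supp _ _ _ h2).2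
    · exact (h1 i hi).2
  h_id := fun a y hy x => h_id g a y
    (fun j => (Finset.le_sup (f := fun j => g.dist (g.vtx (y j)) (a j))
      (Finset.mem_univ j)).trans hy) x

end GP

theorem Grid.exists_pow {α V : Type} [Fintype α] [DecidableEq α] {n ρmax : ℕ}
    (g : Grid α V n ρmax) (hn : Even n) (k : ℕ) :
    ∃ g' : Grid (Fin k → α) (Fin k → V) (k * n) ρmax,
      (g'.dist = fun x y => Finset.univ.sup fun j => g.dist (x j) (y j)) ∧
      (g'.vtx = fun c j => g.vtx (c j)) ∧ (g'.S = piKron fun _ => g.S) ∧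
      (g'.S' = piKron fun _ => g.S') :=
  ⟨GP.pow g hn k, rfl, rfl, rfl, rfl⟩

end Crest.Agent.R217
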