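import Crest.Agent.R217.Sig
import Crest.Agent.R217.Cut

/-! # Row 217: formal properties of the index (no control needed) -/

set_option autoImplicit false

namespace Crest.Agent.R217

open Matrix Complex

namespace IndAux

section Conj

variable {ι κ : Type*} [Fintype ι] [DecidableEq ι] [Fintype κ] [DecidableEq κ]

/-- conjugation by `T`. -/
def cj (T : Matrix ι κ ℂ) (M : Matrix ι ι ℂ) : Matrix κ κ ℂ := Tᴴ * M * T

omit [DecidableEq κ] [Fintype κ] in
theorem cj_mul {T : Matrix ι κ ℂ} [Fintype κ] (h : T * Tᴴ = 1) (M N : Matrix ι ι ℂ) :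
    cj T (M * N) = cj T M * cj T N := by
  unfold cj
  calc Tᴴ * (M * N) * T = Tᴴ * M * (T * Tᴴ) * N * T := by
        rw [h, Matrix.mul_one, Matrix.mul_assoc Tᴴ M N]
    _ = Tᴴ * M * T * (Tᴴ * N * T) := by simp only [Matrix.mul_assoc]

omit [DecidableEq ι] [DecidableEq κ] [Fintype κ] in
theorem cj_star (T : Matrix ι κ ℂ) (M : Matrix ι ι ℂ) : cj T Mᴴ = (cj T M)ᴴ := by
  unfold cj
  simp only [conjTranspose_mul, conjTranspose_conjTranspose, Matrix.mul_assoc]

omit [DecidableEq ι] [DecidableEq κ] [Fintype κ] in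
theorem cj_neg (T : Matrix ι κ ℂ) (M : Matrix ι ι ℂ) : cj T (-M) = -cj T M := by
  unfold cj
  simp only [Matrix.mul_neg, Matrix.neg_mul]

omit [DecidableEq ι] [DecidableEq κ] [Fintype κ] in
theorem cj_zero (T : Matrix ι κ ℂ) : cj T 0 = 0 := by
  unfold cj
  simp only [Matrix.mul_zero, Matrix.zero_mul]

omit [Fintype κ] in
theorem cj_one {T : Matrix ι κ ℂ} (h : Tᴴ * T = 1) : cj T 1 = 1 := by
  unfold cj
  rw [Matrix.mul_one, h]

omit [DecidableEq ι] [DecidableEq κ] [Fintype κ] in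
theorem cj_fromBlocks (T : Matrix ι κ ℂ) (a b c d : Matrix ι ι ℂ) :
    cj (fromBlocks T 0 0 T) (fromBlocks a b c d) =
      fromBlocks (cj T a) (cj T b) (cj T c) (cj T d) := by
  unfold cj
  simp only [fromBlocks_conjTranspose, conjTranspose_zero, fromBlocks_multiply, Matrix.zero_mul,
    Matrix.mul_zero, add_zero, zero_add]

omit [Fintype κ] in
theorem cj_dg {X : Type*} {T : Matrix ι κ ℂ} [Fintype κ] (h : Tᴴ * T = 1) {b : ι → X} {b' : κ → X}
    (hb : ∀ i j, T i j ≠ 0 → b i = b' j) (f : X → ℂ) :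
    cj T (dg ℂ fun i => f (b i)) = dg ℂ fun j => f (b' j) := by
  have h1 : (dg ℂ fun i => f (b i)) * T = T * dg ℂ fun j => f (b' j) := by
    ext i j
    unfold dg
    rw [diagonal_mul, mul_diagonal]
    by_cases h0 : T i j = 0
    · simp [h0]
    · simp only [hb i j h0]
      exact mul_comm _ _
  unfold cj
  rw [Matrix.mul_assoc, h1, ← Matrix.mul_assoc, h, Matrix.one_mul]

omit [DecidableEq ι] [Fintype κ] in
theorem hat_l {T : Matrix ι κ ℂ} (h : Tᴴ * T = 1) :
    (fromBlocks T 0 0 T)ᴴ * fromBlocks T 0 0 T = 1 := by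
  simp only [fromBlocks_conjTranspose, conjTranspose_zero, fromBlocks_multiply, Matrix.zero_mul,
    Matrix.mul_zero, add_zero, zero_add, h, fromBlocks_one]

omit [Fintype ι] [DecidableEq κ] in
theorem hat_r {T : Matrix ι κ ℂ} (h : T * Tᴴ = 1) :
    fromBlocks T 0 0 T * (fromBlocks T 0 0 T)ᴴ = 1 := by
  simp only [fromBlocks_conjTranspose, conjTranspose_zero, fromBlocks_multiply, Matrix.zero_mul,
    Matrix.mul_zero, add_zero, zero_add, h, fromBlocks_one]

variable {X : Type*} {T : Matrix ι κ ℂ} {b : ι → X} {b' : κ → X}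

theorem cj_al (h : Tᴴ * T = 1) (h' : T * Tᴴ = 1) (hb : ∀ i j, T i j ≠ 0 → b i = b' j)
    (ρ : X → ℝ) (A B : Matrix ι ι ℂ) :
    cj (fromBlocks T 0 0 T) (al (ρ ∘ b) A B) = al (ρ ∘ b') (cj T A) (cj T B) := by
  have hc : ∀ M : Matrix ι ι ℂ, cj T (cmp (ρ ∘ b) M) = cmp (ρ ∘ b') (cj T M) := fun M => by
    unfold cmp
    rw [cj_mul h', cj_mul h']
    have := cj_dg h hb fun x => (ρ x : ℂ)
    simp only [Function.comp_apply]
    rw [this]
  have hp : ∀ M : Matrix ι ι ℂ, cj (fromBlocks T 0 0 T) (Ep M) = Ep (cj T M) := fun M => by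
    unfold Ep
    rw [cj_fromBlocks, cj_one h, cj_zero]
  have hm : ∀ M : Matrix ι ι ℂ, cj (fromBlocks T 0 0 T) (Em M) = Em (cj T M) := fun M => by
    unfold Em
    rw [cj_fromBlocks, cj_one h, cj_zero]
  unfold al al1
  simp only [cj_mul (hat_r h'), hp, hm, cj_neg, hc]

theorem cj_Bt (h : Tᴴ * T = 1) (hb : ∀ i j, T i j ≠ 0 → b i = b' j) (τ : X → ℂ) :
    cj (fromBlocks T 0 0 T) (Bt ℂ (τ ∘ b)) = Bt ℂ (τ ∘ b') := by
  unfold Bt
  rw [cj_fromBlocks, cj_zero]
  have h1 := cj_dg h hb τ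
  have h2 := cj_dg h hb fun x => star (τ x)
  simp only [Function.comp_apply]
  rw [h2]
  exact congrArg (fun M => fromBlocks 0 M _ 0) h1

theorem cj_cutA (h : Tᴴ * T = 1) (h' : T * Tᴴ = 1) (hb : ∀ i j, T i j ≠ 0 → b i = b' j)
    (ρ : X → ℝ) (τ : X → ℂ) (A B : Matrix ι ι ℂ) :
    cj (fromBlocks T 0 0 T) (cutA (ρ ∘ b) (τ ∘ b) A B) =
      cutA (ρ ∘ b') (τ ∘ b') (cj T A) (cj T B) := by
  unfold cutA
  rw [cj_mul (hat_r h'), cj_mul (hat_r h'), cj_star, cj_al h h' hb, cj_Bt h hb]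

theorem cj_cutB (h : Tᴴ * T = 1) (h' : T * Tᴴ = 1) (hb : ∀ i j, T i j ≠ 0 → b i = b' j)
    (ρ : X → ℝ) (τ : X → ℂ) (A B : Matrix ι ι ℂ) :
    cj (fromBlocks T 0 0 T) (cutB (ρ ∘ b) (τ ∘ b) A B) =
      cutB (ρ ∘ b') (τ ∘ b') (cj T A) (cj T B) := by
  unfold cutB
  rw [cj_mul (hat_r h'), cj_mul (hat_r h'), cj_star, cj_al h h' hb, cj_Bt h hb, cj_neg, cj_neg]

end Conj

/-- restricting the summation index of a product to a subtype. -/
theorem sub_mul {α β γ α' γ' : Type*} [Fintype β] (p : β → Prop) [Fintype {k // p k}]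
    (M : Matrix α β ℂ) (N : Matrix β γ ℂ) (f : α' → α) (g : γ' → γ)
    (h : ∀ a k c, ¬ p k → M (f a) k * N k (g c) = 0) :
    (M * N).submatrix f g =
      M.submatrix f (Subtype.val : {k // p k} → β) * N.submatrix Subtype.val g := by
  classical
  ext a c
  change ∑ k, M (f a) k * N k (g c) = ∑ k : {k // p k}, M (f a) k * N k (g c)
  rw [← Finset.sum_subtype (Finset.univ.filter p) (by simp) fun k => M (f a) k * N k (g c)]
  rw [Finset.sum_filter_of_ne]
  intro k _ hk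
  by_contra hp
  exact hk (h a k c hp)

theorem sigOn_cj {ι κ : Type*} [Fintype ι] [DecidableEq ι] [Fintype κ] [DecidableEq κ]
    {T : Matrix ι κ ℂ} (h : Tᴴ * T = 1) (h' : T * Tᴴ = 1) {p : ι → Prop} {p' : κ → Prop}
    (hb : ∀ i j, T i j ≠ 0 → (p i ↔ p' j)) (A : Matrix ι ι ℂ) :
    sigOn p' (cj T A) = sigOn p A := by
  classical
  rw [sigOn_eq p', sigOn_eq p]
  set T₁ : Matrix {i // p i} {j // p' j} ℂ := T.submatrix Subtype.val Subtype.val with hT₁
  have z1 : ∀ (j : {j // p' j}) (i : ι), ¬ p i → T i j = 0 := fun j i hi =>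
    by_contra fun h0 => hi ((hb i j h0).2 j.2)
  have z2 : ∀ (i : {i // p i}) (j : κ), ¬ p' j → T i j = 0 := fun i j hj =>
    by_contra fun h0 => hj ((hb i j h0).1 i.2)
  have e1 : cpr p' (cj T A) = T₁ᴴ * cpr p A * T₁ := by
    unfold cj cpr
    rw [sub_mul p (Tᴴ * A) T _ _ fun a k c hk => by rw [z1 c k hk, mul_zero],
      sub_mul p Tᴴ A _ _ fun a k c hk => by
        rw [conjTranspose_apply, z1 a k hk, star_zero, zero_mul]]
    rfl
  have e2 : T₁ * T₁ᴴ = 1 := by
    have := sub_mul p' T Tᴴ (Subtype.val : {i // p i} → ι) (Subtype.val : {i // p i} → ι)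
      fun a k c hk => by rw [z2 a k hk, zero_mul]
    rw [h', submatrix_one _ Subtype.val_injective] at this
    exact this.symm
  have e3 : T₁ᴴ * T₁ = 1 := by
    have := sub_mul p Tᴴ T (Subtype.val : {j // p' j} → κ) (Subtype.val : {j // p' j} → κ)
      fun a k c hk => by rw [z1 c k hk, mul_zero]
    rw [h, submatrix_one _ Subtype.val_injective] at this
    exact this.symm
  rw [e1]
  exact sig_congr _ T₁ T₁ᴴ e2 e3

theorem Ind_iso {X : Type*} (K : X → Prop) (L : List (Cut X)) :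
    ∀ {ι κ : Type} [Fintype ι] [DecidableEq ι] [Fintype κ] [DecidableEq κ] (b : ι → X) (b' : κ → X)
      (A B : Matrix ι ι ℂ) (T : Matrix ι κ ℂ), Tᴴ * T = 1 → T * Tᴴ = 1 →
      (∀ i j, T i j ≠ 0 → b i = b' j) → Ind K L b' (cj T A) (cj T B) = Ind K L b A B := by
  induction L with
  | nil =>
    intro ι κ _ _ _ _ b b' A B T h h' hb
    exact sigOn_cj h h' (fun i j h0 => by rw [hb i j h0]) A
  | cons q L ih =>
    intro ι κ _ _ _ _ b b' A B T h h' hb
    simp only [Ind]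
    rw [← cj_cutA h h' hb, ← cj_cutB h h' hb]
    refine ih _ _ _ _ _ (hat_l h) (hat_r h') ?_
    rintro (i | i) (j | j) h0
    · exact hb i j h0
    · exact (h0 rfl).elim
    · exact (h0 rfl).elim
    · exact hb i j h0

section Neg

variable {ι : Type*} [Fintype ι] [DecidableEq ι]

/-- the sign matrix. -/
def kap (ι : Type*) [DecidableEq ι] : Matrix (ι ⊕ ι) (ι ⊕ ι) ℂ := fromBlocks 1 0 0 (-1)

omit [Fintype ι] in
theorem kap_star : (kap ι)ᴴ = kap ι := by
  unfold kap
  simp only [fromBlocks_conjTranspose, conjTranspose_zero, conjTranspose_one, conjTranspose_neg]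

theorem kap_l : (kap ι)ᴴ * kap ι = 1 := by
  rw [kap_star]
  unfold kap
  simp only [fromBlocks_multiply, Matrix.zero_mul, Matrix.mul_zero, add_zero, zero_add,
    Matrix.mul_one, neg_mul_neg, fromBlocks_one]

theorem kap_r : kap ι * (kap ι)ᴴ = 1 := by
  have := kap_l (ι := ι)
  rwa [kap_star] at this ⊢

theorem cj_kap (a b c d : Matrix ι ι ℂ) :
    cj (kap ι) (fromBlocks a b c d) = fromBlocks a (-b) (-c) d := by
  unfold cj
  rw [kap_star]
  unfold kap
  simp only [fromBlocks_multiply, Matrix.zero_mul, Matrix.mul_zero, add_zero, zero_add,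
    Matrix.mul_one, Matrix.one_mul, Matrix.mul_neg, Matrix.neg_mul, neg_neg]

theorem kap_al (ρ : ι → ℝ) (A B : Matrix ι ι ℂ) :
    cj (kap ι) (al ρ A B) = al ρ (-A) (-B) := by
  have hc : ∀ M : Matrix ι ι ℂ, cmp ρ (-M) = -cmp ρ M := fun M => by
    unfold cmp
    simp only [Matrix.mul_neg, Matrix.neg_mul]
  have hp : ∀ M : Matrix ι ι ℂ, cj (kap ι) (Ep M) = Ep (-M) := fun M => by
    unfold Ep
    rw [cj_kap, neg_zero]
  have hm : ∀ M : Matrix ι ι ℂ, cj (kap ι) (Em M) = Em (-M) := fun M => by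
    unfold Em
    rw [cj_kap, neg_zero]
  unfold al al1
  simp only [cj_mul kap_r, hp, hm, hc]

theorem kap_Bt (τ : ι → ℂ) : cj (kap ι) (Bt ℂ τ) = -Bt ℂ τ := by
  unfold Bt
  rw [cj_kap, fromBlocks_neg, neg_zero]

theorem cutA_neg (ρ : ι → ℝ) (τ : ι → ℂ) (A B : Matrix ι ι ℂ) :
    cutA ρ τ (-A) (-B) = -cj (kap ι) (cutA ρ τ A B) := by
  unfold cutA
  rw [cj_mul kap_r, cj_mul kap_r, cj_star, kap_al, kap_Bt]
  simp only [Matrix.mul_neg, Matrix.neg_mul, neg_neg]

theorem cutB_neg (ρ : ι → ℝ) (τ : ι → ℂ) (A B : Matrix ι ι ℂ) :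
    cutB ρ τ (-A) (-B) = -cj (kap ι) (cutB ρ τ A B) := by
  unfold cutB
  rw [cj_mul kap_r, cj_mul kap_r, cj_star, kap_al, kap_Bt]
  simp only [Matrix.mul_neg, Matrix.neg_mul, neg_neg]

end Neg

section Blocks

variable {ι κ : Type*} [Fintype ι] [DecidableEq ι] [Fintype κ] [DecidableEq κ]

/-- the shuffled direct sum. -/
def sh (M : Matrix (ι ⊕ ι) (ι ⊕ ι) ℂ) (M' : Matrix (κ ⊕ κ) (κ ⊕ κ) ℂ) :
    Matrix ((ι ⊕ κ) ⊕ (ι ⊕ κ)) ((ι ⊕ κ) ⊕ (ι ⊕ κ)) ℂ :=
  (fromBlocks M 0 0 M').submatrix (Equiv.sumSumSumComm ι κ ι κ) (Equiv.sumSumSumComm ι κ ι κ)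

omit [DecidableEq ι] [DecidableEq κ] in
theorem sh_mul (M N : Matrix (ι ⊕ ι) (ι ⊕ ι) ℂ) (M' N' : Matrix (κ ⊕ κ) (κ ⊕ κ) ℂ) :
    sh (M * N) (M' * N') = sh M M' * sh N N' := by
  unfold sh
  rw [submatrix_mul_equiv]
  simp only [fromBlocks_multiply, Matrix.zero_mul, Matrix.mul_zero, add_zero, zero_add]

omit [DecidableEq ι] [DecidableEq κ] [Fintype ι] [Fintype κ] in
theorem sh_star (M : Matrix (ι ⊕ ι) (ι ⊕ ι) ℂ) (M' : Matrix (κ ⊕ κ) (κ ⊕ κ) ℂ) :
    sh Mᴴ M'ᴴ = (sh M M')ᴴ := by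
  unfold sh
  rw [conjTranspose_submatrix, fromBlocks_conjTranspose, conjTranspose_zero, conjTranspose_zero]

omit [DecidableEq ι] [DecidableEq κ] [Fintype ι] [Fintype κ] in
theorem sh_fromBlocks (a b c d : Matrix ι ι ℂ) (a' b' c' d' : Matrix κ κ ℂ) :
    sh (fromBlocks a b c d) (fromBlocks a' b' c' d') =
      fromBlocks (fromBlocks a 0 0 a') (fromBlocks b 0 0 b') (fromBlocks c 0 0 c')
        (fromBlocks d 0 0 d') := by
  ext ((i | i) | (i | i)) ((j | j) | (j | j)) <;> rfl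

omit [Fintype ι] [Fintype κ] in
theorem dg_elim {X : Type*} (b : ι → X) (b' : κ → X) (f : X → ℂ) :
    (dg ℂ fun i => f (Sum.elim b b' i)) =
      fromBlocks (dg ℂ fun i => f (b i)) 0 0 (dg ℂ fun i => f (b' i)) := by
  unfold dg
  rw [fromBlocks_diagonal]
  congr 1
  funext i
  rcases i with i | i <;> rfl

variable {X : Type*} (b : ι → X) (b' : κ → X)

theorem sh_al (ρ : X → ℝ) (A B : Matrix ι ι ℂ) (A' B' : Matrix κ κ ℂ) :
    sh (al (ρ ∘ b) A B) (al (ρ ∘ b') A' B') =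
      al (ρ ∘ Sum.elim b b') (fromBlocks A 0 0 A') (fromBlocks B 0 0 B') := by
  have hc : ∀ (M : Matrix ι ι ℂ) (M' : Matrix κ κ ℂ),
      cmp (ρ ∘ Sum.elim b b') (fromBlocks M 0 0 M') =
        fromBlocks (cmp (ρ ∘ b) M) 0 0 (cmp (ρ ∘ b') M') := fun M M' => by
    unfold cmp
    have := dg_elim b b' fun x => (ρ x : ℂ)
    simp only [Function.comp_apply]
    rw [this]
    simp only [fromBlocks_multiply, Matrix.zero_mul, Matrix.mul_zero, add_zero, zero_add]
  have hp : ∀ (M : Matrix ι ι ℂ) (M' : Matrix κ κ ℂ),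
      sh (Ep (-M)) (Ep (-M')) = Ep (-fromBlocks M 0 0 M') := fun M M' => by
    unfold Ep
    rw [sh_fromBlocks, fromBlocks_one, fromBlocks_zero, fromBlocks_neg, neg_zero, neg_zero]
  have hm : ∀ (M : Matrix ι ι ℂ) (M' : Matrix κ κ ℂ),
      sh (Em M) (Em M') = Em (fromBlocks M 0 0 M') := fun M M' => by
    unfold Em
    rw [sh_fromBlocks, fromBlocks_one, fromBlocks_zero]
  unfold al al1
  simp only [sh_mul, hp, hm, hc]

omit [Fintype ι] [Fintype κ] in
theorem sh_Bt (τ : X → ℂ) :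
    sh (Bt ℂ (τ ∘ b)) (Bt ℂ (τ ∘ b')) = Bt ℂ (τ ∘ Sum.elim b b') := by
  unfold Bt
  rw [sh_fromBlocks, fromBlocks_zero]
  have h1 := dg_elim b b' τ
  have h2 := dg_elim b b' fun x => star (τ x)
  simp only [Function.comp_apply]
  rw [h2]
  exact congrArg (fun M => fromBlocks 0 M _ 0) h1.symm

theorem sh_cutA (ρ : X → ℝ) (τ : X → ℂ) (A B : Matrix ι ι ℂ) (A' B' : Matrix κ κ ℂ) :
    cutA (ρ ∘ Sum.elim b b') (τ ∘ Sum.elim b b') (fromBlocks A 0 0 A') (fromBlocks B 0 0 B') =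
      sh (cutA (ρ ∘ b) (τ ∘ b) A B) (cutA (ρ ∘ b') (τ ∘ b') A' B') := by
  unfold cutA
  rw [sh_mul, sh_mul, sh_star, sh_al, sh_Bt]

theorem sh_cutB (ρ : X → ℝ) (τ : X → ℂ) (A B : Matrix ι ι ℂ) (A' B' : Matrix κ κ ℂ) :
    cutB (ρ ∘ Sum.elim b b') (τ ∘ Sum.elim b b') (fromBlocks A 0 0 A') (fromBlocks B 0 0 B') =
      sh (cutB (ρ ∘ b) (τ ∘ b) A B) (cutB (ρ ∘ b') (τ ∘ b') A' B') := by
  unfold cutB
  rw [sh_mul, sh_mul, sh_star, sh_al, sh_Bt, fromBlocks_neg, fromBlocks_neg]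
  simp only [neg_zero]

omit [DecidableEq ι] [DecidableEq κ] in
theorem sigOn_fromBlocks (p : ι ⊕ κ → Prop) {A : Matrix ι ι ℂ} {A' : Matrix κ κ ℂ}
    (hA : A.IsHermitian) (hA' : A'.IsHermitian) :
    sigOn p (fromBlocks A 0 0 A') =
      sigOn (fun i => p (Sum.inl i)) A + sigOn (fun i => p (Sum.inr i)) A' := by
  classical
  rw [sigOn_eq p, sigOn_eq (fun i => p (Sum.inl i)), sigOn_eq (fun i => p (Sum.inr i)),
    ← sig_fromBlocks (hA.submatrix _) (hA'.submatrix _),
    ← sig_submatrix _ (Equiv.subtypeSum (p := p)).symm]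
  have : (cpr p (fromBlocks A 0 0 A')).submatrix (Equiv.subtypeSum (p := p)).symm
      (Equiv.subtypeSum (p := p)).symm =
      fromBlocks (cpr (fun i => p (Sum.inl i)) A) 0 0 (cpr (fun i => p (Sum.inr i)) A') := by
    ext (i | i) (j | j) <;> rfl
  rw [this]

end Blocks

end IndAux

open IndAux

variable {X : Type*} {ι κ : Type} [Fintype ι] [DecidableEq ι] [Fintype κ] [DecidableEq κ]

theorem Ind_equiv (K : X → Prop) (L : List (Cut X)) (b : ι → X) (A B : Matrix ι ι ℂ) (e : κ ≃ ι) :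
    Ind K L (b ∘ e) (A.submatrix e e) (B.submatrix e e) = Ind K L b A B := by
  set T : Matrix ι κ ℂ := (1 : Matrix ι ι ℂ).submatrix id e with hT
  have hTs : Tᴴ = (1 : Matrix ι ι ℂ).submatrix e id := by
    rw [hT, conjTranspose_submatrix, conjTranspose_one]
  have hcj : ∀ M : Matrix ι ι ℂ, cj T M = M.submatrix e e := fun M => by
    unfold cj
    rw [hTs, hT]
    have h1 : (1 : Matrix ι ι ℂ).submatrix e id * M = M.submatrix e id := by
      have := submatrix_mul_equiv (1 : Matrix ι ι ℂ) M e (Equiv.refl ι) id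
      simpa using this
    rw [h1]
    have := submatrix_mul_equiv M (1 : Matrix ι ι ℂ) e (Equiv.refl ι) e
    simpa using this
  have h1 : Tᴴ * T = 1 := by
    have := hcj 1
    unfold cj at this
    rw [Matrix.mul_one, submatrix_one_equiv] at this
    exact this
  have h2 : T * Tᴴ = 1 := by
    rw [hTs, hT, submatrix_mul_equiv, Matrix.mul_one, submatrix_id_id]
  rw [← hcj, ← hcj]
  refine Ind_iso K L b (b ∘ e) A B T h1 h2 fun i j h0 => ?_
  have : i = e j := by
    by_contra hne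
    exact h0 (by rw [hT, submatrix_apply, id, one_apply_ne hne])
  rw [this]; rfl

theorem Ind_comp {Y : Type*} (f : X → Y) (K : Y → Prop) (L : List (Cut Y)) (b : ι → X)
    (A B : Matrix ι ι ℂ) :
    Ind (K ∘ f) (L.map fun q => (q.1 ∘ f, q.2 ∘ f)) b A B = Ind K L (f ∘ b) A B := by
  induction L generalizing ι with
  | nil => rfl
  | cons q L ih =>
    simp only [List.map_cons, Ind]
    rw [ih, Sum.comp_elim]
    rfl

theorem Ind_congr_K {K K' : X → Prop} (L : List (Cut X)) {b : ι → X}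
    (h : ∀ i, K (b i) ↔ K' (b i)) (A B : Matrix ι ι ℂ) : Ind K L b A B = Ind K' L b A B := by
  induction L generalizing ι with
  | nil =>
    have : (fun i => K (b i)) = fun i => K' (b i) := funext fun i => propext (h i)
    simp only [Ind]
    rw [this]
  | cons q L ih =>
    simp only [Ind]
    refine ih ?_ _ _
    rintro (i | i) <;> exact h i

theorem Ind_empty {K : X → Prop} (L : List (Cut X)) {b : ι → X} (h : ∀ i, ¬ K (b i))
    (A B : Matrix ι ι ℂ) : Ind K L b A B = 0 := by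
  induction L generalizing ι with
  | nil =>
    classical
    simp only [Ind]
    have : IsEmpty {i // K (b i)} := ⟨fun i => h i.1 i.2⟩
    rw [sigOn_eq]
    exact sig_of_isEmpty _
  | cons q L ih =>
    simp only [Ind]
    refine ih ?_ _ _
    rintro (i | i) <;> exact h i

/-- invariance under unitaries that preserve the fibres of `b`. -/
theorem Ind_unit (K : X → Prop) (L : List (Cut X)) (b : ι → X) (A B g : Matrix ι ι ℂ)
    (hg : gᴴ * g = 1) (hb : ∀ i j, g i j ≠ 0 → b i = b j) :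
    Ind K L b (gᴴ * A * g) (gᴴ * B * g) = Ind K L b A B :=
  Ind_iso K L b b A B g hg (mul_eq_one_comm.1 hg) hb

theorem Ind_neg (K : X → Prop) (L : List (Cut X)) (b : ι → X) (A B : Matrix ι ι ℂ) :
    Ind K L b (-A) (-B) = -Ind K L b A B := by
  induction L generalizing ι with
  | nil =>
    classical
    simp only [Ind]
    rw [sigOn_eq, sigOn_eq, ← sig_neg]
    rfl
  | cons q L ih =>
    simp only [Ind]
    rw [cutA_neg, cutB_neg, ih, Ind_iso K L (Sum.elim b b) (Sum.elim b b) _ _ _ kap_l kap_r]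
    rintro (i | i) (j | j) h0
    · have : i = j := by
        by_contra hne
        exact h0 (one_apply_ne hne)
      rw [this]
    · exact (h0 rfl).elim
    · exact (h0 rfl).elim
    · have : i = j := by
        by_contra hne
        refine h0 ?_
        change (-1 : Matrix ι ι ℂ) i j = 0
        rw [neg_apply, one_apply_ne hne, neg_zero]
      rw [this]

theorem Ind_fromBlocks (K : X → Prop) (L : List (Cut X)) (b : ι → X) (b' : κ → X)
    {A B : Matrix ι ι ℂ} {A' B' : Matrix κ κ ℂ} (hA : A.IsHermitian) (hA' : A'.IsHermitian) :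
    Ind K L (Sum.elim b b') (fromBlocks A 0 0 A') (fromBlocks B 0 0 B') =
      Ind K L b A B + Ind K L b' A' B' := by
  induction L generalizing ι κ with
  | nil => exact sigOn_fromBlocks (fun i => K (Sum.elim b b' i)) hA hA'
  | cons q L ih =>
    simp only [Ind]
    rw [sh_cutA, sh_cutB, ← ih _ _ (cutA_isHermitian _ _ _ _) (cutA_isHermitian _ _ _ _),
      ← Ind_equiv K L (Sum.elim (Sum.elim b b) (Sum.elim b' b')) _ _
        (Equiv.sumSumSumComm ι κ ι κ)]
    have : Sum.elim (Sum.elim b b) (Sum.elim b' b') ∘ Equiv.sumSumSumComm ι κ ι κ =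
        Sum.elim (Sum.elim b b') (Sum.elim b b') := by
      funext i
      rcases i with (i | i) | (i | i) <;> rfl
    rw [this]
    rfl

theorem Ind_split (K : X → Prop) (L : List (Cut X)) (b : ι → X) {A B : Matrix ι ι ℂ}
    (h : HI A B) (p : ι → Prop) [DecidablePred p] (hp : ∀ i j, p i → ¬ p j → A i j = 0) :
    Ind K L b A B = Ind K L (b ∘ Subtype.val) (cpr p A) (cpr p B) +
      Ind K L (b ∘ Subtype.val) (cpr (fun i => ¬ p i) A) (cpr (fun i => ¬ p i) B) := by
  have hp' : ∀ i j, ¬ p i → p j → A i j = 0 := fun i j hi hj => by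
    rw [← h.hA.apply i j, hp j i hj hi, star_zero]
  set P : Matrix ι ι ℂ := diagonal fun i => if p i then 1 else 0 with hP
  have hAP : A * P = P * A := by
    ext i j
    rw [hP, mul_diagonal, diagonal_mul]
    by_cases hi : p i <;> by_cases hj : p j
    · simp [hi, hj]
    · simp [hi, hj, hp i j hi hj]
    · simp [hi, hj, hp' i j hi hj]
    · simp [hi, hj]
  have hBP : B * P = P * B := by
    calc B * P = B * P * (A * B) := by rw [h.mul, Matrix.mul_one]
      _ = B * (P * A) * B := by simp only [Matrix.mul_assoc]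
      _ = B * A * P * B := by rw [← hAP]; simp only [Matrix.mul_assoc]
      _ = P * B := by rw [h.mul', Matrix.one_mul]
  have hq : ∀ i j, p i → ¬ p j → B i j = 0 := fun i j hi hj => by
    have := congrFun (congrFun hBP i) j
    rw [hP, mul_diagonal, diagonal_mul] at this
    simpa [hi, hj] using this.symm
  have hq' : ∀ i j, ¬ p i → p j → B i j = 0 := fun i j hi hj => by
    have := congrFun (congrFun hBP i) j
    rw [hP, mul_diagonal, diagonal_mul] at this
    simpa [hi, hj] using this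
  have key : ∀ M : Matrix ι ι ℂ, (∀ i j, p i → ¬ p j → M i j = 0) →
      (∀ i j, ¬ p i → p j → M i j = 0) →
      M.submatrix (Equiv.sumCompl p) (Equiv.sumCompl p) =
        fromBlocks (cpr p M) 0 0 (cpr (fun i => ¬ p i) M) := fun M h1 h2 => by
    ext (i | i) (j | j)
    · rfl
    · exact h1 _ _ i.2 j.2
    · exact h2 _ _ i.2 j.2
    · rfl
  rw [← Ind_equiv K L b A B (Equiv.sumCompl p), key A hp hp', key B hq hq',
    ← Ind_fromBlocks K L _ _ (h.hA.submatrix _) (h.hA.submatrix _)]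
  have : b ∘ Equiv.sumCompl p = Sum.elim (b ∘ Subtype.val) (b ∘ Subtype.val) := by
    funext i
    rcases i with i | i <;> rfl
  rw [this]

/-- hyperbolic forms have index zero. -/
theorem Ind_hyp (K : X → Prop) (L : List (Cut X)) (b : ι → X) {A B : Matrix ι ι ℂ} (s : ι → Prop)
    (hA : ∀ i j, (s i ↔ s j) → A i j = 0) (hB : ∀ i j, (s i ↔ s j) → B i j = 0) :
    Ind K L b A B = 0 := by
  classical
  set g : Matrix ι ι ℂ := diagonal fun i => if s i then 1 else -1 with hg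
  have hs : gᴴ = g := by
    rw [hg, diagonal_conjTranspose]
    congr 1
    funext i
    by_cases hi : s i <;> simp [hi]
  have key : ∀ M : Matrix ι ι ℂ, (∀ i j, (s i ↔ s j) → M i j = 0) → gᴴ * M * g = -M :=
    fun M hM => by
      rw [hs]
      ext i j
      rw [hg, mul_diagonal, diagonal_mul, neg_apply]
      by_cases hi : s i <;> by_cases hj : s j
      · simp [hM i j (by simp [hi, hj])]
      · simp [hi, hj]
      · simp [hi, hj]
      · simp [hM i j (by simp [hi, hj])]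
  have h1 : gᴴ * g = 1 := by
    rw [hs, hg, diagonal_mul_diagonal, ← diagonal_one]
    congr 1
    funext i
    by_cases hi : s i <;> simp [hi]
  have h2 := Ind_unit K L b A B g h1 fun i j h0 => by
    have : i = j := by
      by_contra hne
      exact h0 (diagonal_apply_ne _ hne)
    rw [this]
  rw [key A hA, key B hB, Ind_neg] at h2
  omega

end Crest.Agent.R217
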