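import Crest.Agent.R217.Ind

/-! # Row 217: homotopy and congruence invariance of the index -/

set_option autoImplicit false

namespace Crest.Agent.R217

open Matrix Complex
open scoped Kronecker

variable {X : Type*} {ι κ : Type} [Fintype ι] [DecidableEq ι] [Fintype κ] [DecidableEq κ]
  {ρ : CRel X} {K : X → Prop} {r Rr : ℕ}

theorem Ind_path_aux {P : Type*} [TopologicalSpace P] [PreconnectedSpace P] (L : List (P → Cut X)) :
    ∀ {ι : Type} [Fintype ι] [DecidableEq ι] (r : ℕ) (b : ι → X) {A B : P → Matrix ι ι ℂ},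
    (∀ q ∈ L, ∀ x, Continuous (fun s => (q s).1 x) ∧ Continuous (fun s => (q s).2 x)) →
    (∀ s, ∀ q ∈ L, ∀ x, ‖(q s).2 x‖ = 1) →
    (∀ s x, (∀ y, ρ.rel x y Rr → (K x ↔ K y)) ∨ (∃ q ∈ L, Cst ρ Rr x (q s)) ∨
      (Loc b x (A s) ∧ Loc b x (B s))) →
    12 ^ L.length * r ≤ Rr → Continuous A → Continuous B → (∀ s, HI (A s) (B s)) →
    (∀ s, (ρ.plain ℂ).M b b r (A s)) → (∀ s, (ρ.plain ℂ).M b b r (B s)) → ∀ s t : P,
    Ind K (L.map fun q => q s) b (A s) (B s) = Ind K (L.map fun q => q t) b (A t) (B t) := by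
  induction L with
  | nil =>
    intro ι _ _ r b A B _ _ adm hr hA _ h cA _ s t
    classical
    simp only [List.map_nil, Ind, sigOn_eq]
    refine sig_path (A := fun s => cpr (fun i => K (b i)) (A s)) (hA.matrix_submatrix _ _)
      (fun s => ⟨_, (h s).cpr _ fun i j hi hj => ?_⟩) s t
    by_contra h0
    rcases adm s (b j) with h1 | ⟨q, hq, -⟩ | h1
    · have h2 : ρ.rel (b i) (b j) r := cA s i j h0
      exact hj ((h1 (b i) (ρ.rel_mono (by simpa using hr) (ρ.rel_symm h2))).2 hi)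
    · simp at hq
    · exact h0 ((h1.1 j i rfl).1 fun h2 => hj (h2 ▸ hi))
  | cons q L ih =>
    intro ι _ _ r b A B hL unit adm hr hA hB h cA cB s t
    simp only [List.map_cons, Ind]
    have hq := hL q List.mem_cons_self
    have h1 : Continuous fun s => (q s).1 ∘ b := continuous_pi fun i => (hq (b i)).1
    have h2 : Continuous fun s => (q s).2 ∘ b := continuous_pi fun i => (hq (b i)).2
    have hr' : 12 ^ L.length * (12 * r) ≤ Rr := by
      rwa [List.length_cons, pow_succ, mul_assoc] at hr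
    refine ih (12 * r) (Sum.elim b b) (A := fun s => cutA ((q s).1 ∘ b) ((q s).2 ∘ b) (A s) (B s))
      (B := fun s => cutB ((q s).1 ∘ b) ((q s).2 ∘ b) (A s) (B s))
      (fun q' hq' => hL q' (List.mem_cons_of_mem _ hq'))
      (fun s q' hq' => unit s q' (List.mem_cons_of_mem _ hq')) (fun s x => ?_) hr'
      (continuous_cutA h1 h2 hA hB) (continuous_cutB h1 h2 hA hB)
      (fun s => HI_cut _ (fun i => unit s q List.mem_cons_self (b i)) _ _)
      (fun s => (cA s).cutA (cB s) _ _) (fun s => (cA s).cutB (cB s) _ _) s t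
    rcases adm s x with h3 | ⟨q', hq', h3⟩ | h3
    · exact .inl h3
    · rcases List.mem_cons.1 hq' with rfl | h4
      · exact .inr (.inr (h3.loc_cut
          ((Nat.le_mul_of_pos_left _ (by positivity)).trans hr') (h s) (cA s) (cB s)))
      · exact .inr (.inl ⟨q', h4, h3⟩)
    · exact .inr (.inr (Loc.cut (h s) h3.1 h3.2 _ _))

theorem Ind_path {P : Type*} [TopologicalSpace P] [PreconnectedSpace P] (L : List (P → Cut X))
    (hL : ∀ q ∈ L, ∀ x, Continuous (fun s => (q s).1 x) ∧ Continuous (fun s => (q s).2 x))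
    (geo : ∀ s, Geo ρ K (L.map fun q => q s) Rr) (hr : 12 ^ L.length * r ≤ Rr) (b : ι → X)
    {A B : P → Matrix ι ι ℂ} (hA : Continuous A) (hB : Continuous B) (h : ∀ s, HI (A s) (B s))
    (cA : ∀ s, (ρ.plain ℂ).M b b r (A s)) (cB : ∀ s, (ρ.plain ℂ).M b b r (B s)) (s t : P) :
    Ind K (L.map fun q => q s) b (A s) (B s) = Ind K (L.map fun q => q t) b (A t) (B t) := by
  refine Ind_path_aux L r b hL
    (fun s q hq => (geo s).unit _ (List.mem_map_of_mem hq)) (fun s x => ?_) hr hA hB h cA cB s t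
  rcases (geo s).adm x with h1 | ⟨q, hq, h1⟩
  · exact .inl h1
  · obtain ⟨q', hq', rfl⟩ := List.mem_map.1 hq
    exact .inr (.inl ⟨q', hq', h1⟩)

theorem Ind_path' {P : Type*} [TopologicalSpace P] [PreconnectedSpace P] {L : List (Cut X)}
    (geo : Geo ρ K L Rr) (hr : 12 ^ L.length * r ≤ Rr) (b : ι → X)
    {A B : P → Matrix ι ι ℂ} (hA : Continuous A) (hB : Continuous B) (h : ∀ s, HI (A s) (B s))
    (cA : ∀ s, (ρ.plain ℂ).M b b r (A s)) (cB : ∀ s, (ρ.plain ℂ).M b b r (B s)) (s t : P) :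
    Ind K L b (A s) (B s) = Ind K L b (A t) (B t) := by
  have h1 : ∀ s : P, (L.map fun (q : Cut X) (_ : P) => q).map (fun q => q s) = L := fun s => by
    simp [List.map_map, Function.comp_def]
  have h2 := Ind_path (K := K) (L.map fun (q : Cut X) (_ : P) => q) (fun q hq x => by
    obtain ⟨q', -, rfl⟩ := List.mem_map.1 hq
    exact ⟨continuous_const, continuous_const⟩) (fun s => by rw [h1]; exact geo)
    (by rwa [List.length_map]) b hA hB h cA cB s t
  rwa [h1, h1] at h2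

theorem HI.rot {A B T T' : Matrix ι ι ℂ} (h : HI A B) (hT : T * T' = 1) {c s : ℝ}
    (hcs : c ^ 2 + s ^ 2 = 1) :
    HI (fromBlocks ((c : ℂ) • (Tᴴ * A * T)) ((-s : ℂ) • (Tᴴ * A)) ((-s : ℂ) • (A * T)) ((-c : ℂ) • A))
      (fromBlocks ((c : ℂ) • (T' * B * T'ᴴ)) ((-s : ℂ) • (T' * B)) ((-s : ℂ) • (B * T'ᴴ))
        ((-c : ℂ) • B)) := by
  have hT' : Tᴴ * T'ᴴ = 1 := by
    rw [← conjTranspose_mul, mul_eq_one_comm.1 hT, conjTranspose_one]
  have hcs' : (c : ℂ) * c + s * s = 1 := by exact_mod_cast (by linarith : c * c + s * s = 1)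
  have e1 : ∀ Y : Matrix ι ι ℂ, T * (T' * Y) = Y := fun Y => by
    rw [← Matrix.mul_assoc, hT, Matrix.one_mul]
  have e2 : ∀ Y : Matrix ι ι ℂ, A * (B * Y) = Y := fun Y => by
    rw [← Matrix.mul_assoc, h.mul, Matrix.one_mul]
  refine ⟨?_, ?_, ?_⟩
  · simp [IsHermitian, fromBlocks_conjTranspose, h.hA.eq, Matrix.mul_assoc]
  · simp [IsHermitian, fromBlocks_conjTranspose, h.hB.eq, Matrix.mul_assoc]
  · rw [fromBlocks_multiply, ← fromBlocks_one]
    simp only [Matrix.smul_mul, Matrix.mul_smul, smul_smul, Matrix.mul_assoc, e1, e2, hT', h.mul,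
      Matrix.mul_one, ← add_smul]
    congr 1
    · rw [neg_mul_neg, hcs', one_smul]
    · rw [show -(s : ℂ) * c + -c * -s = 0 by ring, zero_smul]
    · rw [show (c : ℂ) * -s + -s * -c = 0 by ring, zero_smul]
    · rw [neg_mul_neg, neg_mul_neg, add_comm, hcs', one_smul]

theorem Ind_congr {L : List (Cut X)} (geo : Geo ρ K L Rr) (hr : 12 ^ L.length * (6 * r) ≤ Rr)
    (b : ι → X) {A B T T' : Matrix ι ι ℂ} (h : HI A B) (hT : T * T' = 1)
    (cA : (ρ.plain ℂ).M b b r A) (cB : (ρ.plain ℂ).M b b r B) (cT : (ρ.plain ℂ).M b b r T)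
    (cT' : (ρ.plain ℂ).M b b r T') :
    Ind K L b (Tᴴ * A * T) (T' * B * T'ᴴ) = Ind K L b A B := by
  have h3 : r ≤ 6 * r := by omega
  have h1 := Ind_path' (K := K) (P := ℝ) geo hr (Sum.elim b b)
    (A := fun θ => fromBlocks ((Real.cos θ : ℂ) • (Tᴴ * A * T)) ((-Real.sin θ : ℂ) • (Tᴴ * A))
      ((-Real.sin θ : ℂ) • (A * T)) ((-Real.cos θ : ℂ) • A))
    (B := fun θ => fromBlocks ((Real.cos θ : ℂ) • (T' * B * T'ᴴ)) ((-Real.sin θ : ℂ) • (T' * B))
      ((-Real.sin θ : ℂ) • (B * T'ᴴ)) ((-Real.cos θ : ℂ) • B))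
    (Continuous.matrix_fromBlocks (by fun_prop) (by fun_prop) (by fun_prop) (by fun_prop))
    (Continuous.matrix_fromBlocks (by fun_prop) (by fun_prop) (by fun_prop) (by fun_prop))
    (fun θ => h.rot hT (Real.cos_sq_add_sin_sq θ))
    (fun θ => Ctl.M.fromBlocks (((cT.conjTranspose.mul cA).mul' cT (by omega)).smul _)
      ((cT.conjTranspose.mul' cA (by omega)).smul _) ((cA.mul' cT (by omega)).smul _)
      ((cA.of_le h3).smul _))
    (fun θ => Ctl.M.fromBlocks (((cT'.mul cB).mul' cT'.conjTranspose (by omega)).smul _)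
      ((cT'.mul' cB (by omega)).smul _) ((cB.mul' cT'.conjTranspose (by omega)).smul _)
      ((cB.of_le h3).smul _)) 0 (Real.pi / 2)
  simp only [Real.cos_zero, Real.sin_zero, Real.cos_pi_div_two, ofReal_one, ofReal_zero, one_smul,
    neg_zero, zero_smul, neg_smul] at h1
  rw [Ind_fromBlocks K L b b (isHermitian_conjTranspose_mul_mul T h.hA) h.hA.neg, Ind_neg,
    Ind_hyp K L (Sum.elim b b) (fun i => i.isLeft = true)] at h1
  · linarith
  · rintro (i | i) (j | j) hij <;> simp at hij ⊢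
  · rintro (i | i) (j | j) hij <;> simp at hij ⊢

theorem Ind_swap {L : List (Cut X)} (geo : Geo ρ K L Rr) (hr : 12 ^ L.length * (6 * r) ≤ Rr)
    (b : ι → X) {A B : Matrix ι ι ℂ} (h : HI A B) (cA : (ρ.plain ℂ).M b b r A)
    (cB : (ρ.plain ℂ).M b b r B) : Ind K L b B A = Ind K L b A B := by
  have h1 := Ind_congr geo hr b h h.mul' cA cB cB cA
  rwa [h.hB.eq, h.hA.eq, h.mul', h.mul, Matrix.one_mul, Matrix.one_mul] at h1

omit [Fintype ι] [DecidableEq ι] [Fintype κ] [DecidableEq κ] in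
theorem Ctl.M.kron {b : ι → X} {A : Matrix ι ι ℂ} (cA : (ρ.plain ℂ).M b b r A)
    (Y : Matrix κ κ ℂ) :
    (ρ.plain ℂ).M (fun p : κ × ι => b p.2) (fun p : κ × ι => b p.2) r (Y ⊗ₖ A) :=
  fun p q h => cA p.2 q.2 (right_ne_zero_of_mul h)

theorem Ind_diag_kron (K : X → Prop) (L : List (Cut X)) (b : ι → X) {A B : Matrix ι ι ℂ}
    (hA : A.IsHermitian) (κ : Type) [Finite κ] : ∀ [Fintype κ] [DecidableEq κ] (σ : κ → ℝ),
    (∀ i, σ i = 1 ∨ σ i = -1) →
    Ind K L (fun p : κ × ι => b p.2) (diagonal (fun i => (σ i : ℂ)) ⊗ₖ A)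
      (diagonal (fun i => (σ i : ℂ)) ⊗ₖ B) = (∑ i, (SignType.sign (σ i) : ℤ)) * Ind K L b A B := by
  induction κ using Finite.induction_empty_option with
  | @of_equiv α β e ih =>
    intro _ _ σ hσ
    classical
    let _ : Fintype α := Fintype.ofEquiv β e.symm
    rw [← Ind_equiv K L _ _ _ (e.prodCongr (Equiv.refl ι)), ← Equiv.sum_comp e,
      ← ih (fun i => σ (e i)) fun i => hσ _]
    congr 1 <;> ext p q <;> simp [diagonal_apply]
  | h_empty =>
    intro _ _ σ _
    rw [Ind_empty L (fun p => p.1.elim)]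
    simp
  | @h_option α _ ih =>
    intro inst _ σ hσ
    classical
    obtain rfl : inst = instFintypeOption := Subsingleton.elim _ _
    have h1 : ∀ Y : Matrix ι ι ℂ, (diagonal (fun i => (σ i : ℂ)) ⊗ₖ Y).submatrix
        (optionProdEquiv.symm) (optionProdEquiv.symm) =
        fromBlocks ((σ none : ℂ) • Y) 0 0 (diagonal (fun i => (σ (some i) : ℂ)) ⊗ₖ Y) := by
      intro Y
      ext (p | p) (q | q) <;> simp [diagonal_apply]
    have h2 : (fun p : Option α × ι => b p.2) ∘ optionProdEquiv.symm =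
        Sum.elim b (fun p : α × ι => b p.2) := by
      funext p
      cases p <;> rfl
    have h3 : (diagonal (fun i => (σ (some i) : ℂ)) ⊗ₖ A).IsHermitian := by
      simp [IsHermitian, conjTranspose_kronecker, hA.eq, diagonal_conjTranspose, Pi.star_def]
    have h4 : ((σ none : ℂ) • A).IsHermitian := by simp [IsHermitian, hA.eq]
    rw [← Ind_equiv K L _ _ _ optionProdEquiv.symm, h1, h1, h2, Ind_fromBlocks K L _ _ h4 h3,
      ih (fun i => σ (some i)) fun i => hσ _, Fintype.sum_option, add_mul]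
    congr 1
    rcases hσ none with h5 | h5
    · simp [h5]
    · simp [h5, Ind_neg]

theorem Ind_kron {L : List (Cut X)} (geo : Geo ρ K L Rr) (hr : 12 ^ L.length * (6 * r) ≤ Rr)
    (b : ι → X) {A B : Matrix ι ι ℂ} (h : HI A B) (cA : (ρ.plain ℂ).M b b r A)
    (cB : (ρ.plain ℂ).M b b r B) {A₀ B₀ : Matrix κ κ ℂ} (h₀ : HI A₀ B₀) :
    Ind K L (fun p : κ × ι => b p.2) (A₀ ⊗ₖ A) (B₀ ⊗ₖ B) = sig A₀ * Ind K L b A B := by
  obtain ⟨T, T', σ, hT, hσ, rfl⟩ := h₀.exists_normal_form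
  have hT' : T' * T = 1 := mul_eq_one_comm.1 hT
  have hDD : diagonal (fun i => (σ i : ℂ)) * diagonal (fun i => (σ i : ℂ)) = 1 := by
    rw [diagonal_mul_diagonal, ← diagonal_one]
    congr 1
    funext i
    rcases hσ i with h1 | h1 <;> simp [h1]
  have hD : (diagonal (fun i => (σ i : ℂ)))ᴴ = diagonal (fun i => (σ i : ℂ)) := by
    simp [diagonal_conjTranspose, Pi.star_def]
  have hB₀ : B₀ = T' * diagonal (fun i => (σ i : ℂ)) * T'ᴴ := by
    refine right_inv_eq_right_inv h₀.mul ?_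
    calc _ = Tᴴ * (diagonal (fun i => (σ i : ℂ)) * (T * T') * diagonal (fun i => (σ i : ℂ))) *
          T'ᴴ := by simp only [Matrix.mul_assoc]
      _ = 1 := by rw [hT, Matrix.mul_one, hDD, Matrix.mul_one, ← conjTranspose_mul, hT',
          conjTranspose_one]
  have h1 := Ind_congr geo hr (fun p : κ × ι => b p.2)
    (A := diagonal (fun i => (σ i : ℂ)) ⊗ₖ A) (B := diagonal (fun i => (σ i : ℂ)) ⊗ₖ B)
    (T := T ⊗ₖ (1 : Matrix ι ι ℂ)) (T' := T' ⊗ₖ (1 : Matrix ι ι ℂ))
    ⟨by rw [IsHermitian, conjTranspose_kronecker, hD, h.hA.eq],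
      by rw [IsHermitian, conjTranspose_kronecker, hD, h.hB.eq],
      by rw [← mul_kronecker_mul, hDD, h.mul, one_kronecker_one]⟩
    (by rw [← mul_kronecker_mul, hT, Matrix.one_mul, one_kronecker_one])
    (cA.kron _) (cB.kron _) (Ctl.M.one.kron _) (Ctl.M.one.kron _)
  simp only [conjTranspose_kronecker, ← mul_kronecker_mul, conjTranspose_one, Matrix.one_mul,
    Matrix.mul_one] at h1
  rw [hB₀, h1, sig_congr _ T T' hT hT', sig_diagonal, Ind_diag_kron K L b h.hA κ σ hσ]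

/-- Moving sharp cuts. -/
theorem Ind_change (L : List (Cut X × Cut X))
    (hL : ∀ q ∈ L, ∀ x, (q.1.2 x = I ∨ q.1.2 x = -I) ∧ (q.2.2 x = I ∨ q.2.2 x = -I))
    (adm : ∀ x, (∀ y, ρ.rel x y Rr → (K x ↔ K y)) ∨ ∃ q ∈ L, Cst₂ ρ Rr x q.1 q.2)
    (hr : 12 ^ L.length * r ≤ Rr) (b : ι → X) {A B : Matrix ι ι ℂ} (h : HI A B)
    (cA : (ρ.plain ℂ).M b b r A) (cB : (ρ.plain ℂ).M b b r B) :
    Ind K (L.map Prod.fst) b A B = Ind K (L.map Prod.snd) b A B := by
  classical
  let path : Cut X × Cut X → ℝ → Cut X := fun q s =>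
    (fun x => (1 - s) * q.1.1 x + s * q.2.1 x,
      fun x => if q.1.2 x = q.2.2 x then q.1.2 x else q.1.2 x * exp (s * Real.pi * I))
  have h1 := Ind_path (K := K) (ρ := ρ) (P := ℝ) (r := r) (Rr := Rr) (L.map path) ?_ ?_
    (by rwa [List.length_map]) b (A := fun _ => A) (B := fun _ => B) continuous_const
    continuous_const (fun _ => h) (fun _ => cA) (fun _ => cB) 0 1
  · rw [List.map_map, List.map_map] at h1
    convert h1 using 1
    · congr 1
      refine List.map_congr_left fun q _ => ?_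
      ext x <;> simp [path]
    · congr 1
      refine List.map_congr_left fun q hq => ?_
      ext x
      · simp [path]
      · simp only [path, Function.comp_apply, ofReal_one, one_mul, exp_pi_mul_I]
        split_ifs with h2
        · exact h2.symm
        · obtain ⟨h3 | h3, h4 | h4⟩ := hL q hq x <;> simp_all
  · intro q hq x
    obtain ⟨q', -, rfl⟩ := List.mem_map.1 hq
    refine ⟨by simp only [path]; fun_prop, ?_⟩
    simp only [path]
    split_ifs <;> fun_prop
  · intro s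
    rw [List.map_map]
    refine ⟨fun q hq x => ?_, fun x => (adm x).imp_right ?_⟩
    · obtain ⟨q', hq', rfl⟩ := List.mem_map.1 hq
      have h2 : ‖q'.1.2 x‖ = 1 := by rcases (hL q' hq' x).1 with h3 | h3 <;> simp [h3]
      simp only [path, Function.comp_apply]
      split_ifs
      · exact h2
      · rw [norm_mul, h2, one_mul, ← ofReal_mul, norm_exp_ofReal_mul_I]
    · rintro ⟨q, hq, h2⟩
      refine ⟨_, List.mem_map_of_mem hq, ?_⟩
      rcases h2 with h2 | h2 | h2 | h2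
      · exact .inl fun y hy => by simp [path, h2 y hy]
      · exact .inr (.inl fun y hy => by simp [path, h2 y hy])
      · exact .inr (.inr (.inl fun y hy => by simp [path, h2 y hy]))
      · exact .inr (.inr (.inr fun y hy => by simp [path, h2 y hy]))

end Crest.Agent.R217
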