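import Crest.Agent.R217.GYDefs

/-! # Row 217: dimension doubling, and the interior of the fixed set is closed -/

set_option autoImplicit false

namespace Crest.Agent.R217

open Topology Filter Set

universe u

/-- Let `H` act trivially on the second coordinates. -/
theorem SmallStmt.of_double {n : ℕ} (h : SmallStmt.{u} (Fin n → ℝ × ℝ)) :
    SmallStmt.{u} (Fin n → ℝ) := by
  obtain ⟨ε, hε, h⟩ := h
  refine ⟨ε, hε, fun H _ _ _ _ hH a g => ?_⟩
  have h1 : ∀ w : Fin n → ℝ × ℝ, ‖w‖ ≤ 1 → ‖fun i => (w i).1‖ ≤ 1 := fun w hw =>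
    (pi_norm_le_iff_of_nonneg zero_le_one).2 fun i =>
      (norm_fst_le _).trans ((norm_le_pi_norm w i).trans hw)
  let a' : LAct H (Fin n → ℝ × ℝ) ε :=
    { act := fun g w j => (a.act g (fun i => (w i).1) j, (w j).2)
      cont := by
        refine continuousOn_pi.2 fun j => ContinuousOn.prodMk ?_ (by fun_prop)
        refine (continuous_apply j).comp_continuousOn (a.cont.comp
          (f := fun p : H × (Fin n → ℝ × ℝ) => (p.1, fun i => (p.2 i).1)) (by fun_prop) ?_)
        exact fun p hp => ⟨trivial, mem_closedBall_zero_iff.2 (h1 _ (mem_closedBall_zero_iff.1 hp.2))⟩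
      one := fun w hw => by simp [a.one _ (h1 w hw)]
      mul := fun g h w hw hw' => by simp [a.mul g h _ (h1 w hw) (h1 _ hw')]
      small := fun g w hw => (pi_norm_le_iff_of_nonneg hε.le).2 fun j => by
        have := (norm_le_pi_norm _ j).trans (a.small g _ (h1 w hw))
        simpa [Prod.norm_def, hε.le] using this }
  funext j
  exact congrArg Prod.fst (congrFun (h H hH a' g) j)

namespace PropAux

/-- A staircase that changes by at most one along a relation that keeps small numbers small. -/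
theorem exists_stair {R : ℝ → ℝ → Prop}
    (hR : ∀ e > 0, ∃ d > 0, ∀ t t', R t t' → t ≤ d → t' ≤ e) (K : ℕ) (D : ℝ) (hD : 0 < D) :
    ∃ (σ : ℝ → ℝ) (d : ℝ), 0 < d ∧ Continuous σ ∧ Monotone σ ∧ (∀ t, t ≤ d → σ t = 0) ∧
      (∀ t, D ≤ t → σ t = K) ∧ ∀ t t', R t t' → σ t' ≤ σ t + 1 := by
  induction K generalizing D with
  | zero => exact ⟨fun _ => 0, 1, one_pos, continuous_const, monotone_const, by simp, by simp,
      by simp⟩
  | succ K ih =>
    obtain ⟨d', hd', h1⟩ := hR (D / 2) (by positivity)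
    obtain ⟨σ, d, hd, hc, hm, h0, hK, h2⟩ := ih (min d' D) (by positivity)
    have c0 : ∀ t, t ≤ D / 2 → max 0 (min 1 (2 * t / D - 1)) = 0 := fun t ht =>
      max_eq_left ((min_le_right _ _).trans (by rw [sub_nonpos, div_le_one hD]; linarith))
    refine ⟨fun t => σ t + max 0 (min 1 (2 * t / D - 1)), min d (D / 2), by positivity,
      by fun_prop, fun s t hst => add_le_add (hm hst) (by gcongr), fun t ht => ?_, fun t ht => ?_,
      fun t t' h => ?_⟩
    · simp only [h0 t (ht.trans (min_le_left _ _)), c0 t (ht.trans (min_le_right _ _)), add_zero]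
    · have : (1 : ℝ) ≤ 2 * t / D - 1 := by rw [le_sub_iff_add_le, le_div_iff₀ hD]; linarith
      simp only [hK t ((min_le_right _ _).trans ht), min_eq_left this, max_eq_right zero_le_one,
        Nat.cast_succ]
    · have h3 := le_max_left 0 (min 1 (2 * t / D - 1))
      rcases le_total t (min d' D) with ht | ht
      · simp only [c0 t' (h1 t t' h (ht.trans (min_le_left _ _)))]
        linarith [h2 t t' h]
      · have h4 : max 0 (min 1 (2 * t' / D - 1)) ≤ 1 := max_le zero_le_one (min_le_left _ _)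
        have h5 := hm (le_max_left t' (min d' D))
        rw [hK _ (le_max_right _ _)] at h5
        simp only [hK t ht]
        linarith

variable {E : Type} [NormedAddCommGroup E] [NormedSpace ℝ E]

/-- The retraction onto the unit ball, at scale `r`. -/
noncomputable def dir (r : ℝ) (v : E) : E := (max ‖v‖ r)⁻¹ • v

/-- Radial reparametrisation. -/
noncomputable def rad (r : ℝ) (ρ : ℝ → ℝ) (v : E) : E := v + (ρ ‖v‖ - ‖v‖) • dir r v

variable {r : ℝ} {ρ τ : ℝ → ℝ}

theorem continuous_rad (hr : 0 < r) (hρ : Continuous ρ) : Continuous (rad r ρ : E → E) :=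
  continuous_id.add (((hρ.comp continuous_norm).sub continuous_norm).smul
    (((continuous_norm.max continuous_const).inv₀
      fun _ => (hr.trans_le (le_max_right _ _)).ne').smul continuous_id))

theorem norm_dir_le (hr : 0 < r) (v : E) : ‖dir r v‖ ≤ 1 := by
  have h := hr.trans_le (le_max_right ‖v‖ r)
  rw [dir, norm_smul, norm_inv, Real.norm_of_nonneg h.le, inv_mul_le_iff₀ h, mul_one]
  exact le_max_left _ _

theorem norm_dir_sub (hr : 0 < r) (v w : E) : r * ‖dir r v - dir r w‖ ≤ 2 * ‖v - w‖ := by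
  have hv := hr.trans_le (le_max_right ‖v‖ r)
  have hw := hr.trans_le (le_max_right ‖w‖ r)
  have h1 : max ‖v‖ r • (dir r v - dir r w) = (v - w) + (max ‖w‖ r - max ‖v‖ r) • dir r w := by
    rw [smul_sub, sub_smul, dir, smul_inv_smul₀ hv.ne', dir, smul_inv_smul₀ hw.ne']
    abel
  have h2 : |max ‖w‖ r - max ‖v‖ r| ≤ ‖v - w‖ :=
    (abs_max_sub_max_le_abs _ _ _).trans (by rw [abs_sub_comm]; exact abs_norm_sub_norm_le v w)
  calc _ ≤ max ‖v‖ r * ‖dir r v - dir r w‖ :=
        mul_le_mul_of_nonneg_right (le_max_right _ _) (norm_nonneg _)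
    _ = ‖max ‖v‖ r • (dir r v - dir r w)‖ := by rw [norm_smul, Real.norm_of_nonneg hv.le]
    _ ≤ ‖v - w‖ + |max ‖w‖ r - max ‖v‖ r| * ‖dir r w‖ := by
        rw [h1, ← Real.norm_eq_abs, ← norm_smul]
        exact norm_add_le _ _
    _ ≤ _ := by
        linarith [mul_le_mul h2 (norm_dir_le hr w) (norm_nonneg _) (norm_nonneg _)]

theorem rad_of_eq {v : E} (h : ρ ‖v‖ = ‖v‖) : rad r ρ v = v := by simp [rad, h]

theorem rad_of_le (hr : 0 < r) {v : E} (h : r ≤ ‖v‖) : rad r ρ v = (ρ ‖v‖ / ‖v‖) • v := by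
  have h0 := (hr.trans_le h).ne'
  rw [rad, dir, max_eq_left h, smul_smul, ← one_add_smul']
  congr 1
  field_simp
  ring
where one_add_smul' {c : ℝ} {v : E} : (1 + c) • v = v + c • v := by rw [add_smul, one_smul]

theorem norm_rad (hr : 0 < r) (hm : Monotone ρ) (h : ∀ s, s ≤ r → ρ s = s) (v : E) :
    ‖rad r ρ v‖ = ρ ‖v‖ := by
  rcases le_total ‖v‖ r with hv | hv
  · rw [rad_of_eq (h _ hv), h _ hv]
  · have h0 := hr.trans_le hv
    have h1 : 0 ≤ ρ ‖v‖ := hr.le.trans ((h r le_rfl).ge.trans (hm hv))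
    rw [rad_of_le hr hv, norm_smul, Real.norm_of_nonneg (by positivity), div_mul_cancel₀ _ h0.ne']

theorem rad_rad (hr : 0 < r) (hm : Monotone ρ) (h : ∀ s, s ≤ r → ρ s = s)
    (hτ : ∀ s, τ (ρ s) = s) (v : E) : rad r τ (rad r ρ v) = v := by
  rcases le_total ‖v‖ r with hv | hv
  · rw [rad_of_eq (h _ hv), rad_of_eq]
    conv_lhs => rw [← h _ hv, hτ]
  · have h0 := hr.trans_le hv
    have h1 : r ≤ ρ ‖v‖ := (h r le_rfl).ge.trans (hm hv)
    have h2 := hr.trans_le h1
    rw [rad_of_le hr (by rwa [norm_rad hr hm h]), norm_rad hr hm h, hτ, rad_of_le hr hv, smul_smul,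
      div_mul_div_cancel₀ h2.ne', div_self h0.ne', one_smul]

theorem norm_rad_sub (hr : 0 < r) {v w : E} {c : ℝ} (h1 : |ρ ‖v‖ - ‖v‖| ≤ r)
    (h2 : |ρ ‖w‖ - ‖w‖ - (ρ ‖v‖ - ‖v‖)| ≤ c) : ‖rad r ρ w - rad r ρ v‖ ≤ 3 * ‖w - v‖ + c := by
  have e : rad r ρ w - rad r ρ v = (w - v) + ((ρ ‖v‖ - ‖v‖) • (dir r w - dir r v) +
      (ρ ‖w‖ - ‖w‖ - (ρ ‖v‖ - ‖v‖)) • dir r w) := by
    simp only [rad, smul_sub, sub_smul]
    abel
  rw [e]
  refine (norm_add_le _ _).trans ?_
  have h3 := norm_add_le ((ρ ‖v‖ - ‖v‖) • (dir r w - dir r v))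
    ((ρ ‖w‖ - ‖w‖ - (ρ ‖v‖ - ‖v‖)) • dir r w)
  rw [norm_smul, norm_smul, Real.norm_eq_abs, Real.norm_eq_abs] at h3
  linarith [mul_le_mul_of_nonneg_right h1 (norm_nonneg (dir r w - dir r v)), norm_dir_sub hr w v,
    mul_le_mul h2 (norm_dir_le hr w) (norm_nonneg _) ((abs_nonneg _).trans h2)]

variable {H : Type u} [Group H] [TopologicalSpace H] {ε : ℝ}

omit [NormedSpace ℝ E] in
/-- Conjugation of a local action. -/
def conj (a : LAct H E ε) {φ ψ : E → E} (hφ : Continuous φ) (hψ : Continuous ψ)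
    (h1 : ∀ w, φ (ψ w) = w) (h2 : ∀ y, ψ (φ y) = y) (h3 : ∀ w, ‖w‖ ≤ 1 → ‖ψ w‖ ≤ 1) {ε' : ℝ}
    (h4 : ∀ h w, ‖w‖ ≤ 1 → ‖φ (a.act h (ψ w)) - w‖ ≤ ε') : LAct H E ε' where
  act h w := φ (a.act h (ψ w))
  cont := hφ.comp_continuousOn (a.cont.comp (f := fun p : H × E => (p.1, ψ p.2)) (by fun_prop)
    fun p hp => ⟨trivial, mem_closedBall_zero_iff.2 (h3 _ (mem_closedBall_zero_iff.1 hp.2))⟩)
  one w hw := by rw [a.one _ (h3 w hw), h1]
  mul g h w hw hw' := by
    have := h3 _ hw'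
    rw [h2] at this ⊢
    rw [a.mul g h _ (h3 w hw) this]
  small := h4

omit [NormedSpace ℝ E] in
theorem isClosed_fix (a : LAct H E ε) : IsClosed {y | ‖y‖ ≤ 1 ∧ ∀ h, a.act h y = y} := by
  have : {y | ‖y‖ ≤ 1 ∧ ∀ h, a.act h y = y} =
      Metric.closedBall 0 1 ∩ ⋂ h, Metric.closedBall 0 1 ∩ (fun y => a.act h y - y) ⁻¹' {0} := by
    ext y
    simp +contextual [sub_eq_zero]
  rw [this]
  refine Metric.isClosed_closedBall.inter (isClosed_iInter fun h =>
    ContinuousOn.preimage_isClosed_of_isClosed ?_ Metric.isClosed_closedBall isClosed_singleton)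
  exact (a.cont.comp (f := fun y : E => (h, y)) (by fun_prop) fun y hy => ⟨trivial, hy⟩).sub
    continuousOn_id

omit [NormedSpace ℝ E] in
theorem exists_small [ProperSpace E] [CompactSpace H] (a : LAct H E ε) {x : E}
    (hx : ∀ h y, ‖y‖ ≤ 1 → ‖y - x‖ ≤ r → a.act h y = y) {e : ℝ} (he : 0 < e) :
    ∃ d > 0, ∀ h y, ‖y‖ ≤ 1 → ‖y - x‖ ≤ r + d → ‖a.act h y - y‖ ≤ e := by
  have hC : IsCompact ((univ ×ˢ Metric.closedBall (0 : E) 1) ∩
      (fun p : H × E => ‖a.act p.1 p.2 - p.2‖) ⁻¹' Ici e) :=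
    (isCompact_univ.prod (isCompact_closedBall _ _)).of_isClosed_subset
      (ContinuousOn.preimage_isClosed_of_isClosed (a.cont.sub continuousOn_snd).norm
        (isClosed_univ.prod Metric.isClosed_closedBall) isClosed_Ici) inter_subset_left
  obtain ⟨m, hm, h⟩ := hC.exists_forall_le' (f := fun p => ‖p.2 - x‖) (by fun_prop) (a := r)
    fun p hp => by
      by_contra hle
      have h1 := hp.2
      rw [mem_preimage, hx _ _ (mem_closedBall_zero_iff.1 hp.1.2) (not_lt.1 hle), sub_self,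
        norm_zero] at h1
      exact he.not_ge h1
  refine ⟨(m - r) / 2, by linarith, fun g y hy hd => by_contra fun hlt => ?_⟩
  have := h (g, y) ⟨⟨trivial, mem_closedBall_zero_iff.2 hy⟩, (not_le.1 hlt).le⟩
  simp only at this
  linarith

end PropAux

open PropAux in
/-- Local form of Newman's theorem, from Theorem S by a radial reparametrisation. `a` is a local
action on the unit ball with no smallness needed (`ε` is arbitrary); if `0` is in the closure of the
interior of the fixed set then it is in the interior. -/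
theorem SmallStmt.propagate {E : Type} [NormedAddCommGroup E] [NormedSpace ℝ E] [ProperSpace E]
    (hS : SmallStmt.{u} E) {H : Type u} [CommGroup H] [TopologicalSpace H] [IsTopologicalGroup H]
    [CompactSpace H] (hH : Good H) {ε : ℝ} (a : LAct H E ε)
    (h0 : (0 : E) ∈ closure (interior {y | ‖y‖ ≤ 1 ∧ ∀ h, a.act h y = y})) :
    (0 : E) ∈ interior {y | ‖y‖ ≤ 1 ∧ ∀ h, a.act h y = y} := by
  by_contra hn
  obtain ⟨ε', hε', hS⟩ := hS
  have hF := isClosed_fix a
  set F := {y | ‖y‖ ≤ 1 ∧ ∀ h, a.act h y = y} with hFd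
  obtain ⟨x, hx, hx0⟩ := Metric.mem_closure_iff.1 h0 (1 / 100) (by norm_num)
  rw [dist_comm, dist_zero_right] at hx0
  have hn' : (0 : E) ∈ closure Fᶜ := by rwa [closure_compl]
  have hne : Fᶜ.Nonempty := closure_nonempty_iff.1 ⟨0, hn'⟩
  set r := Metric.infDist x Fᶜ with hrd
  have hr : 0 < r := (Metric.infDist_pos_iff_notMem_closure hne).1 (by simpa using hx)
  have hr1 : r ≤ ‖x‖ := by
    have := Metric.infDist_le_dist_of_mem (x := x) hn'
    rwa [Metric.infDist_closure, dist_zero_right] at this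
  have hball : Metric.closedBall x r ⊆ F := by
    rw [← closure_ball x hr.ne']
    exact closure_minimal (by simpa using Metric.ball_infDist_compl_subset) hF
  have hsm := fun e he => exists_small a (x := x) (r := r) (e := e)
    (fun h y _ hy => (hball (mem_closedBall_iff_norm.2 hy)).2 h) he
  obtain ⟨K, hK⟩ := exists_nat_gt (4 / ε')
  have hK0 : (0 : ℝ) < K := lt_trans (by positivity) hK
  obtain ⟨D, hD, hD'⟩ := hsm (min (ε' * r / 12) (1 / 2)) (by positivity)
  obtain ⟨σ, d, hd, hc, hm, hσ0, hσK, hσ⟩ := exists_stair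
    (R := fun t t' => ∃ h y, ‖y‖ ≤ 1 ∧ t = ‖y - x‖ - r ∧ t' = ‖a.act h y - x‖ - r)
    (fun e he => by
      obtain ⟨d, hd, h⟩ := hsm (e / 2) (by positivity)
      refine ⟨min d (e / 2), by positivity, ?_⟩
      rintro _ _ ⟨g, y, hy, rfl, rfl⟩ ht
      rw [le_min_iff] at ht
      linarith [h g y hy (by linarith), norm_sub_le_norm_sub_add_norm_sub (a.act g y) y x])
    K D hD
  have hσ1 : ∀ t, 0 ≤ σ t ∧ σ t ≤ K := fun t =>
    ⟨(hσ0 _ (min_le_right t d)).ge.trans (hm (min_le_left _ _)),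
      (hm (le_max_left t D)).trans (hσK _ (le_max_right _ _)).le⟩
  set ρ : ℝ → ℝ := fun s => s + r / K * σ (s - r) with hρ
  have hρm : StrictMono ρ := strictMono_id.add_monotone
    ((hm.comp (monotone_id.add_const (-r))).const_mul (by positivity))
  have hρc : Continuous ρ := by fun_prop
  have hρ1 : ∀ s, ρ s - s = r / K * σ (s - r) := fun s => add_sub_cancel_left _ _
  have hρ2 : ∀ s, |ρ s - s| ≤ r := fun s => by
    rw [hρ1, abs_of_nonneg (mul_nonneg (by positivity) (hσ1 _).1), div_mul_eq_mul_div,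
      div_le_iff₀ hK0]
    exact mul_le_mul_of_nonneg_left (hσ1 _).2 hr.le
  have hρs : Function.Surjective ρ := hρc.surjective
    (tendsto_atTop_mono (fun s => by linarith [(abs_le.1 (hρ2 s)).1, id_eq s])
      (tendsto_atTop_add_const_right _ (-r) tendsto_id))
    (tendsto_atBot_mono (fun s => by linarith [(abs_le.1 (hρ2 s)).2, id_eq s])
      (tendsto_atBot_add_const_right _ r tendsto_id))
  set τ := (hρm.orderIsoOfSurjective ρ hρs).symm
  have hτ1 : ∀ s, τ (ρ s) = s := (hρm.orderIsoOfSurjective ρ hρs).symm_apply_apply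
  have hτ2 : ∀ s, ρ (τ s) = s := (hρm.orderIsoOfSurjective ρ hρs).apply_symm_apply
  have hρ3 : ∀ s, s ≤ r + d → ρ s = s := fun s hs => by simp [hρ, hσ0 (s - r) (by linarith)]
  have hρ4 : ∀ s, s ≤ r → ρ s = s := fun s hs => hρ3 s (by linarith)
  have hτ3 : ∀ s, s ≤ r + d → τ s = s := fun s hs => by
    conv_lhs => rw [← hρ3 s hs, hτ1]
  have hτ4 : ∀ s, s ≤ r → τ s = s := fun s hs => hτ3 s (by linarith)
  obtain ⟨b, hb, hbx⟩ := (Metric.infDist_lt_iff hne).1
    (show Metric.infDist x Fᶜ < r + min d (r / 2) from lt_add_of_pos_right _ (by positivity))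
  rw [dist_comm, dist_eq_norm] at hbx
  have hb1 := min_le_left d (r / 2)
  have hb2 := min_le_right d (r / 2)
  set φ : E → E := fun y => (r / 2)⁻¹ • (x + rad r ρ (y - x) - b) with hφ
  set ψ : E → E := fun w => x + rad r τ (b + (r / 2) • w - x) with hψ
  have hr2 : r / 2 ≠ 0 := by positivity
  have h1 : ∀ w, φ (ψ w) = w := fun w => by
    simp [hφ, hψ, rad_rad hr τ.monotone hτ4 hτ2, inv_smul_smul₀ hr2, -inv_div]
  have h2 : ∀ y, ψ (φ y) = y := fun y => by
    simp [hφ, hψ, rad_rad hr hρm.monotone hρ4 hτ1, smul_inv_smul₀ hr2, -inv_div]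
  have h3 : ∀ w, ‖w‖ ≤ 1 → ‖ψ w - x‖ ≤ r + D ∧ ‖ψ w‖ ≤ 1 / 2 := fun w hw => by
    have e1 : ‖b + (r / 2) • w - x‖ ≤ 2 * r := by
      rw [add_sub_right_comm]
      refine (norm_add_le _ _).trans ?_
      rw [norm_smul, Real.norm_of_nonneg (by positivity)]
      nlinarith
    have e2 : ‖ψ w - x‖ = τ ‖b + (r / 2) • w - x‖ := by
      rw [hψ, add_sub_cancel_left, norm_rad hr τ.monotone hτ4]
    have e3 : ρ (r + D) = 2 * r + D := by
      simp only [hρ, add_sub_cancel_left, hσK D le_rfl, div_mul_cancel₀ _ hK0.ne']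
      ring
    refine ⟨by rw [e2, ← hτ1 (r + D), e3]; exact τ.monotone (by linarith), ?_⟩
    have e4 := (abs_le.1 (hρ2 (τ ‖b + (r / 2) • w - x‖))).1
    rw [hτ2, ← e2] at e4
    linarith [norm_le_norm_add_norm_sub' (ψ w) x]
  have h4 := hS H hH (conj a (φ := φ) (ψ := ψ) (by have := continuous_rad (E := E) hr hρc; fun_prop)
    (by have := continuous_rad (E := E) hr τ.continuous; fun_prop) h1 h2
    (fun w hw => (h3 w hw).2.trans (by norm_num)) fun g w hw => by
      obtain ⟨e1, e2⟩ := h3 w hw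
      have e3 : ‖ψ w‖ ≤ 1 := e2.trans (by norm_num)
      have e4 := hD' g _ e3 e1
      rw [le_min_iff] at e4
      have e5 : ‖a.act g (ψ w)‖ ≤ 1 := by
        linarith [norm_le_norm_add_norm_sub' (a.act g (ψ w)) (ψ w)]
      have e6 := hσ _ _ ⟨g, ψ w, e3, rfl, rfl⟩
      have e7 := hσ _ (‖ψ w - x‖ - r) ⟨g⁻¹, a.act g (ψ w), e5, rfl, by
        rw [a.mul _ _ _ e3 e5, inv_mul_cancel, a.one _ e3]⟩
      have e8 := norm_rad_sub hr (v := ψ w - x) (w := a.act g (ψ w) - x) (c := r / K) (hρ2 _) (by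
        rw [hρ1, hρ1, ← mul_sub, abs_mul, abs_of_pos (by positivity : 0 < r / K)]
        exact mul_le_of_le_one_right (by positivity) (abs_le.2 ⟨by linarith, by linarith⟩))
      conv_lhs => rw [← h1 w, h2]
      simp only [hφ]
      rw [← smul_sub, sub_sub_sub_cancel_right, add_sub_add_left_eq_sub, norm_smul, norm_inv,
        Real.norm_of_nonneg (by positivity), inv_mul_le_iff₀ (by positivity)]
      rw [sub_sub_sub_cancel_right] at e8
      have e9 : r / K ≤ ε' * r / 4 := by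
        rw [div_lt_iff₀ hε'] at hK
        rw [div_le_iff₀ hK0]
        nlinarith
      linarith)
  have h5 : ψ 0 = b := by
    simp only [hψ, smul_zero, add_zero]
    rw [rad_of_eq (hτ3 _ (by linarith)), add_sub_cancel]
  refine hb ⟨h5 ▸ (h3 0 (by simp)).2.trans (by norm_num), fun g => ?_⟩
  have h6 := congrArg ψ (h4 g)
  simp only [conj, h2, h5] at h6
  exact h6

end Crest.Agent.R217
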