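import Crest.Agent.R217.GoodSub
import Crest.Agent.R217.Propagate

/-! # Row 217: Theorem S implies that the group has no small subgroups -/

set_option autoImplicit false

namespace Crest.Agent.R217

open Topology Filter Set

universe u

namespace RedAux

variable {M G H E : Type*} [TopologicalSpace M] [Group G] [TopologicalSpace G] [MulAction G M]
  [ContinuousSMul G M] [Group H] [TopologicalSpace H] [NormedAddCommGroup E] [NormedSpace ℝ E]

/-- The action read in a chart. -/
theorem exists_lact (e : OpenPartialHomeomorph M E) {f : H →* G} (hf : Continuous f) {z : E}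
    {δ c : ℝ} (hδ : 0 < δ) (h : ∀ y ∈ Metric.closedBall z δ, y ∈ e.target ∧
      ∀ g, f g • e.symm y ∈ e.source ∧ ‖e (f g • e.symm y) - y‖ ≤ c * δ) :
    ∃ a : LAct H E c, ∀ g w, ‖w‖ ≤ 1 →
      (a.act g w = w ↔ f g • e.symm (z + δ • w) = e.symm (z + δ • w)) := by
  have hm : ∀ w : E, ‖w‖ ≤ 1 → z + δ • w ∈ Metric.closedBall z δ := fun w hw => by
    rw [add_mem_closedBall_iff_norm, norm_smul, Real.norm_of_nonneg hδ.le]
    exact mul_le_of_le_one_right hδ.le hw
  have e1 : ∀ y : E, z + δ • δ⁻¹ • (y - z) = y := fun y => by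
    rw [smul_inv_smul₀ hδ.ne', add_sub_cancel]
  have e2 : ∀ w : E, δ⁻¹ • (z + δ • w - z) = w := fun w => by
    rw [add_sub_cancel_left, inv_smul_smul₀ hδ.ne']
  refine ⟨{ act := fun g w => δ⁻¹ • (e (f g • e.symm (z + δ • w)) - z)
            cont := ?_
            one := fun w hw => by rw [map_one, one_smul, e.right_inv (h _ (hm w hw)).1, e2]
            mul := fun g g' w hw _ => by
              rw [e1, e.left_inv ((h _ (hm w hw)).2 g').1, map_mul, mul_smul]
            small := fun g w hw => ?_ }, fun g w hw => ⟨fun h1 => ?_, fun h1 => ?_⟩⟩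
  · refine ((e.continuousOn.comp (f := fun p : H × E => f p.1 • e.symm (z + δ • p.2))
      (ContinuousOn.smul (by fun_prop) (e.continuousOn_symm.comp
        (f := fun p : H × E => z + δ • p.2) (by fun_prop) fun p hp => ?_)) fun p hp => ?_).sub
      continuousOn_const).const_smul δ⁻¹
    · exact (h _ (hm _ (mem_closedBall_zero_iff.1 hp.2))).1
    · exact ((h _ (hm _ (mem_closedBall_zero_iff.1 hp.2))).2 _).1
  · conv_lhs => rw [← e2 w, e1]
    rw [← smul_sub, sub_sub_sub_cancel_right, norm_smul, norm_inv, Real.norm_of_nonneg hδ.le,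
      inv_mul_le_iff₀ hδ, mul_comm]
    exact ((h _ (hm w hw)).2 g).2
  · have h2 := congrArg (fun w => e.symm (z + δ • w)) h1
    simp only [e1] at h2
    rwa [e.left_inv ((h _ (hm w hw)).2 g).1] at h2
  · simp only [h1, e.right_inv (h _ (hm w hw)).1, e2]

omit [NormedSpace ℝ E] in
theorem eventually_near (e : OpenPartialHomeomorph M E) {g : G} {y : E} (hy : y ∈ e.target)
    (h : g • e.symm y = e.symm y) {c : ℝ} (hc : 0 < c) :
    ∀ᶠ p : G × E in 𝓝 (g, y), p.2 ∈ e.target ∧ p.1 • e.symm p.2 ∈ e.source ∧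
      ‖e (p.1 • e.symm p.2) - p.2‖ ≤ c := by
  have h1 : ContinuousAt (fun p : G × E => p.1 • e.symm p.2) (g, y) :=
    continuousAt_fst.smul ((e.continuousAt_symm hy).comp_of_eq continuousAt_snd rfl)
  have h2 : g • e.symm y ∈ e.source := by rw [h]; exact e.map_target hy
  have h3 : ContinuousAt (fun p : G × E => ‖e (p.1 • e.symm p.2) - p.2‖) (g, y) :=
    (((e.continuousAt h2).comp_of_eq h1 rfl).sub continuousAt_snd).norm
  refine (continuousAt_snd.eventually_mem (e.open_target.mem_nhds hy)).and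
    ((h1.eventually_mem (e.open_source.mem_nhds h2)).and (h3.eventually_le_const ?_))
  simpa [h, e.right_inv hy] using hc

end RedAux

open RedAux in
theorem nss_of_small {n : ℕ} (hS : SmallStmt.{u} (Fin n → ℝ))
    (M : Type*) [TopologicalSpace M] [T2Space M] [ConnectedSpace M]
    [ChartedSpace (EuclideanSpace ℝ (Fin n)) M]
    (G : Type u) [Group G] [TopologicalSpace G] [IsTopologicalGroup G] [T2Space G]
    [SecondCountableTopology G] [LocallyCompactSpace G]
    [MulAction G M] [ContinuousSMul G M] [FaithfulSMul G M] : NSS G := by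
  by_contra hn
  simp only [NSS, not_exists, not_and, not_forall] at hn
  have hch : ∀ x : M, ∃ e : OpenPartialHomeomorph M (Fin n → ℝ), x ∈ e.source := fun x =>
    ⟨(chartAt (EuclideanSpace ℝ (Fin n)) x).transHomeomorph
      (EuclideanSpace.equiv (Fin n) ℝ).toHomeomorph, mem_chart_source _ x⟩
  obtain ⟨ε, hε, hS'⟩ := id hS
  obtain ⟨x₀⟩ : Nonempty M := inferInstance
  obtain ⟨e₀, hx₀⟩ := hch x₀
  obtain ⟨δ₀, hδ₀, hb₀⟩ := Metric.nhds_basis_closedBall.mem_iff.1
    (e₀.open_target.mem_nhds (e₀.map_source hx₀))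
  have hU := (isCompact_closedBall (e₀ x₀) δ₀).eventually_forall_of_forall_eventually
    (x₀ := (1 : G)) (P := fun g y => y ∈ e₀.target ∧ g • e₀.symm y ∈ e₀.source ∧
      ‖e₀ (g • e₀.symm y) - y‖ ≤ ε * (δ₀ / 2))
    fun y hy => eventually_near e₀ (hb₀ hy) (one_smul _ _) (by positivity)
  obtain ⟨U, hU1, hU2, hU3⟩ := local_compact_nhds hU
  obtain ⟨K, hK, hK'⟩ := hn U hU1
  have hKU : (K.topologicalClosure : Set G) ⊆ U := closure_minimal hK hU3.isClosed
  obtain ⟨H, _, _, _, _, f, ⟨hH⟩, hf, hinj, hfK⟩ := exists_good K.topologicalClosure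
    (hU3.of_isClosed_subset K.isClosed_topologicalClosure hKU)
    fun h => hK' (le_bot_iff.1 (K.le_topologicalClosure.trans h.le))
  set F : Set M := {m | ∀ g, f g • m = m}
  have hFc : IsClosed F := by
    simp only [F, ofPred_forall]
    exact isClosed_iInter fun g => isClosed_eq (continuous_const_smul _) continuous_id
  have h0 : x₀ ∈ interior F := by
    rw [mem_interior_iff_mem_nhds]
    filter_upwards [e₀.open_source.mem_nhds hx₀, (e₀.continuousAt hx₀).eventually_mem
      (Metric.closedBall_mem_nhds _ (half_pos hδ₀))] with m hm hm' g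
    obtain ⟨a, ha⟩ := exists_lact e₀ hf (z := e₀ m) (c := ε) (half_pos hδ₀) fun y hy => by
      have hy' : y ∈ Metric.closedBall (e₀ x₀) δ₀ :=
        Metric.closedBall_subset_closedBall' (by linarith [Metric.mem_closedBall.1 hm']) hy
      exact ⟨hb₀ hy', fun g => (hU2 (hKU (hfK g)) y hy').2⟩
    simpa [e₀.left_inv hm] using (ha g 0 (by simp)).1 (hS' H hH a g)
  have h1 : IsClosed (interior F) := by
    refine isClosed_of_closure_subset fun x hx => ?_
    have hxF : x ∈ F := closure_minimal interior_subset hFc hx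
    obtain ⟨e, he⟩ := hch x
    have h2 := (isCompact_univ (X := H)).eventually_forall_of_forall_eventually (x₀ := e x)
      (P := fun y g => y ∈ e.target ∧ f g • e.symm y ∈ e.source ∧ ‖e (f g • e.symm y) - y‖ ≤ 1)
      fun g _ => (show ContinuousAt (fun p : (Fin n → ℝ) × H => (f p.2, p.1)) (e x, g) by
        fun_prop).eventually (eventually_near e (e.map_source he)
          (by rw [e.left_inv he]; exact hxF g) one_pos)
    obtain ⟨δ, hδ, hb⟩ := Metric.nhds_basis_closedBall.mem_iff.1 h2
    obtain ⟨a, ha⟩ := exists_lact e hf (z := e x) (c := δ⁻¹) hδ fun y hy =>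
      ⟨(hb hy 1 trivial).1, fun g => by rw [inv_mul_cancel₀ hδ.ne']; exact (hb hy g trivial).2⟩
    have e1 : ∀ m, e x + δ • δ⁻¹ • (e m - e x) = e m := fun m => by
      rw [smul_inv_smul₀ hδ.ne', add_sub_cancel]
    have h3 : Tendsto (fun m => δ⁻¹ • (e m - e x)) (𝓝 x) (𝓝 0) := by
      simpa using ((e.continuousAt he).tendsto.sub_const (e x)).const_smul δ⁻¹
    have h4 := hS.propagate hH a (mem_closure_of_frequently_of_tendsto
      (((mem_closure_iff_frequently.1 hx).and_eventually ((e.open_source.eventually_mem he).and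
        (h3.eventually_mem (Metric.ball_mem_nhds _ one_pos)))).mono fun m ⟨m1, m2, m3⟩ => by
          have h5 : ContinuousAt (fun w => e.symm (e x + δ • w)) (δ⁻¹ • (e m - e x)) :=
            (e.continuousAt_symm (e.map_source m2)).comp_of_eq (by fun_prop) (e1 m)
          rw [mem_interior_iff_mem_nhds] at m1 ⊢
          filter_upwards [Metric.isOpen_ball.mem_nhds m3, h5.eventually_mem (s := F)
            (by rwa [e1, e.left_inv m2])] with w w1 w2
          have w3 := (mem_ball_zero_iff.1 w1).le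
          exact ⟨w3, fun g => (ha g w w3).2 (w2 g)⟩) h3)
    rw [mem_interior_iff_mem_nhds] at h4 ⊢
    filter_upwards [e.open_source.mem_nhds he, h3.eventually_mem h4] with m m1 m2 g
    have := (ha g _ m2.1).1 (m2.2 g)
    rwa [e1, e.left_inv m1] at this
  have h2 := IsClopen.eq_univ ⟨h1, isOpen_interior⟩ ⟨x₀, h0⟩
  obtain ⟨g, hg⟩ := hH.nontriv
  have h3 : f g = f 1 := eq_of_smul_eq_smul (α := M) fun m => by
    rw [map_one, one_smul]
    exact interior_subset (h2.ge (mem_univ m)) g
  exact hg (by rw [hinj h3, map_one])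

end Crest.Agent.R217
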