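import Crest.Agent.R217.TheoremS
import Crest.Agent.R217.Reduce
import Crest.Agent.R217.GYWeak
import Crest.Agent.R217.GYComm
import Crest.Agent.R217.GYExp
import Crest.Agent.R217.GYLocalLie
import Crest.Agent.R217.GYLie

/-! # Row 217: the Hilbert-Smith conjecture -/

set_option autoImplicit false

namespace Crest.Agent.R217

open scoped Manifold ContDiff

universe u

/-- Gleason-Yamabe: locally compact NSS groups are Lie groups. -/
theorem lie_of_nss (G : Type u) [Group G] [TopologicalSpace G] [IsTopologicalGroup G] [T2Space G]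
    [SecondCountableTopology G] [LocallyCompactSpace G] (h : NSS G) :
    ∃ (d : ℕ) (c : ChartedSpace (EuclideanSpace ℝ (Fin d)) G),
      @LieGroup ℝ _ (EuclideanSpace ℝ (Fin d)) _ (EuclideanSpace ℝ (Fin d)) _ _
        𝓘(ℝ, EuclideanSpace ℝ (Fin d)) ∞ G _ _ c := by
  obtain ⟨W⟩ := exists_wGleason h
  obtain ⟨Γ⟩ := W.exists_gleason
  obtain ⟨L, _, _, ⟨E⟩⟩ := Γ.exists_preExp
  haveI := E.finiteDimensional
  obtain ⟨M⟩ := E.exists_localLie
  exact M.lieGroup

theorem hilbert_smith (n : ℕ)
    (M : Type*) [TopologicalSpace M] [T2Space M] [ConnectedSpace M]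
    [ChartedSpace (EuclideanSpace ℝ (Fin n)) M]
    (G : Type u) [Group G] [TopologicalSpace G] [IsTopologicalGroup G] [T2Space G]
    [SecondCountableTopology G] [LocallyCompactSpace G]
    [MulAction G M] [ContinuousSMul G M] [FaithfulSMul G M] :
    ∃ (d : ℕ) (c : ChartedSpace (EuclideanSpace ℝ (Fin d)) G),
      @LieGroup ℝ _ (EuclideanSpace ℝ (Fin d)) _ (EuclideanSpace ℝ (Fin d)) _ _
        𝓘(ℝ, EuclideanSpace ℝ (Fin d)) ∞ G _ _ c :=
  lie_of_nss G (nss_of_small (smallStmt_double n).of_double M G)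

end Crest.Agent.R217
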