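import Crest.Agent.R217.Norm2AuxD

/-! # Row 217: the algebra of shifts -/

set_option autoImplicit false
set_option linter.unusedSectionVars false

namespace Crest.Agent.R217.Norm2

open Matrix Complex

variable {N : ℕ} [NeZero N]

theorem Wm_mul (y z : ℤ) : Wm N y * Wm N z = Wm N (y + z) := by
  ext a b
  simp only [Matrix.mul_apply, Wm]
  rw [Finset.sum_eq_single (b + (z : ZMod N))]
  · simp [add_assoc, add_comm (z : ZMod N)]
  · intro c _ hc; simp [hc]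
  · simp

theorem Wm_ct (z : ℤ) : (Wm N z)ᴴ = Wm N (-z) := by
  ext a b
  simp only [conjTranspose_apply, Wm, apply_ite star, star_one, star_zero, Int.cast_neg]
  congr 1
  exact propext ⟨fun h => by rw [h]; ring, fun h => by rw [h]; ring⟩

theorem Wm_zero : Wm N 0 = 1 := by
  ext a b
  simp [Wm, one_apply]

instance : IsStarNormal (Wm N 1) where
  star_comm_self := by
    change (Wm N 1)ᴴ * Wm N 1 = Wm N 1 * (Wm N 1)ᴴ
    rw [Wm_ct, Wm_mul, Wm_mul]; rfl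

variable (N) in
/-- the algebra of shifts. -/
def Sh : Type := StarAlgebra.adjoin ℂ ({Wm N 1} : Set (Matrix (ZMod N) (ZMod N) ℂ))

open scoped IsMulCommutative in
noncomputable instance : CommRing (Sh N) :=
  inferInstanceAs (CommRing (StarAlgebra.adjoin ℂ ({Wm N 1} : Set (Matrix (ZMod N) (ZMod N) ℂ))))

noncomputable instance : StarRing (Sh N) :=
  inferInstanceAs (StarRing (StarAlgebra.adjoin ℂ ({Wm N 1} : Set (Matrix (ZMod N) (ZMod N) ℂ))))

/-- the inclusion. -/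
noncomputable def Sh.φ : Sh N →+* Matrix (ZMod N) (ZMod N) ℂ :=
  (StarAlgebra.adjoin ℂ ({Wm N 1} : Set (Matrix (ZMod N) (ZMod N) ℂ))).subtype.toRingHom

theorem Sh.φ_inj : Function.Injective (Sh.φ (N := N)) := Subtype.val_injective

instance : IsAddTorsionFree (Sh N) where
  nsmul_right_injective n hn x y h := by
    apply Sh.φ_inj
    have := congrArg Sh.φ h
    simp only [map_nsmul] at this
    ext a b
    exact nsmul_right_injective hn (congrFun (congrFun this a) b)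

theorem mem1 : Wm N 1 ∈ StarAlgebra.adjoin ℂ ({Wm N 1} : Set (Matrix (ZMod N) (ZMod N) ℂ)) :=
  StarAlgebra.self_mem_adjoin_singleton ℂ _

theorem mem2 : Wm N (-1) ∈ StarAlgebra.adjoin ℂ ({Wm N 1} : Set (Matrix (ZMod N) (ZMod N) ℂ)) := by
  rw [← Wm_ct]
  exact star_mem mem1

variable (N) in
/-- the representation. -/
noncomputable def rep : Rep N (Sh N) where
  a := ⟨(1 / 2 : ℂ) • (1 + Wm N (-1)), SMulMemClass.smul_mem _ (add_mem (one_mem _) mem2)⟩
  b := ⟨(1 / 2 : ℂ) • (1 + Wm N 1), SMulMemClass.smul_mem _ (add_mem (one_mem _) mem1)⟩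
  i := ⟨I • 1, SMulMemClass.smul_mem _ (one_mem _)⟩
  h := ⟨(1 / 2 : ℂ) • 1, SMulMemClass.smul_mem _ (one_mem _)⟩
  hi := Sh.φ_inj (by
    rw [map_mul, map_neg, map_one]
    change (I • 1) * (I • 1) = (-1 : Matrix (ZMod N) (ZMod N) ℂ)
    simp [smul_smul])
  hh := Sh.φ_inj (by
    rw [two_mul, map_add, map_one]
    change (1 / 2 : ℂ) • 1 + (1 / 2 : ℂ) • 1 = (1 : Matrix (ZMod N) (ZMod N) ℂ)
    rw [← add_smul]; norm_num)
  hab := Sh.φ_inj (by
    rw [two_mul, map_add, map_add, map_mul]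
    change (1 / 2 : ℂ) • (1 + Wm N (-1)) * (1 / 2 : ℂ) • (1 + Wm N 1) +
      (1 / 2 : ℂ) • (1 + Wm N (-1)) * (1 / 2 : ℂ) • (1 + Wm N 1) =
      (1 / 2 : ℂ) • (1 + Wm N (-1)) + (1 / 2 : ℂ) • (1 + Wm N 1)
    simp only [Matrix.smul_mul, Matrix.mul_smul, add_mul, mul_add, one_mul, mul_one, Wm_mul,
      neg_add_cancel, Wm_zero]
    module)
  sa := Sh.φ_inj (by
    change ((1 / 2 : ℂ) • (1 + Wm N (-1)))ᴴ = (1 / 2 : ℂ) • (1 + Wm N 1)
    simp [Wm_ct])
  sb := Sh.φ_inj (by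
    change ((1 / 2 : ℂ) • (1 + Wm N 1))ᴴ = (1 / 2 : ℂ) • (1 + Wm N (-1))
    simp [Wm_ct])
  si := Sh.φ_inj (by
    rw [map_neg]
    change (I • (1 : Matrix (ZMod N) (ZMod N) ℂ))ᴴ = -(I • 1)
    simp)
  sh := Sh.φ_inj (by
    change ((1 / 2 : ℂ) • (1 : Matrix (ZMod N) (ZMod N) ℂ))ᴴ = (1 / 2 : ℂ) • 1
    simp)
  φ := Sh.φ
  φ_star _ := rfl
  φ_a := rfl
  φ_b := rfl
  φ_i := rfl
  φ_h := rfl

end Crest.Agent.R217.Norm2
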