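import Crest.Agent.R217.Ind
import Crest.Agent.R217.Grid2
import Crest.Agent.R217.Norm2AuxE

/-! # Row 217: the index of the two dimensional grid is `4` -/

set_option autoImplicit false
set_option linter.unusedSectionVars false

namespace Crest.Agent.R217

open Matrix Complex

namespace Norm2

variable {N : ℕ} [NeZero N]

/-- the cells of degree one. -/
def eqv : ZMod N × Fib N ≃ {i : Cell2 N // i.2.1 ≠ i.2.2} where
  toFun x := ⟨((x.1, x.2.2), ![(true, false), (false, true)] x.2.1), by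
    obtain ⟨s, k, t⟩ := x
    fin_cases k <;> simp⟩
  invFun i := (i.1.1.1, if i.1.2.1 then 0 else 1, i.1.1.2)
  left_inv := by
    rintro ⟨s, k, t⟩
    fin_cases k <;> simp
  right_inv := by
    rintro ⟨⟨⟨s, t⟩, _ | _, _ | _⟩, h⟩ <;> simp at h ⊢

theorem sft_apply (s t : ℤ) (x y : Z2 N) :
    sft N s t x y = if x.1 = y.1 + s then Wm N t x.2 y.2 else 0 := by
  simp only [sft, Wm, Prod.ext_iff, Prod.fst_add, Prod.snd_add, ite_and]

namespace Rep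

variable {R : Type*} [CommRing R] [StarRing R] [IsAddTorsionFree R] (g : Rep N R)

theorem S2_eq : (cpr (fun i : Cell2 N => i.2.1 ≠ i.2.2) (S2 N)).submatrix eqv eqv =
    Lm N (g.Φ _ g.Ap) (g.Φ _ g.A0) (g.Φ _ g.Am) := by
  ext ⟨s, k, t⟩ ⟨s', l, t'⟩
  fin_cases k <;> fin_cases l <;>
    simp [eqv, S2, lift2, Lm, Φ_apply, Gen.Ap, Gen.A0, Gen.Am, Gen.S, g.φ_a, g.φ_b, g.φ_i, g.φ_h,
      sinZ, sinW, b12, b21, sft_apply, Wm_zero, ← sub_eq_add_neg] <;>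
    split_ifs <;> ring

theorem S2'_eq : (cpr (fun i : Cell2 N => i.2.1 ≠ i.2.2) (S2' N)).submatrix eqv eqv =
    Lm N (g.Φ _ g.Bp) (g.Φ _ g.B0) (g.Φ _ g.Bm) := by
  ext ⟨s, k, t⟩ ⟨s', l, t'⟩
  fin_cases k <;> fin_cases l <;>
    simp [eqv, S2', lift2, Lm, Φ_apply, Gen.Bp, Gen.B0, Gen.Bm, Gen.S, g.φ_a, g.φ_b, g.φ_i, g.φ_h,
      sinZ, sinW, b12, b21, sft_apply, Wm_zero, ← sub_eq_add_neg] <;>
    split_ifs <;> ring

/-- the first cut. -/
noncomputable def r₁ (s : ZMod N) : ℝ := if 0 < s.valMinAbs then 1 else 0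

/-- the isometry over a site. -/
noncomputable def αs (s : ZMod N) : Matrix (Fib N ⊕ Fib N) (Fib N ⊕ Fib N) ℂ :=
  if s = 1 then g.Ψ g.α else if 0 < s.valMinAbs then -1 else 1

theorem al_site {M : ℕ} (hM : 20 ≤ M) (hN : 2 * M + 40 ≤ N)
    (hAB : Lm N (g.Φ _ g.Ap) (g.Φ _ g.A0) (g.Φ _ g.Am) *
      Lm N (g.Φ _ g.Bp) (g.Φ _ g.B0) (g.Φ _ g.Bm) = 1)
    {s : ZMod N} (hs : s.valMinAbs.natAbs ≤ M) :
    al (fun i : ZMod N × Fib N => r₁ i.1) (Lm N (g.Φ _ g.Ap) (g.Φ _ g.A0) (g.Φ _ g.Am))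
      (Lm N (g.Φ _ g.Bp) (g.Φ _ g.B0) (g.Φ _ g.Bm)) * io2 (Fib N) s = io2 (Fib N) s * g.αs s := by
  have hr : ∀ s : ZMod N, r₁ s = 0 ∨ r₁ s = 1 := fun s => by
    unfold r₁; split_ifs <;> simp
  have v1 := vm_int (N := N) (z := 1) (by omega)
  have v2 := vm_int (N := N) (z := 2) (by omega)
  have v3 := vm_int (N := N) (z := -1) (by omega)
  push_cast at v1 v2 v3
  unfold αs
  split_ifs with h1 h2
  · subst h1
    rw [al_io_one hr (by simp [r₁]) (by simp [r₁, v3]) (by simp [r₁, v1]) (by simp [r₁, v2]) hAB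
      (by rw [← map_mul, ← map_mul]; exact (congrArg _ g.Ap_q').trans (map_zero _))
      (by rw [← map_mul, ← map_mul]; exact (congrArg _ g.Bp_q).trans (map_zero _)),
      Gen.α, Ψ_fromBlocks]
    simp only [map_sub, map_add, map_mul, map_neg, map_one, Gen.q, Gen.q']
  · have e1 : s.valMinAbs ≠ 1 := fun h => h1 (by rwa [← v1, ZMod.valMinAbs_inj] at h)
    have a1 := vm_add s 1 (by omega)
    have a2 := vm_add s (-1) (by omega)
    push_cast at a1 a2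
    rw [← sub_eq_add_neg] at a2
    exact al_io_pos hr (by simp [r₁, h2]) (by rw [r₁, a1, if_pos (by omega)])
      (by rw [r₁, a2, if_pos (by omega)]) hAB
  · exact al_io_zero (by simp [r₁, h2]) _ _

theorem sig_cut {M : ℕ} (hM : 20 ≤ M) (hN : 2 * M + 40 ≤ N)
    {U : Matrix ((ZMod N × Fib N) ⊕ (ZMod N × Fib N)) ((ZMod N × Fib N) ⊕ (ZMod N × Fib N)) ℂ}
    (hU : ∀ s : ZMod N, s.valMinAbs.natAbs ≤ M → U * io2 (Fib N) s = io2 (Fib N) s * g.αs s)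
    (P : (ZMod N × Fib N) ⊕ (ZMod N × Fib N) → Prop)
    (hP : ∀ s x, P (fs s x) ↔ s.valMinAbs.natAbs ≤ M ∧ (tt x).valMinAbs.natAbs ≤ M) :
    sigOn P (Uᴴ * Bt ℂ (fun i : ZMod N × Fib N => τ₁ i.2) * U) = 4 := by
  classical
  have v1 := vm_int (N := N) (z := 1) (by omega)
  push_cast at v1
  have hfs : ∀ i : (ZMod N × Fib N) ⊕ (ZMod N × Fib N), ∃ s x, i = fs s x := by
    rintro (⟨s, x⟩ | ⟨s, x⟩)
    · exact ⟨s, Sum.inl x, rfl⟩
    · exact ⟨s, Sum.inr x, rfl⟩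
  have hst : ∀ (s : ZMod N) (x : Fib N ⊕ Fib N), Sum.elim Prod.fst Prod.fst (fs s x) = s := by
    rintro s (x | x) <;> rfl
  have hE : ∀ s s' x y, P (fs s x) → P (fs s' y) →
      (Uᴴ * Bt ℂ (fun i : ZMod N × Fib N => τ₁ i.2) * U) (fs s x) (fs s' y) =
        (if s = s' then (g.αs s)ᴴ * Bt ℂ τ₁ * g.αs s' else 0 :
          Matrix (Fib N ⊕ Fib N) (Fib N ⊕ Fib N) ℂ) x y := fun s s' x y hx hy =>
    congrFun (congrFun (cut_entry τ₁ (hU s ((hP s x).1 hx).1) (hU s' ((hP s' y).1 hy).1)) x) y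
  rw [sigOn_split (isHermitian_conjTranspose_mul_mul U (CutAux.Bt_isHermitian _)) P
    (fun i => Sum.elim Prod.fst Prod.fst i = 1)]
  · rw [sigOn_embed _ (f := fs (1 : ZMod N)) ?_ _ (fun x => (tt x).valMinAbs.natAbs ≤ M) ?_,
      cut_entry τ₁ (hU 1 (by omega)) (hU 1 (by omega)), if_pos rfl, αs, if_pos rfl, g.wind_α hM hN,
      sigOn_eq, sig_hyp (fun i => i.1.isLeft = true), add_zero]
    · rintro ⟨i, hi, hi'⟩ ⟨j, hj, hj'⟩ h
      obtain ⟨s, x, rfl⟩ := hfs i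
      obtain ⟨s', y, rfl⟩ := hfs j
      rw [hst] at hi' hj'
      change (Uᴴ * Bt ℂ (fun i : ZMod N × Fib N => τ₁ i.2) * U) (fs s x) (fs s' y) = 0
      rw [hE _ _ _ _ hi hj]
      split_ifs with hs
      · subst hs
        rw [αs, if_neg hi']
        rcases x with x | x <;> rcases y with y | y <;> simp [fs] at h <;> split_ifs <;> simp [Bt]
      · rfl
    · exact Function.Injective.sumMap (Prod.mk_right_injective _) (Prod.mk_right_injective _)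
    · intro i
      obtain ⟨s, x, rfl⟩ := hfs i
      rw [hst, hP]
      constructor
      · rintro ⟨h, rfl⟩
        exact ⟨x, h.2, rfl⟩
      · rintro ⟨y, hy, h⟩
        have hs : 1 = s := by rw [← hst s x, ← h, hst]
        subst hs
        obtain rfl : y = x := Function.Injective.sumMap (Prod.mk_right_injective _)
          (Prod.mk_right_injective _) h
        exact ⟨⟨by omega, hy⟩, rfl⟩
  · intro i j hi hj hi' hj'
    obtain ⟨s, x, rfl⟩ := hfs i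
    obtain ⟨s', y, rfl⟩ := hfs j
    rw [hst] at hi' hj'
    rw [hE _ _ _ _ hi hj, if_neg (fun h : s = s' => hj' (h ▸ hi'))]
    rfl

end Rep

end Norm2

open Norm2 in
theorem Ind_S2 (N M : ℕ) [NeZero N] (hM : 20 ≤ M) (hN : 2 * M + 40 ≤ N) :
    Ind (K2 N M) [cut2 N] Prod.fst (S2 N) (S2' N) = 4 := by
  have hp : ∀ i j : Cell2 N, i.2.1 ≠ i.2.2 → ¬ j.2.1 ≠ j.2.2 → S2 N i j = 0 := by
    rintro ⟨x, _ | _, _ | _⟩ ⟨y, _ | _, _ | _⟩ hi hj <;> first | rfl | simp at hi hj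
  rw [Ind_split _ _ _ (HI_S2 N) (fun i => i.2.1 ≠ i.2.2) hp,
    Ind_hyp _ _ _ (A := cpr (fun i : Cell2 N => ¬ i.2.1 ≠ i.2.2) (S2 N))
      (fun i => i.1.2.1 = true), add_zero, ← Ind_equiv _ _ _ _ _ eqv]
  · have hAB := ((HI_S2 N).cpr (fun i => i.2.1 ≠ i.2.2) hp).mul
    have hAB' := congrArg (fun A => A.submatrix (eqv (N := N)) eqv) hAB
    simp only [← submatrix_mul_equiv _ _ _ eqv, submatrix_one_equiv] at hAB'
    rw [(rep N).S2_eq, (rep N).S2'_eq] at hAB' ⊢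
    refine (rep N).sig_cut hM hN (fun s hs => (rep N).al_site hM hN hAB' hs) _ ?_
    rintro s (x | x) <;> rfl
  · rintro ⟨⟨x, _ | _, _ | _⟩, hi⟩ ⟨⟨y, _ | _, _ | _⟩, hj⟩ h <;> first | rfl | simp at hi hj h
  · rintro ⟨⟨x, _ | _, _ | _⟩, hi⟩ ⟨⟨y, _ | _, _ | _⟩, hj⟩ h <;> first | rfl | simp at hi hj h

end Crest.Agent.R217
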