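import Crest.Agent.R217.Ctl

/-! # Row 217: the commutative algebra behind the index of the two dimensional grid -/

set_option autoImplicit false
set_option linter.unusedSectionVars false
set_option linter.unusedSimpArgs false

namespace Crest.Agent.R217.Norm2

open Matrix

theorem al_eq {ι R : Type*} [Fintype ι] [DecidableEq ι] [CommRing R] (X Y : Matrix ι ι R) :
    al1 X Y * al1 X Y = fromBlocks
      ((1 - X * Y) * (1 - X * Y) + (1 - X * Y) * (1 - X * Y) - 1)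
      (-((1 + (1 - X * Y)) * (X * (1 - Y * X)) + (1 + (1 - X * Y)) * (X * (1 - Y * X))))
      (Y * (1 - X * Y) + Y * (1 - X * Y))
      ((1 - Y * X) * (1 - Y * X) + (1 - Y * X) * (1 - Y * X) - 1) := by
  simp only [al1, Ep, Em, fromBlocks_multiply]
  congr 1 <;> noncomm_ring

/-- The generators: `a = (1 + w⁻¹) / 2`, `b = (1 + w) / 2`, `i = I`, `h = 1 / 2`. -/
structure Gen (R : Type*) [CommRing R] [StarRing R] where
  a : R
  b : R
  i : R
  h : R
  hi : i * i = -1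
  hh : 2 * h = 1
  hab : 2 * (a * b) = a + b
  sa : star a = b
  sb : star b = a
  si : star i = -i
  sh : star h = h

namespace Gen

variable {R : Type*} [CommRing R] [StarRing R] (g : Gen R)

abbrev M2 (R : Type*) := Matrix (Fin 2) (Fin 2) R
abbrev M4 (R : Type*) := Matrix (Fin 2 ⊕ Fin 2) (Fin 2 ⊕ Fin 2) R

def S : R := g.i * (g.a - g.b)
def c : R := g.a * g.b

def Ap : M2 R := !![0, 0; -(g.i * g.a), -(g.i * g.h)]
def A0 : M2 R := !![-g.S, g.i * (g.b - 1); -(g.i * (g.a - 1)), 0]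
def Am : M2 R := !![0, g.i * g.b; 0, g.i * g.h]
def Bp : M2 R := !![g.i * g.h, 0; -(g.i * g.a), 0]
def B0 : M2 R := !![0, g.i * (g.b - 1); -(g.i * (g.a - 1)), g.S]
def Bm : M2 R := !![-(g.i * g.h), g.i * g.b; 0, 0]

def q : M2 R := g.Ap * g.Bm
def q' : M2 R := g.Bp * g.Am

def α : M4 R := fromBlocks (g.q' * g.q' + g.q' * g.q' - 1)
  (-((1 + g.q') * (g.B0 * g.q) + (1 + g.q') * (g.B0 * g.q))) (g.A0 * g.q' + g.A0 * g.q')
  (g.q * g.q + g.q * g.q - 1)

def J : M4 R := fromBlocks 0 !![g.i, 0; 0, g.i] !![-g.i, 0; 0, -g.i] 0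

def n₁ : M4 R := fromBlocks !![0, -(g.c * g.b); 0, 0] 0 0 !![0, 0; g.c * g.a, 0]
def n₂ : M4 R := fromBlocks 0 !![(1 + g.c) * g.S * (g.h - g.c * g.c), -((1 + g.c) * g.S * g.b);
  -((1 + g.c) * g.S * g.a), -g.S] 0 0
def n₃ : M4 R := fromBlocks 0 !![0, 0; 0, -g.S] 0 0
def Rot : M4 R := fromBlocks !![-1, 0; 0, g.c + g.c - 1] !![0, 0; 0, -(g.S + g.S)]
  !![0, 0; 0, g.h * g.S] !![-1, 0; 0, g.c + g.c - 1]
def T : M4 R := fromBlocks !![1, 0; 0, 1 + 1] !![1, 0; 0, 1 + 1] !![-g.i, 0; 0, -g.i]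
  !![g.i, 0; 0, g.i]
def T' : M4 R := fromBlocks !![g.h, 0; 0, g.h * g.h] !![g.h * g.i, 0; 0, g.h * g.i]
  !![g.h, 0; 0, g.h * g.h] !![-(g.h * g.i), 0; 0, -(g.h * g.i)]
def Λ : M4 R := fromBlocks !![-1, 0; 0, g.b + g.b - 1] 0 0 !![-1, 0; 0, g.a + g.a - 1]
def Δ (_g : Gen R) : M4 R := fromBlocks !![2, 0; 0, 4] 0 0 !![-2, 0; 0, -4]

variable [IsAddTorsionFree R]

theorem q_eq : g.q = !![0, 0; -(g.h * g.a), g.c] := by
  have := g.hi
  ext x y
  fin_cases x <;> fin_cases y <;> simp [q, Ap, Bm, c, Matrix.mul_apply, Fin.sum_univ_two] <;> grind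

theorem q'_eq : g.q' = !![0, -(g.h * g.b); 0, g.c] := by
  have := g.hi
  ext x y
  fin_cases x <;> fin_cases y <;> simp [q', Bp, Am, c, Matrix.mul_apply, Fin.sum_univ_two] <;> grind

theorem Ap_q' : g.Ap * g.q' = 0 := by
  have := g.hi
  rw [q'_eq]
  ext x y
  fin_cases x <;> fin_cases y <;> simp [Ap, c, Matrix.mul_apply, Fin.sum_univ_two] <;> grind

theorem Bp_q : g.Bp * g.q = 0 := by
  rw [q_eq]
  ext x y
  fin_cases x <;> fin_cases y <;> simp [Bp, c, Matrix.mul_apply, Fin.sum_univ_two]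

theorem α_eq : g.α = (1 + g.n₁) * (1 + g.n₂) * g.Rot * (1 + g.n₃) := by
  have := g.hi
  have := g.hh
  have := g.hab
  rw [α, q_eq, q'_eq]
  simp only [n₁, n₂, n₃, Rot, ← fromBlocks_one, fromBlocks_add, fromBlocks_multiply, one_fin_two]
  congr 1 <;> ext x y <;> fin_cases x <;> fin_cases y <;>
    simp [A0, B0, c, S, Matrix.mul_apply, Fin.sum_univ_two] <;> grind

theorem star_S : star g.S = g.S := by
  simp only [S, star_mul, star_sub, g.sa, g.sb, g.si]; ring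

theorem star_c : star g.c = g.c := by
  simp only [c, star_mul, g.sa, g.sb]

theorem J_herm : g.Jᴴ = g.J := by
  ext (x | x) (y | y) <;> fin_cases x <;> fin_cases y <;> simp [J, g.si]

theorem J_sq : g.J * g.J = 1 := by
  have := g.hi
  ext (x | x) (y | y) <;> fin_cases x <;> fin_cases y <;>
    simp [J, Matrix.mul_apply, Fintype.sum_sum_type, Fin.sum_univ_two] <;> grind

theorem n₁_lie : g.n₁ᴴ * g.J = -(g.J * g.n₁) := by
  ext (x | x) (y | y) <;> fin_cases x <;> fin_cases y <;>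
    simp [J, n₁, Matrix.mul_apply, Fintype.sum_sum_type, Fin.sum_univ_two, g.star_c, g.sa,
      g.sb] <;> ring

theorem n₂_lie : g.n₂ᴴ * g.J = -(g.J * g.n₂) := by
  ext (x | x) (y | y) <;> fin_cases x <;> fin_cases y <;>
    simp [J, n₂, Matrix.mul_apply, Fintype.sum_sum_type, Fin.sum_univ_two, g.star_c, g.star_S,
      g.sa, g.sb, g.sh] <;> ring

theorem n₃_lie : g.n₃ᴴ * g.J = -(g.J * g.n₃) := by
  ext (x | x) (y | y) <;> fin_cases x <;> fin_cases y <;>
    simp [J, n₃, Matrix.mul_apply, Fintype.sum_sum_type, Fin.sum_univ_two, g.star_S] <;> ring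

theorem n₁_sq : g.n₁ * g.n₁ = 0 := by
  ext (x | x) (y | y) <;> fin_cases x <;> fin_cases y <;>
    simp [n₁, Matrix.mul_apply, Fintype.sum_sum_type, Fin.sum_univ_two]

theorem n₂_sq : g.n₂ * g.n₂ = 0 := by
  simp [n₂, fromBlocks_multiply]

theorem n₃_sq : g.n₃ * g.n₃ = 0 := by
  simp [n₃, fromBlocks_multiply]

theorem Rot_iso : g.Rotᴴ * g.J * g.Rot = g.J := by
  have := g.hi
  have := g.hh
  have := g.hab
  ext (x | x) (y | y) <;> fin_cases x <;> fin_cases y <;>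
    simp [J, Rot, Matrix.mul_apply, Fintype.sum_sum_type, Fin.sum_univ_two, g.star_c, g.star_S,
      g.sh] <;> simp only [c, S] <;> grind

theorem Rot_T : g.Rot * g.T = g.T * g.Λ := by
  have := g.hi
  have := g.hh
  have := g.hab
  ext (x | x) (y | y) <;> fin_cases x <;> fin_cases y <;>
    simp [T, Λ, Rot, c, S, Matrix.mul_apply, Fintype.sum_sum_type, Fin.sum_univ_two] <;> grind

theorem T_J : g.Tᴴ * g.J * g.T = g.Δ := by
  have := g.hi
  ext (x | x) (y | y) <;> fin_cases x <;> fin_cases y <;>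
    simp [T, J, Δ, Matrix.mul_apply, Fintype.sum_sum_type, Fin.sum_univ_two, g.si] <;> grind

theorem T_T' : g.T * g.T' = 1 := by
  have := g.hi
  have := g.hh
  ext (x | x) (y | y) <;> fin_cases x <;> fin_cases y <;>
    simp [T, T', Matrix.mul_apply, Fintype.sum_sum_type, Fin.sum_univ_two] <;> grind

end Gen

end Crest.Agent.R217.Norm2
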