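import Crest.Agent.R217.Norm2AuxA
import Crest.Agent.R217.Ind
import Crest.Agent.R217.GridDefs

/-! # Row 217: the cut of a matrix of range one, site by site; winding of isometries -/

set_option autoImplicit false
set_option linter.unusedSectionVars false

namespace Crest.Agent.R217.Norm2

open Matrix Complex

/-! ## Signatures of compressions -/

section Sig

variable {ι : Type*}

theorem sig_sub_eq {α β : Type*} [Fintype α] [Fintype β] (H : Matrix ι ι ℂ) {f : α → ι}
    {g : β → ι} (hf : Function.Injective f) (hg : Function.Injective g)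
    (h : Set.range f = Set.range g) : sig (H.submatrix f f) = sig (H.submatrix g g) := by
  let e : α ≃ β := (Equiv.ofInjective f hf).trans
    ((Equiv.setCongr h).trans (Equiv.ofInjective g hg).symm)
  have he : g ∘ e = f := funext fun a => Equiv.apply_ofInjective_symm hg _
  rw [← sig_submatrix (H.submatrix g g) e, submatrix_submatrix, he]

variable [Fintype ι]

theorem sigOn_embed {α : Type*} [Fintype α] (H : Matrix ι ι ℂ) {f : α → ι}
    (hf : Function.Injective f) (P : ι → Prop) (Q : α → Prop)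
    (h : ∀ i, P i ↔ ∃ a, Q a ∧ f a = i) : sigOn P H = sigOn Q (H.submatrix f f) := by
  classical
  rw [sigOn_eq, sigOn_eq, cpr, cpr, submatrix_submatrix]
  refine sig_sub_eq H Subtype.val_injective (hf.comp Subtype.val_injective) ?_
  ext i
  simp [h]

theorem sigOn_split {H : Matrix ι ι ℂ} (hH : H.IsHermitian) (P p : ι → Prop)
    (h : ∀ i j, P i → P j → p i → ¬ p j → H i j = 0) :
    sigOn P H = sigOn (fun i => P i ∧ p i) H + sigOn (fun i => P i ∧ ¬ p i) H := by
  classical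
  rw [sigOn_eq P, sig_split (hH.submatrix _) (fun i : {i // P i} => p i.1)
    (fun i j hi hj => h i.1 j.1 i.2 j.2 hi hj),
    sigOn_embed H Subtype.val_injective (fun i => P i ∧ p i) (fun i : {i // P i} => p i.1)
      (by simp [and_comm]),
    sigOn_embed H Subtype.val_injective (fun i => P i ∧ ¬ p i) (fun i : {i // P i} => ¬ p i.1)
      (by simp [and_comm])]

theorem sig_hyp {A : Matrix ι ι ℂ} (s : ι → Prop) (h : ∀ i j, (s i ↔ s j) → A i j = 0) :
    sig A = 0 := by
  classical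
  let D : Matrix ι ι ℂ := diagonal fun i => if s i then 1 else -1
  have hD : D * D = 1 := by
    rw [diagonal_mul_diagonal, ← diagonal_one]
    congr 1; funext i; split_ifs <;> simp
  have h1 := sig_congr A D D hD hD
  have h2 : Dᴴ * A * D = -A := by
    ext i j
    simp only [D, diagonal_conjTranspose, mul_diagonal, diagonal_mul, Pi.star_apply, Matrix.neg_apply]
    by_cases hi : s i <;> by_cases hj : s j <;> simp [hi, hj, h i j]
  rw [h2, sig_neg] at h1
  omega

theorem cpr_mul_left {p : ι → Prop} [DecidablePred p] (A B : Matrix ι ι ℂ)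
    (h : ∀ i k, p i → ¬ p k → A i k = 0) : cpr p (A * B) = cpr p A * cpr p B := by
  ext i j
  simp only [submatrix_apply, Matrix.mul_apply]
  rw [← Fintype.sum_subtype_add_sum_subtype p]
  simp [fun k : {k // ¬ p k} => h i.1 k.1 i.2 k.2]

theorem cpr_mul_right {p : ι → Prop} [DecidablePred p] (A B : Matrix ι ι ℂ)
    (h : ∀ k j, ¬ p k → p j → B k j = 0) : cpr p (A * B) = cpr p A * cpr p B := by
  ext i j
  simp only [submatrix_apply, Matrix.mul_apply]
  rw [← Fintype.sum_subtype_add_sum_subtype p]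
  simp [fun k : {k // ¬ p k} => h k.1 j.1 k.2 j.2]

theorem sigOn_congr [DecidableEq ι] (p : ι → Prop) (H T T' : Matrix ι ι ℂ) (hT : T * T' = 1)
    (h : ∀ i j, T i j ≠ 0 → (p i ↔ p j)) : sigOn p (Tᴴ * H * T) = sigOn p H := by
  classical
  have h1 : ∀ i k, p i → ¬ p k → T i k = 0 := fun i k hi hk =>
    by_contra fun hne => hk ((h i k hne).1 hi)
  have h2 : ∀ k j, ¬ p k → p j → T k j = 0 := fun k j hk hj =>
    by_contra fun hne => hk ((h k j hne).2 hj)
  have h3 : cpr p T * cpr p T' = 1 := by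
    rw [← cpr_mul_left T T' h1, hT]
    exact submatrix_one _ Subtype.val_injective
  rw [sigOn_eq, sigOn_eq, cpr_mul_right _ T h2,
    cpr_mul_left Tᴴ H fun i k hi hk => by rw [conjTranspose_apply, h2 k i hk hi, star_zero]]
  exact sig_congr _ (cpr p T) (cpr p T') h3 (mul_eq_one_comm.1 h3)

theorem HI_conj [DecidableEq ι] {A B U U' : Matrix ι ι ℂ} (h : HI A B) (hU : U * U' = 1) :
    HI (Uᴴ * A * U) (U' * B * U'ᴴ) where
  hA := isHermitian_conjTranspose_mul_mul U h.hA
  hB := isHermitian_mul_mul_conjTranspose U' h.hB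
  mul := by
    calc Uᴴ * A * U * (U' * B * U'ᴴ) = Uᴴ * (A * (U * U') * B) * U'ᴴ := by noncomm_ring
      _ = (U' * U)ᴴ := by rw [hU, mul_one, h.mul, mul_one, conjTranspose_mul]
      _ = 1 := by rw [mul_eq_one_comm.1 hU, conjTranspose_one]

end Sig

/-! ## Sites -/

section Site

variable {κ β : Type*} [Fintype κ] [DecidableEq κ] [Fintype β] [DecidableEq β]

theorem site_al (X Y : Matrix κ κ ℂ) (e : Matrix κ β ℂ) (q q' x y : Matrix β β ℂ)
    (hu : (1 - X * Y) * e = e * q') (hv : (1 - Y * X) * e = e * q) (hx : X * e * q = e * x)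
    (hy : Y * e * q' = e * y) :
    al1 X Y * al1 X Y * fromBlocks e 0 0 e = fromBlocks e 0 0 e *
      fromBlocks (q' * q' + q' * q' - 1) (-((1 + q') * x + (1 + q') * x)) (y + y)
        (q * q + q * q - 1) := by
  rw [al_eq]
  generalize 1 - X * Y = u at hu
  generalize 1 - Y * X = v at hv
  have h1 : u * u * e = e * (q' * q') := by
    rw [Matrix.mul_assoc, hu, ← Matrix.mul_assoc, hu, Matrix.mul_assoc]
  have h2 : v * v * e = e * (q * q) := by
    rw [Matrix.mul_assoc, hv, ← Matrix.mul_assoc, hv, Matrix.mul_assoc]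
  have h3 : (1 + u) * (X * v) * e = e * ((1 + q') * x) := by
    rw [Matrix.mul_assoc, Matrix.mul_assoc, hv, ← Matrix.mul_assoc X, hx, ← Matrix.mul_assoc,
      Matrix.add_mul, hu, Matrix.one_mul, ← Matrix.mul_assoc, Matrix.mul_add, Matrix.mul_one]
  have h4 : Y * u * e = e * y := by rw [Matrix.mul_assoc, hu, ← Matrix.mul_assoc, hy]
  generalize (1 + u) * (X * v) = z at h3
  generalize (1 + q') * x = z' at h3
  simp only [fromBlocks_multiply, Matrix.mul_zero, Matrix.zero_mul, add_zero, zero_add,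
    Matrix.sub_mul, Matrix.neg_mul, Matrix.mul_sub, Matrix.mul_neg, Matrix.one_mul,
    Matrix.mul_one, Matrix.add_mul, Matrix.mul_add, h1, h2, h3, h4, sub_zero, neg_zero]

variable {N : ℕ} [NeZero N]

variable (N) in
/-- a matrix of range one in the first coordinate. -/
def Lm (P Z M : Matrix β β ℂ) : Matrix (ZMod N × β) (ZMod N × β) ℂ := fun x y =>
  (if x.1 = y.1 + 1 then P x.2 y.2 else 0) + (if x.1 = y.1 then Z x.2 y.2 else 0) +
    if x.1 = y.1 - 1 then M x.2 y.2 else 0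

variable (β) in
/-- the inclusion of a site. -/
def io (s : ZMod N) : Matrix (ZMod N × β) β ℂ := fun x k => if x = (s, k) then 1 else 0

variable (β) in
/-- the inclusion of a site, on both sheets. -/
abbrev io2 (s : ZMod N) : Matrix ((ZMod N × β) ⊕ (ZMod N × β)) (β ⊕ β) ℂ :=
  fromBlocks (io β s) 0 0 (io β s)

theorem mul_io {γ : Type*} (A : Matrix γ (ZMod N × β) ℂ) (s : ZMod N) (x : γ) (k : β) :
    (A * io β s : Matrix γ β ℂ) x k = A x (s, k) := by
  simp [io, Matrix.mul_apply]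

theorem io_mul {γ : Type*} (P : Matrix β γ ℂ) (s : ZMod N) (x : ZMod N × β) (k : γ) :
    (io β s * P : Matrix (ZMod N × β) γ ℂ) x k = if x.1 = s then P x.2 k else 0 := by
  obtain ⟨x1, x2⟩ := x
  by_cases h : x1 = s <;> simp [io, Matrix.mul_apply, h]

theorem Lm_io (P Z M : Matrix β β ℂ) (s : ZMod N) :
    Lm N P Z M * io β s = io β (s + 1) * P + io β s * Z + io β (s - 1) * M := by
  ext x k
  simp only [mul_io, io_mul, Matrix.add_apply, Lm]

variable (β) in
/-- the diagonal cut-off. -/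
noncomputable abbrev Pi' (r : ZMod N → ℝ) : Matrix (ZMod N × β) (ZMod N × β) ℂ :=
  dg ℂ fun i => (r i.1 : ℂ)

theorem Pi_io (r : ZMod N → ℝ) (s : ZMod N) :
    Pi' β r * io β s = (r s : ℂ) • io β s := by
  ext x k
  simp only [dg, diagonal_mul, io, Matrix.smul_apply]
  split_ifs with h
  · simp [h]
  · simp

theorem Pi_io_one {r : ZMod N → ℝ} {s : ZMod N} (h : r s = 1) {γ : Type*} (P : Matrix β γ ℂ) :
    Pi' β r * (io β s * P) = io β s * P := by
  rw [← Matrix.mul_assoc, Pi_io, h]; simp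

theorem Pi_io_zero {r : ZMod N → ℝ} {s : ZMod N} (h : r s = 0) {γ : Type*} (P : Matrix β γ ℂ) :
    Pi' β r * (io β s * P) = 0 := by
  rw [← Matrix.mul_assoc, Pi_io, h]; simp

theorem cmp_io_zero {r : ZMod N → ℝ} {s : ZMod N} (h : r s = 0)
    (A : Matrix (ZMod N × β) (ZMod N × β) ℂ) : cmp (fun i : ZMod N × β => r i.1) A * io β s = 0 := by
  rw [cmp, Matrix.mul_assoc, Pi_io, h]; simp

theorem cmp_io_one {r : ZMod N → ℝ} {s : ZMod N} (h : r s = 1)
    (A : Matrix (ZMod N × β) (ZMod N × β) ℂ) :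
    cmp (fun i : ZMod N × β => r i.1) A * io β s = Pi' β r * (A * io β s) := by
  rw [cmp, Matrix.mul_assoc, Pi_io, h, Matrix.mul_assoc]; simp

theorem Pi_Pi {r : ZMod N → ℝ} (hr : ∀ s, r s = 0 ∨ r s = 1) :
    Pi' β r * Pi' β r = Pi' β r := by
  simp only [dg, diagonal_mul_diagonal]
  congr 1; funext i
  rcases hr i.1 with h | h <;> simp [h]

theorem v_io {r : ZMod N → ℝ} (hr : ∀ s, r s = 0 ∨ r s = 1) {s : ZMod N} (h : r s = 1)
    {A B : Matrix (ZMod N × β) (ZMod N × β) ℂ} (hAB : A * B = 1) :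
    (1 - cmp (fun i : ZMod N × β => r i.1) A * cmp (fun i : ZMod N × β => r i.1) B) * io β s =
      Pi' β r * (A * (B * io β s - Pi' β r * (B * io β s))) := by
  have h1 : Pi' β r * io β s = io β s := by rw [Pi_io, h]; simp
  rw [Matrix.sub_mul, Matrix.one_mul, Matrix.mul_assoc, cmp_io_one h, cmp, Matrix.mul_sub,
    Matrix.mul_sub, ← Matrix.mul_assoc A B, hAB, Matrix.one_mul, h1, Matrix.mul_assoc,
    ← Matrix.mul_assoc (Pi' β r) (Pi' β r), Pi_Pi hr, Matrix.mul_assoc]

theorem al_io_zero {r : ZMod N → ℝ} {s : ZMod N} (h : r s = 0)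
    (A B : Matrix (ZMod N × β) (ZMod N × β) ℂ) :
    al (fun i : ZMod N × β => r i.1) A B * io2 β s =
      io2 β s * (1 : Matrix (β ⊕ β) (β ⊕ β) ℂ) := by
  rw [al, site_al _ _ _ 1 1 0 0]
  · simp
  all_goals simp [Matrix.sub_mul, Matrix.mul_assoc, cmp_io_zero h]

variable {AP AZ AM BP BZ BM : Matrix β β ℂ}

theorem al_io_pos {r : ZMod N → ℝ} (hr : ∀ s, r s = 0 ∨ r s = 1) {s : ZMod N} (h : r s = 1)
    (h1 : r (s + 1) = 1) (h2 : r (s - 1) = 1) (hAB : Lm N AP AZ AM * Lm N BP BZ BM = 1) :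
    al (fun i : ZMod N × β => r i.1) (Lm N AP AZ AM) (Lm N BP BZ BM) * io2 β s =
      io2 β s * (-1 : Matrix (β ⊕ β) (β ⊕ β) ℂ) := by
  rw [al, site_al _ _ _ 0 0 0 0]
  · simp [← fromBlocks_one, fromBlocks_neg]
  · rw [v_io hr h (mul_eq_one_comm.1 hAB), Lm_io]
    simp [Matrix.mul_add, Pi_io_one h, Pi_io_one h1, Pi_io_one h2]
  · rw [v_io hr h hAB, Lm_io]
    simp [Matrix.mul_add, Pi_io_one h, Pi_io_one h1, Pi_io_one h2]
  all_goals simp

theorem v_io_one {r : ZMod N → ℝ} (hr : ∀ s, r s = 0 ∨ r s = 1) (h0 : r 0 = 0) (h0' : r (-1) = 0)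
    (h1 : r 1 = 1) (h2 : r 2 = 1) (hAB : Lm N AP AZ AM * Lm N BP BZ BM = 1) :
    (1 - cmp (fun i : ZMod N × β => r i.1) (Lm N AP AZ AM) * cmp (fun i : ZMod N × β => r i.1) (Lm N BP BZ BM)) * io β (1 : ZMod N) =
      io β (1 : ZMod N) * (AP * BM) := by
  rw [v_io hr h1 hAB, Lm_io, one_add_one_eq_two, sub_self, Matrix.mul_add, Matrix.mul_add,
    Pi_io_one h1, Pi_io_one h2, Pi_io_zero h0, add_zero, add_sub_cancel_left, ← Matrix.mul_assoc,
    ← Matrix.mul_assoc, Matrix.mul_assoc (Pi' β r), Lm_io, zero_add, zero_sub, Matrix.mul_add,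
    Matrix.mul_add, Pi_io_one h1, Pi_io_zero h0, Pi_io_zero h0', add_zero, add_zero,
    Matrix.mul_assoc]

theorem cmp_io_one' {r : ZMod N → ℝ} (h0 : r 0 = 0) (h1 : r 1 = 1) (h2 : r 2 = 1)
    {q : Matrix β β ℂ} (hq : AP * q = 0) :
    cmp (fun i : ZMod N × β => r i.1) (Lm N AP AZ AM) * io β (1 : ZMod N) * q = io β (1 : ZMod N) * (AZ * q) := by
  rw [cmp_io_one h1, Lm_io, one_add_one_eq_two, sub_self, Matrix.mul_add, Matrix.mul_add,
    Pi_io_one h1, Pi_io_one h2, Pi_io_zero h0, add_zero, Matrix.add_mul, Matrix.mul_assoc, hq,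
    Matrix.mul_zero, zero_add, Matrix.mul_assoc]

theorem al_io_one {r : ZMod N → ℝ} (hr : ∀ s, r s = 0 ∨ r s = 1) (h0 : r 0 = 0)
    (h0' : r (-1) = 0) (h1 : r 1 = 1) (h2 : r 2 = 1)
    (hAB : Lm N AP AZ AM * Lm N BP BZ BM = 1) (hA : AP * (BP * AM) = 0)
    (hB : BP * (AP * BM) = 0) :
    al (fun i : ZMod N × β => r i.1) (Lm N AP AZ AM) (Lm N BP BZ BM) * io2 β (1 : ZMod N) =
      io2 β (1 : ZMod N) *
        fromBlocks (BP * AM * (BP * AM) + BP * AM * (BP * AM) - 1)
          (-((1 + BP * AM) * (BZ * (AP * BM)) + (1 + BP * AM) * (BZ * (AP * BM))))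
          (AZ * (BP * AM) + AZ * (BP * AM)) (AP * BM * (AP * BM) + AP * BM * (AP * BM) - 1) :=
  site_al _ _ _ _ _ _ _ (v_io_one hr h0 h0' h1 h2 (mul_eq_one_comm.1 hAB))
    (v_io_one hr h0 h0' h1 h2 hAB) (cmp_io_one' h0 h1 h2 hB) (cmp_io_one' h0 h1 h2 hA)

/-- the index of a fibre element over a site. -/
def fs (s : ZMod N) : β ⊕ β → (ZMod N × β) ⊕ (ZMod N × β) := Sum.map (Prod.mk s) (Prod.mk s)

theorem io_conj (H : Matrix ((ZMod N × β) ⊕ (ZMod N × β)) ((ZMod N × β) ⊕ (ZMod N × β)) ℂ)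
    (s s' : ZMod N) :
    (io2 β s)ᴴ * H * io2 β s' =
      H.submatrix (fs s) (fs s') := by
  ext (x | x) (y | y) <;>
    simp [Matrix.mul_apply, Fintype.sum_sum_type, io, fs, apply_ite star]

theorem cut_entry {U : Matrix ((ZMod N × β) ⊕ (ZMod N × β)) ((ZMod N × β) ⊕ (ZMod N × β)) ℂ}
    (τ : β → ℂ) {s s' : ZMod N} {α α' : Matrix (β ⊕ β) (β ⊕ β) ℂ}
    (h : U * io2 β s = io2 β s * α)
    (h' : U * io2 β s' = io2 β s' * α') :
    (Uᴴ * Bt ℂ (fun i : ZMod N × β => τ i.2) * U).submatrix (fs s) (fs s') =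
      if s = s' then αᴴ * Bt ℂ τ * α' else 0 := by
  have h1 : (Bt ℂ (fun i : ZMod N × β => τ i.2)).submatrix (fs s) (fs s') =
      if s = s' then Bt ℂ τ else 0 := by
    split_ifs with hs
    · subst hs
      ext (x | x) (y | y) <;> simp [Bt, fs, dg, diagonal_apply]
    · ext (x | x) (y | y) <;> simp [Bt, fs, dg, diagonal_apply, hs]
  rw [← io_conj]
  calc (io2 β s)ᴴ * (Uᴴ * Bt ℂ (fun i : ZMod N × β => τ i.2) * U) *
        io2 β s'
      = (U * io2 β s)ᴴ * Bt ℂ (fun i : ZMod N × β => τ i.2) *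
        (U * io2 β s') := by
        simp only [conjTranspose_mul, Matrix.mul_assoc]
    _ = αᴴ * ((io2 β s)ᴴ * Bt ℂ (fun i : ZMod N × β => τ i.2) *
        io2 β s') * α' := by
        simp only [h, h', conjTranspose_mul, Matrix.mul_assoc]
    _ = _ := by
        rw [io_conj, h1]
        split_ifs <;> simp

end Site

end Crest.Agent.R217.Norm2
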