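import Crest.Agent.R217.Norm2AuxB

/-! # Row 217: the winding number of the isometry at the site `s = 1` -/

set_option autoImplicit false
set_option linter.unusedSectionVars false

namespace Crest.Agent.R217.Norm2

open Matrix Complex

variable {N : ℕ} [NeZero N]

theorem vm_int {z : ℤ} (h : 2 * z.natAbs < N) : (z : ZMod N).valMinAbs = z := by
  rw [ZMod.valMinAbs_spec]
  refine ⟨rfl, ?_, ?_⟩ <;> omega

theorem vm_add (s : ZMod N) (z : ℤ) (h : 2 * (s.valMinAbs.natAbs + z.natAbs) < N) :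
    (s + z).valMinAbs = s.valMinAbs + z := by
  have : s + z = ((s.valMinAbs + z : ℤ) : ZMod N) := by push_cast; simp
  rw [this, vm_int (by omega)]

variable (N) in
/-- the distance on `ℤ/N`. -/
def ρT : CRel (ZMod N) :=
  distRel (fun a b => (a - b).valMinAbs.natAbs) (fun a => by simp)
    (fun a b => by rw [← neg_sub a b, ZMod.natAbs_valMinAbs_neg]) natAbs_valMinAbs_tri 1

theorem ρT_rel {x y : ZMod N} {r : ℕ} : (ρT N).rel x y r ↔ (x - y).valMinAbs.natAbs ≤ r := by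
  change (x - y).valMinAbs.natAbs ≤ r * 1 ↔ _
  rw [mul_one]

theorem ρT_zero {x y : ZMod N} (h : (ρT N).rel x y 0) : x = y := by
  rw [ρT_rel, Nat.le_zero, Int.natAbs_eq_zero, ZMod.valMinAbs_eq_zero] at h
  exact sub_eq_zero.1 h

/-- the sign of the second cut. -/
noncomputable def sg (t : ZMod N) : ℝ := if 0 < t.valMinAbs then 1 else -1

section Wind

variable {ι : Type*} [Fintype ι] [DecidableEq ι] (tt : ι → ZMod N) {M r : ℕ}

/-- the diagonal matrix of signs. -/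
noncomputable abbrev Dg : Matrix ι ι ℂ := diagonal fun i => (sg (tt i) : ℂ)

theorem Dg_sq : Dg tt * Dg tt = 1 := by
  rw [diagonal_mul_diagonal, ← diagonal_one]
  congr 1; funext i
  unfold sg; split_ifs <;> simp

theorem Dg_herm : (Dg tt)ᴴ = Dg tt := by
  rw [diagonal_conjTranspose]
  congr 1; funext i; simp

theorem Dg_comm {J : Matrix ι ι ℂ} (cJ : ((ρT N).plain ℂ).M tt tt 0 J) :
    Dg tt * J = J * Dg tt := by
  ext i j
  rw [diagonal_mul, mul_diagonal, mul_comm]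
  by_cases h : J i j = 0
  · simp [h]
  · rw [ρT_zero (cJ.rel h)]

theorem off_zero {U V J : Matrix ι ι ℂ} (hVU : V * U = J) (cU : ((ρT N).plain ℂ).M tt tt r U)
    (cV : ((ρT N).plain ℂ).M tt tt r V) (cJ : ((ρT N).plain ℂ).M tt tt 0 J) (hr : r ≤ M)
    (hN : 2 * (M + 2 * r) < N) {i j : ι} (hi : (tt i).valMinAbs.natAbs ≤ M)
    (hj : ¬ (tt j).valMinAbs.natAbs ≤ M) : (V * Dg tt * U) i j = 0 := by
  have hJ : J i j = 0 := by
    by_contra h
    rw [ρT_zero (cJ.rel h)] at hi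
    exact hj hi
  have : (V * Dg tt * U) i j = sg (tt j) * (V * U) i j := by
    rw [Matrix.mul_apply, Matrix.mul_apply, Finset.mul_sum]
    refine Finset.sum_congr rfl fun k _ => ?_
    rw [mul_diagonal]
    by_cases h1 : V i k = 0
    · simp [h1]
    by_cases h2 : U k j = 0
    · simp [h2]
    have a1 := ρT_rel.1 (cV.rel h1)
    have a2 := ρT_rel.1 (cU.rel h2)
    have a3 := valMinAbs_sub_of_lt (tt i) (tt k) (by omega)
    have a4 := valMinAbs_sub_of_lt (tt k) (tt j) (by omega)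
    have : sg (tt k) = sg (tt j) := by
      unfold sg
      exact if_congr (by omega) rfl rfl
    rw [this]; ring
  rw [this, hVU, hJ, mul_zero]

theorem wind_path {U : ℝ → Matrix ι ι ℂ} {J : Matrix ι ι ℂ} (hU : Continuous U) (hJ : Jᴴ = J)
    (hJJ : J * J = 1) (iso : ∀ s, (U s)ᴴ * J * U s = J)
    (cU : ∀ s, ((ρT N).plain ℂ).M tt tt r (U s)) (cJ : ((ρT N).plain ℂ).M tt tt 0 J) (hr : r ≤ M)
    (hN : 2 * (M + 2 * r) < N) :
    sigOn (fun i => (tt i).valMinAbs.natAbs ≤ M) ((U 1)ᴴ * (J * Dg tt) * U 1) =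
      sigOn (fun i => (tt i).valMinAbs.natAbs ≤ M) ((U 0)ᴴ * (J * Dg tt) * U 0) := by
  have hc := Dg_comm tt cJ
  have hH : (J * Dg tt).IsHermitian := by
    rw [IsHermitian, conjTranspose_mul, Dg_herm, hJ, hc]
  have h0 : HI (J * Dg tt) (J * Dg tt) := ⟨hH, hH, by
    calc J * Dg tt * (J * Dg tt) = J * (Dg tt * J) * Dg tt := by noncomm_ring
      _ = (J * J) * (Dg tt * Dg tt) := by rw [hc]; noncomm_ring
      _ = 1 := by rw [hJJ, Dg_sq, mul_one]⟩
  rw [sigOn_eq, sigOn_eq]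
  refine sig_path (A := fun s => cpr (fun i => (tt i).valMinAbs.natAbs ≤ M)
    ((U s)ᴴ * (J * Dg tt) * U s)) ?_ (fun s => ?_) 1 0
  · exact ((hU.matrix_conjTranspose.matrix_mul continuous_const).matrix_mul hU).matrix_submatrix _ _
  · have hinv : U s * (J * (U s)ᴴ * J) = 1 := by
      rw [mul_eq_one_comm]
      calc J * (U s)ᴴ * J * U s = J * ((U s)ᴴ * J * U s) := by noncomm_ring
        _ = 1 := by rw [iso, hJJ]
    refine ⟨_, (HI_conj h0 hinv).cpr _ fun i j hi hj => ?_⟩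
    rw [← Matrix.mul_assoc]
    exact off_zero tt (iso s) (cU s) ((cU s).conjTranspose.mul cJ) cJ hr hN hi hj

theorem iso_nil {J n : Matrix ι ι ℂ} (h : nᴴ * J = -(J * n)) (h2 : n * n = 0) (s : ℝ) :
    (1 + (s : ℂ) • n)ᴴ * J * (1 + (s : ℂ) • n) = J := by
  have h3 : J * n * n = 0 := by rw [Matrix.mul_assoc, h2, Matrix.mul_zero]
  simp [conjTranspose_add, conjTranspose_smul, Matrix.add_mul, Matrix.mul_add, h, h3]

theorem iso_mul {J U V : Matrix ι ι ℂ} (hU : Uᴴ * J * U = J) (hV : Vᴴ * J * V = J) :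
    (U * V)ᴴ * J * (U * V) = J := by
  calc (U * V)ᴴ * J * (U * V) = Vᴴ * (Uᴴ * J * U) * V := by
        rw [conjTranspose_mul]; noncomm_ring
    _ = J := by rw [hU, hV]

theorem monomial_conj {U : Matrix ι ι ℂ} {f : ι → ι} (hf : Function.Injective f) {ε : ι → ℂ}
    (hU : ∀ x y, U x y = if x = f y then ε y else 0) (d : ι → ℂ) :
    Uᴴ * diagonal d * U = diagonal fun y => star (ε y) * d (f y) * ε y := by
  ext x y
  rw [Matrix.mul_apply, Finset.sum_eq_single (f y)]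
  · rw [mul_diagonal, conjTranspose_apply, hU, hU, if_pos rfl, diagonal_apply]
    by_cases h : x = y
    · simp [h]
    · rw [if_neg (fun h' => h (hf h').symm), if_neg h]; simp
  · intro k _ hk
    rw [hU k y, if_neg hk, mul_zero]
  · simp

end Wind

variable (N) in
/-- the shift on `ℤ/N`. -/
def Wm (z : ℤ) : Matrix (ZMod N) (ZMod N) ℂ := fun x y => if x = y + z then 1 else 0

variable (N) in
/-- A representation of the generators by shifts. -/
structure Rep (R : Type*) [CommRing R] [StarRing R] extends Gen R where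
  φ : R →+* Matrix (ZMod N) (ZMod N) ℂ
  φ_star : ∀ x, φ (star x) = (φ x)ᴴ
  φ_a : φ a = (1 / 2 : ℂ) • (1 + Wm N (-1))
  φ_b : φ b = (1 / 2 : ℂ) • (1 + Wm N 1)
  φ_i : φ i = I • 1
  φ_h : φ h = (1 / 2 : ℂ) • 1

abbrev Fib (N : ℕ) := Fin 2 × ZMod N

/-- the second coordinate. -/
def tt : Fib N ⊕ Fib N → ZMod N := Sum.elim Prod.snd Prod.snd

/-- the sheet and the type. -/
def kk : Fib N ⊕ Fib N → Fin 2 ⊕ Fin 2 := Sum.map Prod.fst Prod.fst

namespace Rep

variable {R : Type*} [CommRing R] [StarRing R] (g : Rep N R)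

/-- matrices over `R` as matrices over `ℂ`. -/
def Φ (m : Type) [Fintype m] [DecidableEq m] :
    Matrix m m R →+* Matrix (m × ZMod N) (m × ZMod N) ℂ :=
  (Matrix.compRingEquiv m (ZMod N) ℂ).toRingHom.comp g.φ.mapMatrix

theorem Φ_apply {m : Type} [Fintype m] [DecidableEq m] (A : Matrix m m R) (x y : m × ZMod N) :
    g.Φ m A x y = g.φ (A x.1 y.1) x.2 y.2 := rfl

/-- the same on two sheets. -/
noncomputable def Ψ : Gen.M4 R →+* Matrix (Fib N ⊕ Fib N) (Fib N ⊕ Fib N) ℂ :=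
  (Matrix.reindexAlgEquiv ℂ ℂ (Equiv.sumProdDistrib (Fin 2) (Fin 2) (ZMod N))).toRingHom.comp
    (g.Φ (Fin 2 ⊕ Fin 2))

theorem Ψ_apply (A : Gen.M4 R) (x y : Fib N ⊕ Fib N) :
    g.Ψ A x y = g.φ (A (kk x) (kk y)) (tt x) (tt y) := by
  rcases x with x | x <;> rcases y with y | y <;> rfl

theorem Ψ_fromBlocks (A B C D : Gen.M2 R) :
    g.Ψ (fromBlocks A B C D) = fromBlocks (g.Φ _ A) (g.Φ _ B) (g.Φ _ C) (g.Φ _ D) := by
  ext (x | x) (y | y) <;> rfl

theorem Ψ_conj (A : Gen.M4 R) : g.Ψ Aᴴ = (g.Ψ A)ᴴ := by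
  ext x y
  rw [conjTranspose_apply, Ψ_apply, Ψ_apply, conjTranspose_apply, g.φ_star, conjTranspose_apply]

/-- elements of range `r`. -/
def rg (r : ℕ) (x : R) : Prop := ((ρT N).plain ℂ).M id id r (g.φ x)

variable {g} {r s : ℕ} {x y : R}

theorem rg.mul (hx : g.rg r x) (hy : g.rg s y) : g.rg (r + s) (x * y) := by
  unfold rg; rw [map_mul]; exact Ctl.M.mul hx hy

theorem rg.add (hx : g.rg r x) (hy : g.rg r y) : g.rg r (x + y) := by
  unfold rg; rw [map_add]; exact Ctl.M.add hx hy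

theorem rg.sub (hx : g.rg r x) (hy : g.rg r y) : g.rg r (x - y) := by
  unfold rg; rw [map_sub]; exact Ctl.M.sub hx hy

theorem rg.neg (hx : g.rg r x) : g.rg r (-x) := by
  unfold rg; rw [map_neg]; exact Ctl.M.neg hx

theorem rg.mono (hx : g.rg r x) (h : r ≤ s) : g.rg s x := Ctl.M.of_le hx h

theorem rg_zero : g.rg r 0 := by unfold rg; rw [map_zero]; exact Ctl.M.zero

theorem rg_one : g.rg r 1 := by unfold rg; rw [map_one]; exact Ctl.M.one

theorem rg_i : g.rg r g.i := by unfold rg; rw [g.φ_i]; exact Ctl.M.one.smul _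

theorem rg_h : g.rg r g.h := by unfold rg; rw [g.φ_h]; exact Ctl.M.one.smul _

theorem M_Wm (hN : 2 < N) {z : ℤ} (hz : z.natAbs = 1) :
    ((ρT N).plain ℂ).M id id 1 (Wm N z) := by
  intro x y h
  have : x = y + z := by
    by_contra h'
    exact h (if_neg h')
  rw [ρT_rel, id, id, this, add_sub_cancel_left, vm_int (by omega), hz]

theorem rg_a (hN : 2 < N) : g.rg 1 g.a := by
  unfold rg; rw [g.φ_a]; exact (Ctl.M.one.add (M_Wm hN rfl)).smul _

theorem rg_b (hN : 2 < N) : g.rg 1 g.b := by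
  unfold rg; rw [g.φ_b]; exact (Ctl.M.one.add (M_Wm hN rfl)).smul _

theorem rg_S (hN : 2 < N) : g.rg 1 g.S := (rg_i (r := 0)).mul ((rg_a hN).sub (rg_b hN))

theorem M_Ψ {A : Gen.M4 R} (h : ∀ k l, g.rg r (A k l)) :
    ((ρT N).plain ℂ).M tt tt r (g.Ψ A) := fun x y => by
  rw [Ψ_apply]; exact h _ _ _ _

theorem M_blocks {A B C D : Gen.M2 R} (hA : ∀ k l, g.rg r (A k l)) (hB : ∀ k l, g.rg r (B k l))
    (hC : ∀ k l, g.rg r (C k l)) (hD : ∀ k l, g.rg r (D k l)) :
    ((ρT N).plain ℂ).M tt tt r (g.Ψ (fromBlocks A B C D)) :=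
  M_Ψ (by rintro (k | k) (l | l) <;> [exact hA k l; exact hB k l; exact hC k l; exact hD k l])

theorem rg_two {a b c d : R} (ha : g.rg r a) (hb : g.rg r b) (hc : g.rg r c) (hd : g.rg r d) :
    ∀ k l, g.rg r (!![a, b; c, d] k l) := by
  intro k l
  fin_cases k <;> fin_cases l <;> assumption

theorem rg_zero2 : ∀ k l, g.rg r ((0 : Gen.M2 R) k l) := fun _ _ => rg_zero

end Rep

end Crest.Agent.R217.Norm2
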