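import Crest.Agent.R217.Norm2AuxC

/-! # Row 217: the winding number is `4` -/

set_option autoImplicit false
set_option linter.unusedSectionVars false

namespace Crest.Agent.R217.Norm2

open Matrix Complex

variable {N : ℕ} [NeZero N] {M : ℕ}

/-- the phases of the second cut on a fibre. -/
noncomputable def τ₁ (x : Fib N) : ℂ := if 0 < x.2.valMinAbs then I else -I

/-- the shift of the monomial matrix. -/
def fsh : Fib N ⊕ Fib N → Fib N ⊕ Fib N :=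
  Sum.map (fun y => (y.1, y.2 + ((![0, 1] y.1 : ℤ) : ZMod N)))
    (fun y => (y.1, y.2 + ((![0, -1] y.1 : ℤ) : ZMod N)))

theorem fsh_inj : Function.Injective (fsh (N := N)) := by
  refine Function.Injective.sumMap ?_ ?_ <;>
  · rintro ⟨k, t⟩ ⟨k', t'⟩ h
    obtain ⟨rfl, h2⟩ := Prod.mk.inj h
    exact Prod.ext rfl (add_right_cancel h2)

/-- the diagonal entries of the form. -/
def δv : Fin 2 ⊕ Fin 2 → ℝ := Sum.elim ![2, 4] ![-2, -4]

theorem sum_sign (hM : 20 ≤ M) (hN : 2 * M + 40 ≤ N) :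
    ∑ i : {i : Fib N ⊕ Fib N // (tt i).valMinAbs.natAbs ≤ M},
      (SignType.sign (δv (kk i.1) * sg (tt (fsh i.1))) : ℤ) = 4 := by
  rw [← Finset.sum_subtype (Finset.univ.filter fun i : Fib N ⊕ Fib N =>
      (tt i).valMinAbs.natAbs ≤ M) (by simp)
      (fun i => (SignType.sign (δv (kk i) * sg (tt (fsh i))) : ℤ)), Finset.sum_filter,
    Fintype.sum_sum_type, Fintype.sum_prod_type, Fintype.sum_prod_type, Fin.sum_univ_two,
    Fin.sum_univ_two, ← Finset.sum_add_distrib, ← Finset.sum_add_distrib,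
    ← Finset.sum_add_distrib]
  have h01 : ∑ t : ZMod N, ((if t = 0 then 2 else 0) + if t = 1 then 2 else 0 : ℤ) = 4 := by
    rw [Finset.sum_add_distrib]; simp
  rw [← h01]
  refine Finset.sum_congr rfl fun t _ => ?_
  have e0 : t = 0 ↔ t.valMinAbs = 0 := (ZMod.valMinAbs_eq_zero t).symm
  have e1 : t = 1 ↔ t.valMinAbs = 1 := by
    have := vm_int (N := N) (z := 1) (by omega)
    rw [Int.cast_one] at this
    rw [← this, ZMod.valMinAbs_inj]
  simp only [tt, kk, fsh, δv, Sum.elim_inl, Sum.elim_inr, Sum.map_inl, Sum.map_inr,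
    Matrix.cons_val_zero, Matrix.cons_val_one, Int.cast_zero, add_zero, e0, e1]
  by_cases ht : t.valMinAbs.natAbs ≤ M
  · have a1 := vm_add t 1 (by omega)
    have a2 := vm_add t (-1) (by omega)
    simp only [if_pos ht, sg, a1, a2]
    split_ifs <;> first | omega | simp
  · simp only [if_neg ht]
    rw [if_neg (by omega), if_neg (by omega)]
    rfl

namespace Rep

variable {R : Type*} [CommRing R] [StarRing R] [IsAddTorsionFree R] (g : Rep N R)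

theorem Bt_eq : Bt ℂ τ₁ = g.Ψ g.J * Dg tt := by
  ext x y
  rw [mul_diagonal, Ψ_apply]
  rcases x with ⟨k, t⟩ | ⟨k, t⟩ <;> rcases y with ⟨l, u⟩ | ⟨l, u⟩ <;> fin_cases k <;>
    fin_cases l <;> by_cases h : t = u <;>
    simp [Bt, dg, Gen.J, kk, tt, g.φ_i, h, τ₁, sg, one_apply] <;> split_ifs <;> simp

theorem φ_w : g.φ (g.b + g.b - 1) = Wm N 1 := by
  rw [map_sub, map_add, map_one, g.φ_b, ← add_smul]; norm_num

theorem φ_w' : g.φ (g.a + g.a - 1) = Wm N (-1) := by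
  rw [map_sub, map_add, map_one, g.φ_a, ← add_smul]; norm_num

theorem Λ_apply (x y : Fib N ⊕ Fib N) : g.Ψ g.Λ x y =
    if x = fsh y then (if (Sum.elim id id (kk y) : Fin 2) = 0 then -1 else 1) else 0 := by
  rw [Ψ_apply, Gen.Λ]
  have h1 := g.φ_w
  have h2 := g.φ_w'
  generalize g.b + g.b - 1 = w at h1
  generalize g.a + g.a - 1 = w' at h2
  rcases x with ⟨k, t⟩ | ⟨k, t⟩ <;> rcases y with ⟨l, u⟩ | ⟨l, u⟩ <;> fin_cases k <;>
    fin_cases l <;> simp [kk, tt, fsh, h1, h2, Wm, one_apply] <;> split_ifs <;> simp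

theorem Δ_eq : g.Ψ g.Δ * Dg tt = diagonal fun x => ((δv (kk x) * sg (tt x) : ℝ) : ℂ) := by
  ext x y
  rw [mul_diagonal, Ψ_apply]
  rcases x with ⟨k, t⟩ | ⟨k, t⟩ <;> rcases y with ⟨l, u⟩ | ⟨l, u⟩ <;> fin_cases k <;>
    fin_cases l <;> by_cases h : t = u <;>
    simp [Gen.Δ, kk, tt, h, δv, map_ofNat, Matrix.ofNat_apply]

theorem wind_Rot (hM : 20 ≤ M) (hN : 2 * M + 40 ≤ N) :
    sigOn (fun i => (tt i).valMinAbs.natAbs ≤ M)
      ((g.Ψ g.Rot)ᴴ * (g.Ψ g.J * Dg tt) * g.Ψ g.Rot) = 4 := by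
  have cT : ((ρT N).plain ℂ).M tt tt 0 (g.Ψ g.T) :=
    M_blocks (rg_two rg_one rg_zero rg_zero (rg_one.add rg_one))
      (rg_two rg_one rg_zero rg_zero (rg_one.add rg_one))
      (rg_two rg_i.neg rg_zero rg_zero rg_i.neg) (rg_two rg_i rg_zero rg_zero rg_i)
  rw [← sigOn_congr _ _ (g.Ψ g.T) (g.Ψ g.T') (by rw [← map_mul, g.T_T', map_one])
    (fun i j h => by rw [ρT_zero (cT.rel h)])]
  have e : (g.Ψ g.T)ᴴ * ((g.Ψ g.Rot)ᴴ * (g.Ψ g.J * Dg tt) * g.Ψ g.Rot) * g.Ψ g.T =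
      (g.Ψ g.Λ)ᴴ * (g.Ψ g.Δ * Dg tt) * g.Ψ g.Λ := by
    calc (g.Ψ g.T)ᴴ * ((g.Ψ g.Rot)ᴴ * (g.Ψ g.J * Dg tt) * g.Ψ g.Rot) * g.Ψ g.T
        = (g.Ψ g.Rot * g.Ψ g.T)ᴴ * (g.Ψ g.J * Dg tt) * (g.Ψ g.Rot * g.Ψ g.T) := by
          rw [conjTranspose_mul]; noncomm_ring
      _ = (g.Ψ g.Λ)ᴴ * ((g.Ψ g.T)ᴴ * g.Ψ g.J * (Dg tt * g.Ψ g.T)) * g.Ψ g.Λ := by
          rw [← map_mul, g.Rot_T, map_mul, conjTranspose_mul]; noncomm_ring
      _ = _ := by
          rw [Dg_comm tt cT, ← Matrix.mul_assoc _ (g.Ψ g.T), ← Ψ_conj g g.T, ← map_mul, ← map_mul,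
            g.T_J]
  have e2 : (fun y : Fib N ⊕ Fib N =>
      star (if (Sum.elim id id (kk y) : Fin 2) = 0 then (-1 : ℂ) else 1) *
        ((δv (kk (fsh y)) * sg (tt (fsh y)) : ℝ) : ℂ) *
        if (Sum.elim id id (kk y) : Fin 2) = 0 then (-1 : ℂ) else 1) =
      fun y => ((δv (kk y) * sg (tt (fsh y)) : ℝ) : ℂ) := by
    funext y
    have : kk (fsh y) = kk y := by rcases y with y | y <;> rfl
    rw [this]
    split_ifs <;> simp
  rw [e, Δ_eq, monomial_conj fsh_inj g.Λ_apply, e2, sigOn_eq, cpr,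
    submatrix_diagonal _ _ Subtype.val_injective]
  exact (sig_diagonal fun i : {i : Fib N ⊕ Fib N // (tt i).valMinAbs.natAbs ≤ M} =>
    δv (kk i.1) * sg (tt (fsh i.1))).trans (sum_sign hM hN)

theorem wind_α (hM : 20 ≤ M) (hN : 2 * M + 40 ≤ N) :
    sigOn (fun i => (tt i).valMinAbs.natAbs ≤ M) ((g.Ψ g.α)ᴴ * Bt ℂ τ₁ * g.Ψ g.α) = 4 := by
  have hN2 : 2 < N := by omega
  have ha : g.rg 1 g.a := rg_a hN2
  have hb : g.rg 1 g.b := rg_b hN2
  have hS : g.rg 1 g.S := rg_S hN2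
  have hc : g.rg 1 g.c := by
    have h1 := g.hh
    have h2 := g.hab
    have : g.c = g.h * (g.a + g.b) := by rw [Gen.c]; grind
    rw [this]
    exact (rg_h (r := 0)).mul (ha.add hb)
  have hcS : g.rg 2 ((1 + g.c) * g.S) := (rg_one.add hc).mul hS
  have c1 : ((ρT N).plain ℂ).M tt tt 2 (g.Ψ g.n₁) :=
    M_blocks (rg_two rg_zero (hc.mul hb).neg rg_zero rg_zero) rg_zero2 rg_zero2
      (rg_two rg_zero rg_zero (hc.mul ha) rg_zero)
  have c2 : ((ρT N).plain ℂ).M tt tt 4 (g.Ψ g.n₂) :=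
    M_blocks rg_zero2 (rg_two (hcS.mul (rg_h.sub (hc.mul hc)))
      ((hcS.mul hb).neg.mono (by norm_num)) ((hcS.mul ha).neg.mono (by norm_num))
      (hS.neg.mono (by norm_num))) rg_zero2 rg_zero2
  have c3 : ((ρT N).plain ℂ).M tt tt 1 (g.Ψ g.n₃) :=
    M_blocks rg_zero2 (rg_two rg_zero rg_zero rg_zero hS.neg) rg_zero2 rg_zero2
  have cR : ((ρT N).plain ℂ).M tt tt 1 (g.Ψ g.Rot) :=
    M_blocks (rg_two rg_one.neg rg_zero rg_zero ((hc.add hc).sub rg_one))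
      (rg_two rg_zero rg_zero rg_zero (hS.add hS).neg)
      (rg_two rg_zero rg_zero rg_zero ((rg_h (r := 0)).mul hS))
      (rg_two rg_one.neg rg_zero rg_zero ((hc.add hc).sub rg_one))
  have cJ : ((ρT N).plain ℂ).M tt tt 0 (g.Ψ g.J) :=
    M_blocks rg_zero2 (rg_two rg_i rg_zero rg_zero rg_i)
      (rg_two rg_i.neg rg_zero rg_zero rg_i.neg) rg_zero2
  have lie : ∀ n : Gen.M4 R, nᴴ * g.J = -(g.J * n) → n * n = 0 → ∀ s : ℝ,
      (1 + (s : ℂ) • g.Ψ n)ᴴ * g.Ψ g.J * (1 + (s : ℂ) • g.Ψ n) = g.Ψ g.J := fun n h1 h2 =>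
    iso_nil (by rw [← Ψ_conj, ← map_mul, h1, map_neg, map_mul]) (by rw [← map_mul, h2, map_zero])
  have := wind_path tt (M := M) (r := 8) (J := g.Ψ g.J)
    (U := fun s : ℝ => (1 + (s : ℂ) • g.Ψ g.n₁) * (1 + (s : ℂ) • g.Ψ g.n₂) * g.Ψ g.Rot *
      (1 + (s : ℂ) • g.Ψ g.n₃)) (by fun_prop) (by rw [← Ψ_conj, g.J_herm])
    (by rw [← map_mul, g.J_sq, map_one])
    (fun s => iso_mul (iso_mul (iso_mul (lie _ g.n₁_lie g.n₁_sq s) (lie _ g.n₂_lie g.n₂_sq s))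
      (by rw [← Ψ_conj, ← map_mul, ← map_mul, g.Rot_iso])) (lie _ g.n₃_lie g.n₃_sq s))
    (fun s => (((Ctl.M.one.add (c1.smul _)).mul (Ctl.M.one.add (c2.smul _))).mul cR).mul
      (Ctl.M.one.add (c3.smul _))) cJ (by omega) (by omega)
  simp only [ofReal_one, one_smul, ofReal_zero, zero_smul, add_zero, mul_one, one_mul] at this
  rw [g.Bt_eq, g.α_eq, map_mul, map_mul, map_mul, map_add, map_add, map_add, map_one, this]
  exact g.wind_Rot hM hN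

end Rep

end Crest.Agent.R217.Norm2
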