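import Crest.Agent.R217.IndPath
import Crest.Agent.R217.Norm2
import Crest.Agent.R217.GridPow

/-! # Row 217: the product formula and the index of the standard grid -/

set_option autoImplicit false

namespace Crest.Agent.R217

open Matrix Complex
open scoped Kronecker

namespace NP

section fam

variable {S ι : Type} [Fintype S] [DecidableEq S] [Fintype ι] [DecidableEq ι]

/-- a family of matrices as a block diagonal matrix. -/
def fam (W : S → Matrix ι ι ℂ) : Matrix (S × ι) (S × ι) ℂ :=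
  fun x y => if x.1 = y.1 then W x.1 x.2 y.2 else 0

omit [DecidableEq ι] in
theorem fam_mul_apply (U : S → Matrix ι ι ℂ) (M : Matrix (S × ι) (S × ι) ℂ) (x y : S × ι) :
    (fam U * M) x y = ∑ i, U x.1 x.2 i * M (x.1, i) y := by
  rw [mul_apply, Fintype.sum_prod_type, Finset.sum_eq_single x.1]
  · simp [fam]
  · intro s _ hs
    simp [fam, hs.symm]
  · simp

omit [DecidableEq ι] in
theorem mul_fam_apply (V : S → Matrix ι ι ℂ) (M : Matrix (S × ι) (S × ι) ℂ) (x y : S × ι) :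
    (M * fam V) x y = ∑ j, M x (y.1, j) * V y.1 j y.2 := by
  rw [mul_apply, Fintype.sum_prod_type, Finset.sum_eq_single y.1]
  · simp [fam]
  · intro s _ hs
    simp [fam, hs]
  · simp

omit [DecidableEq ι] in
theorem fam_kron_fam (U V : S → Matrix ι ι ℂ) (C : Matrix S S ℂ) (D : Matrix ι ι ℂ) (x y : S × ι) :
    (fam U * (C ⊗ₖ D) * fam V) x y = C x.1 y.1 * (U x.1 * D * V y.1) x.2 y.2 := by
  rw [mul_fam_apply]
  simp only [fam_mul_apply]
  simp only [mul_apply, kroneckerMap_apply, Finset.mul_sum, Finset.sum_mul]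
  refine Finset.sum_congr rfl fun j _ => Finset.sum_congr rfl fun i _ => by ring

omit [DecidableEq ι] in
theorem fam_mul_fam (U V : S → Matrix ι ι ℂ) : fam U * fam V = fam fun s => U s * V s := by
  ext x y
  rw [fam_mul_apply]
  by_cases h : x.1 = y.1
  · simp [fam, h, mul_apply]
  · simp [fam, h]

omit [Fintype S] [Fintype ι] in
theorem fam_one : fam (fun _ : S => (1 : Matrix ι ι ℂ)) = 1 := by
  ext ⟨s, i⟩ ⟨t, j⟩
  by_cases h : s = t
  · subst h; simp [fam, one_apply]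
  · simp [fam, h, one_apply]

omit [Fintype S] [Fintype ι] [DecidableEq ι] in
theorem fam_conjTranspose (U : S → Matrix ι ι ℂ) : (fam U)ᴴ = fam fun s => (U s)ᴴ := by
  ext ⟨s, i⟩ ⟨t, j⟩
  by_cases h : s = t
  · subst h; simp [fam]
  · simp [fam, h, Ne.symm h]

omit [Fintype S] [Fintype ι] [DecidableEq ι] in
theorem fam_ctl {X : Type*} {ρ : CRel X} {b : ι → X} {r : ℕ} {U : S → Matrix ι ι ℂ}
    (h : ∀ s, (ρ.plain ℂ).M b b r (U s)) :
    (ρ.plain ℂ).M (fun p : S × ι => b p.2) (fun p : S × ι => b p.2) r (fam U) := by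
  intro x y hxy
  unfold fam at hxy
  split_ifs at hxy with h1
  · exact h _ _ _ hxy
  · exact absurd rfl hxy

end fam

section cut

variable {κ ι : Type} [Fintype κ] [DecidableEq κ] [Fintype ι] [DecidableEq ι]

/-- `1` on the first summand, `A` on the second. -/
def Wf (κ : Type) (A : Matrix ι ι ℂ) : κ ⊕ κ → Matrix ι ι ℂ := Sum.elim (fun _ => 1) fun _ => A

/-- the reindexing. -/
abbrev ee (κ ι : Type) : (κ ⊕ κ) × ι ≃ (κ × ι) ⊕ (κ × ι) := Equiv.sumProdDistrib κ κ ι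

variable {A B : Matrix ι ι ℂ}

theorem fam_Wf_mul (h : A * B = 1) : fam (Wf κ A) * fam (Wf κ B) = 1 := by
  rw [fam_mul_fam, ← fam_one]
  congr 1
  funext s
  rcases s with s | s <;> simp [Wf, h]

omit [Fintype κ] [Fintype ι] in
theorem fam_Wf_herm (h : A.IsHermitian) : (fam (Wf κ A))ᴴ = fam (Wf κ A) := by
  rw [fam_conjTranspose]
  congr 1
  funext s
  rcases s with s | s <;> simp [Wf, h.eq]

theorem Ep_kron (h : A * B = 1) (X : Matrix κ κ ℂ) :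
    (Ep (X ⊗ₖ B)).submatrix (ee κ ι) (ee κ ι) =
      fam (Wf κ A) * (Ep X ⊗ₖ (1 : Matrix ι ι ℂ)) * fam (Wf κ B) := by
  ext ⟨s, i⟩ ⟨t, j⟩
  rw [fam_kron_fam]
  rcases s with s | s <;> rcases t with t | t <;>
    simp [Ep, Wf, h, one_apply, Prod.ext_iff, ite_and] <;> split_ifs <;> rfl

theorem Em_kron (h : A * B = 1) (Y : Matrix κ κ ℂ) :
    (Em (Y ⊗ₖ A)).submatrix (ee κ ι) (ee κ ι) =
      fam (Wf κ A) * (Em Y ⊗ₖ (1 : Matrix ι ι ℂ)) * fam (Wf κ B) := by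
  ext ⟨s, i⟩ ⟨t, j⟩
  rw [fam_kron_fam]
  rcases s with s | s <;> rcases t with t | t <;>
    simp [Em, Wf, h, one_apply, Prod.ext_iff, ite_and] <;> split_ifs <;> rfl

omit [Fintype κ] [DecidableEq κ] [Fintype ι] [DecidableEq ι] in
theorem neg_kron (X : Matrix κ κ ℂ) (B : Matrix ι ι ℂ) : -(X ⊗ₖ B) = (-X) ⊗ₖ B := by
  ext; simp

theorem cmp_kron (ρ : κ → ℝ) (X : Matrix κ κ ℂ) (B : Matrix ι ι ℂ) :
    cmp (fun p : κ × ι => ρ p.1) (X ⊗ₖ B) = cmp ρ X ⊗ₖ B := by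
  ext x y
  simp [cmp, dg, diagonal_mul, mul_diagonal]
  ring

theorem conj_mul (h : A * B = 1) (M N : Matrix (κ ⊕ κ) (κ ⊕ κ) ℂ) :
    fam (Wf κ A) * (M ⊗ₖ (1 : Matrix ι ι ℂ)) * fam (Wf κ B) *
      (fam (Wf κ A) * (N ⊗ₖ (1 : Matrix ι ι ℂ)) * fam (Wf κ B)) =
      fam (Wf κ A) * ((M * N) ⊗ₖ (1 : Matrix ι ι ℂ)) * fam (Wf κ B) := by
  have h' : fam (Wf κ B) * fam (Wf κ A) = 1 := fam_Wf_mul (mul_eq_one_comm.1 h)
  have h2 : (M * N) ⊗ₖ (1 : Matrix ι ι ℂ) = M ⊗ₖ (1 : Matrix ι ι ℂ) * N ⊗ₖ (1 : Matrix ι ι ℂ) := by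
    rw [← mul_kronecker_mul, mul_one]
  rw [h2]
  calc _ = fam (Wf κ A) * (M ⊗ₖ (1 : Matrix ι ι ℂ)) * (fam (Wf κ B) * fam (Wf κ A)) *
        (N ⊗ₖ (1 : Matrix ι ι ℂ)) * fam (Wf κ B) := by simp only [mul_assoc]
    _ = _ := by rw [h']; simp only [mul_one, mul_assoc]

theorem al1_kron (h : A * B = 1) (X Y : Matrix κ κ ℂ) :
    (al1 (X ⊗ₖ B) (Y ⊗ₖ A)).submatrix (ee κ ι) (ee κ ι) =
      fam (Wf κ A) * (al1 X Y ⊗ₖ (1 : Matrix ι ι ℂ)) * fam (Wf κ B) := by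
  rw [al1, ← submatrix_mul_equiv _ _ _ (ee κ ι), ← submatrix_mul_equiv _ _ _ (ee κ ι), neg_kron,
    Ep_kron h, Em_kron h, conj_mul h, conj_mul h, al1]

theorem al_kron (h : A * B = 1) (ρ : κ → ℝ) (β β' : Matrix κ κ ℂ) :
    (al (fun p : κ × ι => ρ p.1) (β ⊗ₖ A) (β' ⊗ₖ B)).submatrix (ee κ ι) (ee κ ι) =
      fam (Wf κ A) * (al ρ β β' ⊗ₖ (1 : Matrix ι ι ℂ)) * fam (Wf κ B) := by
  rw [al, ← submatrix_mul_equiv _ _ _ (ee κ ι), cmp_kron, cmp_kron, al1_kron h, conj_mul h, al]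

omit [Fintype κ] [Fintype ι] in
theorem Bt_kron (τ : κ → ℂ) :
    (Bt ℂ (fun p : κ × ι => τ p.1)).submatrix (ee κ ι) (ee κ ι) =
      Bt ℂ τ ⊗ₖ (1 : Matrix ι ι ℂ) := by
  ext ⟨s, i⟩ ⟨t, j⟩
  rcases s with s | s <;> rcases t with t | t <;>
    simp [Bt, dg, diagonal_apply, one_apply, Prod.ext_iff, ite_and] <;> split_ifs <;> rfl

theorem fam_Bt_fam (τ : κ → ℂ) (A : Matrix ι ι ℂ) :
    fam (Wf κ A) * (Bt ℂ τ ⊗ₖ (1 : Matrix ι ι ℂ)) * fam (Wf κ A) = Bt ℂ τ ⊗ₖ A := by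
  ext ⟨s, i⟩ ⟨t, j⟩
  rw [fam_kron_fam]
  rcases s with s | s <;> rcases t with t | t <;> simp [Bt, Wf]

theorem cutA_kron (h : HI A B) (ρ : κ → ℝ) (τ : κ → ℂ) (β β' : Matrix κ κ ℂ) :
    (cutA (fun p : κ × ι => ρ p.1) (fun p : κ × ι => τ p.1) (β ⊗ₖ A) (β' ⊗ₖ B)).submatrix
      (ee κ ι) (ee κ ι) = fam (Wf κ B) * (cutA ρ τ β β' ⊗ₖ A) * fam (Wf κ B) := by
  rw [cutA, ← submatrix_mul_equiv _ _ _ (ee κ ι), ← submatrix_mul_equiv _ _ _ (ee κ ι),
    ← conjTranspose_submatrix, al_kron h.mul, Bt_kron, conjTranspose_mul, conjTranspose_mul,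
    fam_Wf_herm h.hA, fam_Wf_herm h.hB, conjTranspose_kronecker, conjTranspose_one]
  have h2 : cutA ρ τ β β' ⊗ₖ A = (al ρ β β')ᴴ ⊗ₖ (1 : Matrix ι ι ℂ) *
      (fam (Wf κ A) * (Bt ℂ τ ⊗ₖ (1 : Matrix ι ι ℂ)) * fam (Wf κ A)) *
      al ρ β β' ⊗ₖ (1 : Matrix ι ι ℂ) := by
    rw [fam_Bt_fam, ← mul_kronecker_mul, ← mul_kronecker_mul, one_mul, mul_one, cutA]
  rw [h2]
  simp only [mul_assoc]

theorem cutB_kron (h : HI A B) (ρ : κ → ℝ) (τ : κ → ℂ) (β β' : Matrix κ κ ℂ) :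
    (cutB (fun p : κ × ι => ρ p.1) (fun p : κ × ι => τ p.1) (β ⊗ₖ A) (β' ⊗ₖ B)).submatrix
      (ee κ ι) (ee κ ι) = fam (Wf κ A) * (cutB ρ τ β β' ⊗ₖ B) * fam (Wf κ A) := by
  rw [cutB, ← submatrix_mul_equiv _ _ _ (ee κ ι), ← submatrix_mul_equiv _ _ _ (ee κ ι),
    ← conjTranspose_submatrix, neg_kron, neg_kron, al_kron h.mul, Bt_kron, conjTranspose_mul,
    conjTranspose_mul, fam_Wf_herm h.hA, fam_Wf_herm h.hB, conjTranspose_kronecker,
    conjTranspose_one]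
  have h2 : cutB ρ τ β β' ⊗ₖ B = al ρ (-β) (-β') ⊗ₖ (1 : Matrix ι ι ℂ) *
      (fam (Wf κ B) * (Bt ℂ τ ⊗ₖ (1 : Matrix ι ι ℂ)) * fam (Wf κ B)) *
      (al ρ (-β) (-β'))ᴴ ⊗ₖ (1 : Matrix ι ι ℂ) := by
    rw [fam_Bt_fam, ← mul_kronecker_mul, ← mul_kronecker_mul, one_mul, mul_one, cutB]
  rw [h2]
  simp only [mul_assoc]

theorem HI_kron {β β' : Matrix κ κ ℂ} (h₂ : HI β β') (h : HI A B) : HI (β ⊗ₖ A) (β' ⊗ₖ B) :=
  ⟨by rw [IsHermitian, conjTranspose_kronecker, h₂.hA.eq, h.hA.eq],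
    by rw [IsHermitian, conjTranspose_kronecker, h₂.hB.eq, h.hB.eq],
    by rw [← mul_kronecker_mul, h₂.mul, h.mul, one_kronecker_one]⟩

omit [Fintype κ] [DecidableEq κ] [Fintype ι] [DecidableEq ι] in
theorem kron_ctl {X : Type*} {ρ : CRel X} {b : ι → X} {r : ℕ} (C : Matrix κ κ ℂ)
    (h : (ρ.plain ℂ).M b b r A) :
    (ρ.plain ℂ).M (fun p : κ × ι => b p.2) (fun p : κ × ι => b p.2) r (C ⊗ₖ A) :=
  fun x y hxy => h x.2 y.2 (right_ne_zero_of_mul hxy)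

theorem HI_submatrix (h : HI A B) (e : κ ≃ ι) : HI (A.submatrix e e) (B.submatrix e e) :=
  ⟨h.hA.submatrix e, h.hB.submatrix e, by rw [submatrix_mul_equiv, h.mul, submatrix_one_equiv]⟩

end cut

/-- the subtype of a product cut out by the first coordinate. -/
def subProd {S ι : Type} (p : S → Prop) : {s // p s} × ι ≃ {x : S × ι // p x.1} where
  toFun y := ⟨(y.1.1, y.2), y.1.2⟩
  invFun x := (⟨x.1.1, x.2⟩, x.1.2)
  left_inv _ := rfl
  right_inv _ := rfl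

theorem core {X X₂ : Type*} {ι S : Type} [Fintype ι] [DecidableEq ι] [Fintype S]
    [DecidableEq S] {ρ : CRel X} {K : X → Prop} {L : List (Cut X)} {r Rr : ℕ} (geo : Geo ρ K L Rr)
    (hr : 12 ^ L.length * (6 * r) ≤ Rr) (b : ι → X) {A B : Matrix ι ι ℂ} (h : HI A B)
    (cA : (ρ.plain ℂ).M b b r A) (cB : (ρ.plain ℂ).M b b r B) {K₂ : X₂ → Prop} (bb : S → X₂)
    {C C' : Matrix S S ℂ} (hCC : HI C C') (hblock : ∀ s t, K₂ (bb s) → ¬ K₂ (bb t) → C s t = 0)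
    {W W' : S → Matrix ι ι ℂ} (hW : ∀ s, (W s)ᴴ = W s) (hW' : ∀ s, (W' s)ᴴ = W' s)
    (hWW : ∀ s, W s * W' s = 1) (cW : ∀ s, (ρ.plain ℂ).M b b r (W s))
    (cW' : ∀ s, (ρ.plain ℂ).M b b r (W' s))
    (hGG : HI (fam W * (C ⊗ₖ A) * fam W) (fam W' * (C' ⊗ₖ B) * fam W')) :
    Ind (fun x : X₂ × X => K₂ x.1 ∧ K x.2) (L.map fun q => (q.1 ∘ Prod.snd, q.2 ∘ Prod.snd))
      (fun x : S × ι => (bb x.1, b x.2)) (fam W * (C ⊗ₖ A) * fam W)
      (fam W' * (C' ⊗ₖ B) * fam W') = sigOn (fun s => K₂ (bb s)) C * Ind K L b A B := by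
  classical
  have hp : ∀ x y : S × ι, K₂ (bb x.1) → ¬ K₂ (bb y.1) → (fam W * (C ⊗ₖ A) * fam W) x y = 0 := by
    intro x y hx hy
    rw [fam_kron_fam, hblock _ _ hx hy, zero_mul]
  have f1 : (cpr (fun x : S × ι => K₂ (bb x.1)) (fam W * (C ⊗ₖ A) * fam W)).submatrix
      (subProd (ι := ι) fun s => K₂ (bb s)) (subProd (ι := ι) fun s => K₂ (bb s)) =
      (fam fun s : {s // K₂ (bb s)} => W s.1)ᴴ * (cpr (fun s => K₂ (bb s)) C ⊗ₖ A) *
        fam fun s : {s // K₂ (bb s)} => W s.1 := by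
    ext x y
    rw [fam_conjTranspose, fam_kron_fam, hW]
    exact fam_kron_fam _ _ _ _ _ _
  have f2 : (cpr (fun x : S × ι => K₂ (bb x.1)) (fam W' * (C' ⊗ₖ B) * fam W')).submatrix
      (subProd (ι := ι) fun s => K₂ (bb s)) (subProd (ι := ι) fun s => K₂ (bb s)) =
      (fam fun s : {s // K₂ (bb s)} => W' s.1) * (cpr (fun s => K₂ (bb s)) C' ⊗ₖ B) *
        (fam fun s : {s // K₂ (bb s)} => W' s.1)ᴴ := by
    ext x y
    rw [fam_conjTranspose, fam_kron_fam, hW']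
    exact fam_kron_fam _ _ _ _ _ _
  have hUU : (fam fun s : {s // K₂ (bb s)} => W s.1) * (fam fun s : {s // K₂ (bb s)} => W' s.1)
      = 1 := by
    rw [fam_mul_fam, ← fam_one]
    congr 1
    funext s
    exact hWW _
  have hC0 := hCC.cpr (fun s => K₂ (bb s)) hblock
  rw [Ind_split _ _ _ hGG (fun x : S × ι => K₂ (bb x.1)) hp,
    Ind_empty (K := fun x : X₂ × X => K₂ x.1 ∧ K x.2) (b := (fun x : S × ι => (bb x.1, b x.2)) ∘
      (Subtype.val : {x : S × ι // ¬ K₂ (bb x.1)} → S × ι)) _ (fun x hx => x.2 hx.1),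
    add_zero, Ind_congr_K (K := fun x : X₂ × X => K₂ x.1 ∧ K x.2) (K' := K ∘ Prod.snd)
      (b := (fun x : S × ι => (bb x.1, b x.2)) ∘
        (Subtype.val : {x : S × ι // K₂ (bb x.1)} → S × ι)) _ (fun x => and_iff_right x.2),
    Ind_comp,
    ← Ind_equiv _ _ _ _ _ (subProd (ι := ι) fun s => K₂ (bb s)), f1, f2]
  refine (Ind_congr geo hr (fun x : {s // K₂ (bb s)} × ι => b x.2) (HI_kron hC0 h) hUU
    (kron_ctl _ cA) (kron_ctl _ cB) (fam_ctl fun s => cW _) (fam_ctl fun s => cW' _)).trans ?_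
  rw [Ind_kron geo hr b h cA cB hC0, sigOn_eq]

/-- the trichotomy on the two-torus. -/
theorem tri2 {N M R : ℕ} [NeZero N] (hM : 2 * R < M) (hN : 2 * (M + 2 * R) < N) (x : Z2 N) :
    (∀ y, dist2 N x y ≤ R → K2 N M y) ∨ (∀ y, dist2 N x y ≤ R → ¬ K2 N M y) ∨
      (∀ y, dist2 N x y ≤ R → (cut2 N).1 y = 0) ∨ (∀ y, dist2 N x y ≤ R → (cut2 N).1 y = 1) ∨
      (∀ y, dist2 N x y ≤ R → (cut2 N).2 y = I) ∨ (∀ y, dist2 N x y ≤ R → (cut2 N).2 y = -I) := by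
  have t1 : ∀ a c : ZMod N, c.valMinAbs.natAbs ≤ (a - c).valMinAbs.natAbs + a.valMinAbs.natAbs := by
    intro a c
    have := natAbs_valMinAbs_tri c a 0
    rw [sub_zero, sub_zero, ← neg_sub a c, ZMod.natAbs_valMinAbs_neg] at this
    exact this
  have t2 : ∀ a c : ZMod N, a.valMinAbs.natAbs ≤ (a - c).valMinAbs.natAbs + c.valMinAbs.natAbs := by
    intro a c
    have := natAbs_valMinAbs_tri a c 0
    rwa [sub_zero, sub_zero] at this
  have t3 : ∀ a c : ZMod N, (a - c).valMinAbs.natAbs ≤ R → M < a.valMinAbs.natAbs + R →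
      a.valMinAbs.natAbs ≤ M + R → (0 < c.valMinAbs ↔ 0 < a.valMinAbs) := by
    intro a c h1 h2 h3
    have := valMinAbs_sub_of_lt a c (by omega)
    omega
  have d1 : ∀ y, dist2 N x y ≤ R → (x.1 - y.1).valMinAbs.natAbs ≤ R :=
    fun y hy => (le_max_left _ _).trans hy
  have d2 : ∀ y, dist2 N x y ≤ R → (x.2 - y.2).valMinAbs.natAbs ≤ R :=
    fun y hy => (le_max_right _ _).trans hy
  by_cases h1 : M + R < x.1.valMinAbs.natAbs
  · refine Or.inr (Or.inl fun y hy hK => ?_)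
    have := t2 x.1 y.1
    have := d1 y hy
    have := hK.1
    omega
  by_cases h2 : M + R < x.2.valMinAbs.natAbs
  · refine Or.inr (Or.inl fun y hy hK => ?_)
    have := t2 x.2 y.2
    have := d2 y hy
    have := hK.2
    omega
  by_cases h3 : M < x.1.valMinAbs.natAbs + R
  · by_cases h5 : 0 < x.1.valMinAbs
    · refine Or.inr (Or.inr (Or.inr (Or.inl fun y hy => ?_)))
      exact if_pos ((t3 _ _ (d1 y hy) h3 (by omega)).2 h5)
    · refine Or.inr (Or.inr (Or.inl fun y hy => ?_))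
      exact if_neg fun h => h5 ((t3 _ _ (d1 y hy) h3 (by omega)).1 h)
  by_cases h4 : M < x.2.valMinAbs.natAbs + R
  · by_cases h5 : 0 < x.2.valMinAbs
    · refine Or.inr (Or.inr (Or.inr (Or.inr (Or.inl fun y hy => ?_))))
      exact if_pos ((t3 _ _ (d2 y hy) h4 (by omega)).2 h5)
    · refine Or.inr (Or.inr (Or.inr (Or.inr (Or.inr fun y hy => ?_))))
      exact if_neg fun h => h5 ((t3 _ _ (d2 y hy) h4 (by omega)).1 h)
  refine Or.inl fun y hy => ⟨?_, ?_⟩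
  · have := t1 x.1 y.1
    have := d1 y hy
    omega
  · have := t1 x.2 y.2
    have := d2 y hy
    omega

theorem cut2_unit (N : ℕ) (x : Z2 N) : ‖(cut2 N).2 x‖ = 1 := by
  show ‖if 0 < x.2.valMinAbs then I else -I‖ = 1
  split_ifs <;> simp

theorem geo2 {N M R : ℕ} [NeZero N] (hM : 2 * R < M) (hN : 2 * (M + 2 * R) < N) :
    Geo (distRel (dist2 N) (dist2_self N) (dist2_comm N) (dist2_tri N) 1) (K2 N M) [cut2 N] R where
  unit q hq x := by
    rw [List.mem_singleton] at hq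
    subst hq
    exact cut2_unit N x
  adm x := by
    have hx : dist2 N x x ≤ R := by rw [dist2_self]; exact Nat.zero_le _
    have e : ∀ y, (distRel (dist2 N) (dist2_self N) (dist2_comm N) (dist2_tri N) 1).rel x y R →
        dist2 N x y ≤ R := fun y hy => by simpa [distRel] using hy
    rcases tri2 hM hN x with h | h | h
    · exact Or.inl fun y hy => iff_of_true (h x hx) (h y (e y hy))
    · exact Or.inl fun y hy => iff_of_false (h x hx) (h y (e y hy))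
    · refine Or.inr ⟨_, List.mem_singleton_self _, ?_⟩
      exact h.imp (fun h y hy => h y (e y hy)) fun h => h.imp (fun h y hy => h y (e y hy))
        fun h => h.imp (fun h y hy => h y (e y hy)) (fun h y hy => h y (e y hy))

theorem HI_SK (k N : ℕ) [NeZero N] : HI (SK k N) (SK' k N) := by
  refine ⟨?_, ?_, ?_⟩
  · rw [IsHermitian, SK, piKron_conjTranspose, (HI_S2 N).hA.eq]
  · rw [IsHermitian, SK', piKron_conjTranspose, (HI_S2 N).hB.eq]
  · rw [SK, SK', piKron_mul, (HI_S2 N).mul, piKron_one]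

theorem piKron_ctl (k N : ℕ) {T : Matrix (Cell2 N) (Cell2 N) ℂ}
    (hT : ∀ i j, T i j ≠ 0 → dist2 N i.1 j.1 ≤ 1) :
    ((distRel (tdist (k := k) (N := N)) tdist_self tdist_comm tdist_tri 1).plain ℂ).M vtx vtx 1
      (piKron fun _ : Fin k => T) := by
  intro x y hxy
  exact tdist_le_iff.2 fun j => hT _ _ (Finset.prod_ne_zero_iff.1 hxy j (Finset.mem_univ j))

theorem piKron_succ {α : Type} (k : ℕ) (T : Matrix α α ℂ) :
    (piKron fun _ : Fin (k + 1) => T).submatrix (Fin.consEquiv fun _ => α)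
      (Fin.consEquiv fun _ => α) = T ⊗ₖ piKron fun _ : Fin k => T := by
  ext x y
  simp [piKron, Fin.prod_univ_succ, Fin.consEquiv]

end NP

open NP in
theorem Ind_prod {X X₂ : Type*} {ι κ : Type} [Fintype ι] [DecidableEq ι] [Fintype κ]
    [DecidableEq κ] {ρ : CRel X} {K : X → Prop} {L : List (Cut X)} {r Rr : ℕ} (geo : Geo ρ K L Rr)
    (hr : 12 ^ L.length * (6 * r) ≤ Rr) (b : ι → X) {A B : Matrix ι ι ℂ} (h : HI A B)
    (cA : (ρ.plain ℂ).M b b r A) (cB : (ρ.plain ℂ).M b b r B)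
    {ρ₂ : CRel X₂} {K₂ : X₂ → Prop} {q₂ : Cut X₂} {r₂ R₂ : ℕ} (geo₂ : Geo ρ₂ K₂ [q₂] R₂)
    (hr₂ : 12 * r₂ ≤ R₂) (b₂ : κ → X₂) {β β' : Matrix κ κ ℂ} (h₂ : HI β β')
    (cβ : (ρ₂.plain ℂ).M b₂ b₂ r₂ β) (cβ' : (ρ₂.plain ℂ).M b₂ b₂ r₂ β') :
    Ind (fun x : X₂ × X => K₂ x.1 ∧ K x.2)
      ((q₂.1 ∘ Prod.fst, q₂.2 ∘ Prod.fst) :: L.map fun q => (q.1 ∘ Prod.snd, q.2 ∘ Prod.snd))
      (fun p : κ × ι => (b₂ p.1, b p.2)) (β ⊗ₖ A) (β' ⊗ₖ B) =
      Ind K₂ [q₂] b₂ β β' * Ind K L b A B := by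
  have hunit : ∀ i, ‖(q₂.2 ∘ b₂) i‖ = 1 := fun i => geo₂.unit q₂ (by simp) _
  have hCC := HI_cut (q₂.1 ∘ b₂) hunit β β'
  have hblock : ∀ s t, K₂ (Sum.elim b₂ b₂ s) → ¬ K₂ (Sum.elim b₂ b₂ t) →
      cutA (q₂.1 ∘ b₂) (q₂.2 ∘ b₂) β β' s t = 0 := by
    intro s t hs ht
    rcases geo₂.adm (Sum.elim b₂ b₂ t) with h1 | ⟨q, hq, h1⟩
    · by_contra h0
      have := (cβ.cutA cβ' (q₂.1 ∘ b₂) (q₂.2 ∘ b₂)) s t h0
      exact ht ((h1 _ (ρ₂.rel_mono hr₂ (ρ₂.rel_symm this))).2 hs)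
    · rw [List.mem_singleton] at hq
      subst hq
      exact ((h1.loc_cut hr₂ h₂ cβ cβ').1 t s rfl).1 (fun h0 => ht (h0 ▸ hs))
  have e1 := cutA_kron h (q₂.1 ∘ b₂) (q₂.2 ∘ b₂) β β'
  have e2 := cutB_kron h (q₂.1 ∘ b₂) (q₂.2 ∘ b₂) β β'
  have hGG := HI_submatrix (HI_cut (fun p : κ × ι => (q₂.1 ∘ b₂) p.1)
    (τ := fun p : κ × ι => (q₂.2 ∘ b₂) p.1) (fun p => hunit p.1) (β ⊗ₖ A) (β' ⊗ₖ B)) (ee κ ι)
  rw [e1, e2] at hGG
  have hbh : (Sum.elim (fun p : κ × ι => (b₂ p.1, b p.2)) fun p : κ × ι => (b₂ p.1, b p.2)) ∘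
      ee κ ι = fun x : (κ ⊕ κ) × ι => (Sum.elim b₂ b₂ x.1, b x.2) := by
    funext ⟨s, i⟩
    rcases s with s | s <;> rfl
  have key := core geo hr b h cA cB (Sum.elim b₂ b₂) hCC hblock (W := Wf κ B) (W' := Wf κ A)
    (by rintro (s | s) <;> simp [Wf, h.hB.eq]) (by rintro (s | s) <;> simp [Wf, h.hA.eq])
    (by rintro (s | s) <;> simp [Wf, h.mul'])
    (by rintro (s | s); exacts [Ctl.M.one, cB]) (by rintro (s | s); exacts [Ctl.M.one, cA]) hGG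
  rw [← e1, ← e2, ← hbh, Ind_equiv] at key
  exact key

/-- the standard geometry is admissible. -/
theorem geo_std (k N M a' Rr : ℕ) [NeZero N] (hM : 2 * (Rr * a') < M)
    (hN : 2 * (M + 2 * (Rr * a')) < N) :
    Geo (distRel (tdist (k := k) (N := N)) tdist_self tdist_comm tdist_tri a') (Kstd k N M)
      (cutsStd k N) Rr := by
  constructor
  · intro q hq x
    rw [cutsStd, List.mem_ofFn] at hq
    obtain ⟨j, rfl⟩ := hq
    exact NP.cut2_unit N _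
  · intro x
    have e : ∀ y, (distRel (tdist (k := k) (N := N)) tdist_self tdist_comm tdist_tri a').rel
        x y Rr → ∀ j, dist2 N (x j) (y j) ≤ Rr * a' := fun y hy => tdist_le_iff.1 hy
    have hx : ∀ j, dist2 N (x j) (x j) ≤ Rr * a' := fun j => by
      rw [dist2_self]; exact Nat.zero_le _
    by_cases h1 : ∀ j, ∀ y, dist2 N (x j) y ≤ Rr * a' → K2 N M y
    · exact Or.inl fun y hy => iff_of_true (fun j => h1 j _ (hx j)) fun j => h1 j _ (e y hy j)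
    obtain ⟨j, hj⟩ := not_forall.1 h1
    rcases NP.tri2 hM hN (x j) with h | h | h
    · exact absurd h hj
    · exact Or.inl fun y hy => iff_of_false (fun h' => h _ (hx j) (h' j))
        fun h' => h _ (e y hy j) (h' j)
    · refine Or.inr ⟨_, List.mem_ofFn.2 ⟨j, rfl⟩, ?_⟩
      exact h.imp (fun h y hy => h _ (e y hy j)) fun h => h.imp (fun h y hy => h _ (e y hy j))
        fun h => h.imp (fun h y hy => h _ (e y hy j)) (fun h y hy => h _ (e y hy j))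

theorem Ind_std (k N M : ℕ) [NeZero N] (hM : 40 * 12 ^ k ≤ M) (hN : 2 * M + 80 * 12 ^ k ≤ N) :
    Ind (Kstd k N M) (cutsStd k N) vtx (SK k N) (SK' k N) = 4 ^ k := by
  induction k with
  | zero =>
    classical
    have hK : ∀ c : Cell 0 N, Kstd 0 N M (vtx c) := fun c j => j.elim0
    have : Unique {c : Cell 0 N // Kstd 0 N M (vtx c)} :=
      ⟨⟨⟨default, hK _⟩⟩, fun c => Subtype.ext (Subsingleton.elim _ _)⟩
    have h1 : cpr (fun c : Cell 0 N => Kstd 0 N M (vtx c)) (SK 0 N) =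
        diagonal fun _ => ((1 : ℝ) : ℂ) := by
      ext x y
      rw [Subsingleton.elim x y]
      simp [SK, piKron]
    show sigOn (fun c : Cell 0 N => Kstd 0 N M (vtx c)) (SK 0 N) = 4 ^ 0
    rw [sigOn_eq, h1, sig_diagonal]
    simp
  | succ k ih =>
    have hp : 1 ≤ 12 ^ k := Nat.one_le_pow _ _ (by norm_num)
    rw [pow_succ] at hM hN
    have ih' := ih (by omega) (by omega)
    have geo := geo_std k N M 1 (6 * 12 ^ k) (by omega) (by omega)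
    have g2 := NP.geo2 (N := N) (M := M) (R := 12) (by omega) (by omega)
    have hlen : (cutsStd k N).length = k := by simp [cutsStd]
    have key := Ind_prod (r := 1) geo (by rw [hlen]; omega) vtx (NP.HI_SK k N)
      (NP.piKron_ctl k N (S2_supp N)) (NP.piKron_ctl k N (S2'_supp N)) (r₂ := 1) g2 le_rfl
      Prod.fst (HI_S2 N) (fun i j hij => S2_supp N i j hij) (fun i j hij => S2'_supp N i j hij)
    rw [ih', Ind_S2 N M (by omega) (by omega)] at key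
    let f : Z2 N × Vtx k N → Vtx (k + 1) N := fun x => Fin.cons x.1 x.2
    have hb : (vtx : Cell (k + 1) N → Vtx (k + 1) N) ∘ (Fin.consEquiv fun _ => Cell2 N) =
        f ∘ fun p : Cell2 N × Cell k N => (p.1.1, vtx p.2) := by
      funext p j
      refine Fin.cases ?_ (fun j => ?_) j <;> rfl
    have hL : ((cutsStd (k + 1) N).map fun q => (q.1 ∘ f, q.2 ∘ f)) =
        (((cut2 N).1 ∘ Prod.fst, (cut2 N).2 ∘ Prod.fst) ::
          (cutsStd k N).map fun q => (q.1 ∘ Prod.snd, q.2 ∘ Prod.snd)) := by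
      rw [cutsStd, cutsStd, List.ofFn_succ, List.map_cons, List.map_ofFn, List.map_ofFn]
      rfl
    rw [← Ind_equiv _ _ _ _ _ (Fin.consEquiv fun _ => Cell2 N), hb, ← Ind_comp, hL, SK, SK',
      NP.piKron_succ, NP.piKron_succ,
      Ind_congr_K (K' := fun x : Z2 N × Vtx k N => K2 N M x.1 ∧ Kstd k N M x.2) _
        (fun p => Fin.forall_fin_succ), pow_succ, mul_comm]
    exact key

end Crest.Agent.R217
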