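import Crest.Agent.R217.OpsAuxA

/-! # Row 217: averaging an approximate action against the powers of a character -/

set_option autoImplicit false
set_option linter.unusedSectionVars false

namespace Crest.Agent.R217.OpsA

open Matrix

variable {ι : Type} [Fintype ι] [DecidableEq ι]

theorem evM_ext {A B : Matrix ι ι Seq} (h : ∀ j, evM j A = evM j B) : A = B := by
  ext i x j
  exact congrFun (congrFun (h j) i) x

theorem evM_mul (j : ℕ) (A B : Matrix ι ι Seq) : evM j (A * B) = evM j A * evM j B :=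
  Matrix.map_mul (f := Pi.evalRingHom (fun _ : ℕ => ℂ) j)

theorem evM_add (j : ℕ) (A B : Matrix ι ι Seq) : evM j (A + B) = evM j A + evM j B := rfl

theorem evM_sub (j : ℕ) (A B : Matrix ι ι Seq) : evM j (A - B) = evM j A - evM j B := rfl

theorem evM_cst (j : ℕ) (A : Matrix ι ι ℂ) : evM j (cstM A) = A := rfl

theorem evM_conjT (j : ℕ) (A : Matrix ι ι Seq) : evM j Aᴴ = (evM j A)ᴴ := rfl

/-- weighted average. -/
noncomputable def av {κ : Type*} [Fintype κ] (c : κ → ℂ) (G : κ → Matrix ι ι ℂ) : Matrix ι ι ℂ :=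
  (Fintype.card κ : ℂ)⁻¹ • ∑ k, c k • G k

/-- the family of the averages against the powers of `c`. -/
noncomputable def fam {κ : Type*} [Fintype κ] (c : κ → ℂ) (G : κ → Matrix ι ι ℂ) :
    Matrix ι ι Seq := of fun i x j => av (fun k => c k ^ j) G i x

section

variable {κ : Type*} [Fintype κ] {c : κ → ℂ} {G G' : κ → Matrix ι ι ℂ}

theorem evM_fam (j : ℕ) : evM j (fam c G) = av (fun k => c k ^ j) G := rfl

theorem fam_apply (i x : ι) :
    fam c G i x = ∑ k, ((Fintype.card κ : ℂ)⁻¹ * G k i x) • fun j => c k ^ j := by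
  funext j
  simp only [fam, av, of_apply, Matrix.smul_apply, Matrix.sum_apply, Finset.sum_apply, Pi.smul_apply,
    smul_eq_mul, Finset.mul_sum]
  exact Finset.sum_congr rfl fun k _ => by ring

theorem mul_av (B : Matrix ι ι ℂ) : B * av c G = av c fun k => B * G k := by
  simp only [av, Matrix.mul_smul, Matrix.mul_sum]

theorem av_mul (B : Matrix ι ι ℂ) : av c G * B = av c fun k => G k * B := by
  simp only [av, Matrix.smul_mul, Matrix.sum_mul]

theorem av_add : av c G + av c G' = av c fun k => G k + G' k := by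
  simp only [av, smul_add, Finset.sum_add_distrib]

theorem av_sub : av c G - av c G' = av c fun k => G k - G' k := by
  simp only [av, smul_sub, Finset.sum_sub_distrib]

theorem av_const (B : Matrix ι ι ℂ) :
    av c (fun _ => B) = ((Fintype.card κ : ℂ)⁻¹ * ∑ k, c k) • B := by
  rw [av, ← Finset.sum_smul, smul_smul]

theorem av_ne_zero {i x : ι} (h : av c G i x ≠ 0) : ∃ k, G k i x ≠ 0 := by
  by_contra h'
  push Not at h'
  exact h (by simp [av, Matrix.sum_apply, h'])

end

variable {Q : Type*} [Group Q] [Fintype Q] {c : Q → ℂ} {F : Q → Matrix ι ι ℂ}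

theorem av_conjT (hc : ∀ q, star (c q) = c q⁻¹) : (av c F)ᴴ = av c fun q => (F q⁻¹)ᴴ := by
  simp only [av, conjTranspose_smul, conjTranspose_sum, star_inv₀, star_natCast, hc]
  rw [← Equiv.sum_comp (Equiv.inv Q)]
  simp

theorem av_mul_av : av c F * av c F = av (fun p : Q × Q => c p.1 * c p.2) fun p => F p.1 * F p.2 := by
  simp only [av, Matrix.smul_mul, Matrix.mul_smul, Finset.sum_mul_sum, smul_smul,
    Fintype.sum_prod_type, Fintype.card_prod, Nat.cast_mul, mul_inv, mul_comm]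

theorem av_eq_av (hc : ∀ q q', c (q * q') = c q * c q') :
    av c F = av (fun p : Q × Q => c p.1 * c p.2) fun p => F (p.1 * p.2) := by
  have h0 : (Fintype.card Q : ℂ) ≠ 0 := Nat.cast_ne_zero.2 Fintype.card_ne_zero
  have e : ∀ q : Q, ∑ q', (c q * c q') • F (q * q') = ∑ q', c q' • F q' := fun q => by
    rw [← Equiv.sum_comp (Equiv.mulLeft q) fun q' => c q' • F q']
    simp [hc]
  simp only [av, Fintype.sum_prod_type, e, Finset.sum_const, Finset.card_univ, Fintype.card_prod,
    ← Nat.cast_smul_eq_nsmul ℂ, smul_smul]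
  congr 1
  push_cast
  field_simp

/-- The algebra of the averaged operators. -/
theorem ops_of {X : Type*} (ct : Ctl Seq X) (ρ₀ : CRel X) (b : ι → X) (d S S' : Matrix ι ι ℂ)
    (f : Q →* ℂ) (hf : f ≠ 1) (hs : ∀ q, star (f q) = f q⁻¹)
    (C : Q → Matrix ι ι ℂ → Prop)
    (hC : ∀ q B, C q B → ∀ i x, B i x ≠ 0 → (fun j => f q ^ j) ∈ ct.V (b i) (b x) 1)
    (F K L : Q → Matrix ι ι ℂ) (M : Q → Q → Matrix ι ι ℂ)
    (hF : ∀ q, d * F q = F q * d) (hK : ∀ q, F q - 1 = d * K q + K q * d)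
    (hL : ∀ q, F q * S - S * (F q⁻¹)ᴴ = d * L q + L q * (-dᴴ))
    (hM : ∀ q q', F q * F q' - F (q * q') = d * M q q' + M q q' * d)
    (cd : C 1 d) (cS : C 1 S) (cS' : C 1 S') (cF : ∀ q, C q (F q)) (cL : ∀ q, C q (L q))
    (cM : ∀ q q', C (q * q') (M q q'))
    (cK : ∀ q i x, K q i x ≠ 0 → ρ₀.rel (b i) (b x) 1) : Nonempty (Ops ct ρ₀ b d S S') := by
  have h0 : (Fintype.card Q : ℂ) ≠ 0 := Nat.cast_ne_zero.2 Fintype.card_ne_zero
  have c1 : ∀ B, C 1 B → ct.M b b 1 (cstM B) := fun B hB i x => by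
    by_cases h : B i x = 0
    · simp [h]
    · have := Submodule.smul_mem _ (B i x) (hC 1 B hB i x h)
      convert this using 1
      funext j
      simp
  have c2 : ∀ {κ : Type _} [Fintype κ] (u : κ → Q) (B : κ → Matrix ι ι ℂ), (∀ k, C (u k) (B k)) →
      ct.M b b 1 (fam (fun k => f (u k)) B) := fun u B hB i x => by
    rw [fam_apply]
    refine Submodule.sum_mem _ fun k _ => ?_
    by_cases h : B k i x = 0
    · simp [h]
    · exact Submodule.smul_mem _ _ (hC _ _ (hB k) i x h)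
  have c3 : ∀ c : Q → ℂ, (ρ₀.plain ℂ).M b b 1 (av c K) := fun c i x h => by
    obtain ⟨q, hq⟩ := av_ne_zero h
    exact cK q i x hq
  have e01 : ∀ c : Q → ℂ, av c F =
      ((Fintype.card Q : ℂ)⁻¹ * ∑ q, c q) • (1 : Matrix ι ι ℂ) + (d * av c K + av c K * d) := by
    intro c
    rw [← av_const, mul_av, av_mul, av_add, av_add]
    congr 1
    funext q
    rw [← hK, add_sub_cancel]
  refine ⟨⟨fam f F, fam f L, fam (fun p : Q × Q => f (p.1 * p.2)) fun p => M p.1 p.2,
    av (fun q => f q ^ 0) K, av (fun q => f q ^ 1) K, evM_ext fun j => ?_, evM_ext fun j => ?_,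
    evM_ext fun j => ?_, ?_, ?_, c1 d cd, c1 S cS, c1 S' cS', c2 id F cF, c2 id L cL,
    c2 (fun p : Q × Q => p.1 * p.2) _ fun p => cM p.1 p.2, c3 _, c3 _⟩⟩
  · simp only [evM_mul, evM_cst, evM_fam, mul_av, av_mul, hF]
  · simp only [evM_mul, evM_sub, evM_conjT, evM_cst, evM_fam]
    rw [av_conjT fun q => by rw [star_pow, hs]]
    simp only [mul_av, av_mul, av_sub, hL, Matrix.mul_neg, ← sub_eq_add_neg]
  · simp only [evM_mul, evM_sub, evM_add, evM_cst, evM_fam]
    rw [av_mul_av]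
    nth_rewrite 1 [av_eq_av (F := F) fun q q' => by rw [map_mul, mul_pow]]
    simp only [mul_av, av_mul, av_sub, av_add, hM, map_mul, mul_pow]
  · rw [evM_fam, e01]
    simp [h0]
  · rw [evM_fam, e01]
    simp [sum_hom_units_eq_zero f hf]

end Crest.Agent.R217.OpsA
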