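import Crest.Agent.R217.Compare
import Crest.Agent.R217.GridDefs
import Crest.Agent.R217.OpsAuxB

/-! # Row 217: the approximate action on a fine grid -/

set_option autoImplicit false

namespace Crest.Agent.R217

open Matrix

namespace OpsA

variable {ι V : Type} [Fintype ι] [DecidableEq ι] {n ρmax : ℕ} (g : Grid ι V n ρmax)

theorem deg_mul {A B : Matrix ι ι ℂ} {u v w : ι → ℕ} (hA : ∀ i x, A i x ≠ 0 → u i = v x)
    (hB : ∀ i x, B i x ≠ 0 → v i = w x) (i x : ι) (h : (A * B) i x ≠ 0) : u i = w x := by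
  obtain ⟨k, h1, h2⟩ := exists_mul_ne h
  exact (hA i k h1).trans (hB k x h2)

omit [Fintype ι] [DecidableEq ι] in
theorem deg_sub {A B : Matrix ι ι ℂ} {u v : ι → ℕ} (hA : ∀ i x, A i x ≠ 0 → u i = v x)
    (hB : ∀ i x, B i x ≠ 0 → u i = v x) (i x : ι) (h : (A - B) i x ≠ 0) : u i = v x := by
  by_cases h0 : A i x = 0
  · exact hB i x fun h1 => h (by simp [h0, h1])
  · exact hA i x h0

theorem mu_fixed {F K : Matrix ι ι ℂ} (hK : F - 1 = g.d * K + K * g.d)
    (hd : ∀ i x, K i x ≠ 0 → g.deg i = g.deg x + 1) : g.mu ᵥ* Fᴴ = g.mu := by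
  have h1 : K *ᵥ g.mu = 0 := by
    funext i
    refine Finset.sum_eq_zero fun x _ => ?_
    by_cases h0 : K i x = 0
    · simp [h0]
    · have := hd i x h0
      have := g.deg_le i
      simp [Grid.mu, show g.deg x ≠ n by omega]
  have h2 : g.d *ᵥ g.mu = 0 := g.d_mu
  have h3 : star g.mu = g.mu := by
    funext i
    simp only [Grid.mu, Pi.star_apply]
    split_ifs <;> simp
  rw [vecMul_conjTranspose, h3, sub_eq_iff_eq_add.1 hK, add_mulVec, add_mulVec, ← mulVec_mulVec,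
    ← mulVec_mulVec, h1, h2, one_mulVec]
  simp [h3]

end OpsA

open OpsA in
theorem exists_ops {H : Type*} [CommGroup H] [TopologicalSpace H] [IsTopologicalGroup H]
    [CompactSpace H] {G : Good H} {E : Type*} [NormedAddCommGroup E] [ProperSpace E] {ε : ℝ}
    (hε : ε ≤ 1 / 100) {a : LAct H E ε} (O : Orbit G a) (n : ℕ) {b : ℝ} (hb : 0 < b) :
    ∃ η₀ > 0, ∀ η : ℝ, 0 < η → η ≤ η₀ → ∀ {ι V : Type} [Fintype ι] [DecidableEq ι] {ρmax : ℕ}
      (g : Grid ι V n ρmax) (P : Pos V E g.dist η) (a' : ℕ),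
      20 * (n + 1) * (ε + η) ≤ a' * η → a' ≤ ρmax → a' * η ≤ 1 / 100 →
      Nonempty (Ops (O.ctl (distRel g.dist g.dist_self g.dist_comm g.dist_tri a') P.pos b hb.le)
        (distRel g.dist g.dist_self g.dist_comm g.dist_tri a') g.vtx g.d g.S g.S') := by
  classical
  obtain ⟨η₁, hη₁, hunif⟩ := O.unif b hb
  obtain ⟨s, hs0, hs1, hs2⟩ : ∃ s : ℝ, 0 < s ∧ 3 * s ≤ η₁ ∧ s ≤ 1 / 100 :=
    ⟨min (η₁ / 3) (1 / 100), by positivity, by linarith [min_le_left (η₁ / 3) (1 / 100)],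
      min_le_right _ _⟩
  obtain ⟨θ₂, hθ₂, hu₂⟩ := exists_UC a hs0
  obtain ⟨e, he0, he1, he2⟩ : ∃ e : ℝ, 0 < e ∧ 3 * (n + 1) * e ≤ θ₂ ∧ 3 * (n + 1) * e ≤ s := by
    refine ⟨min θ₂ s / (3 * (n + 1)), by positivity, ?_, ?_⟩
    · rw [mul_div_cancel₀ _ (by positivity)]; exact min_le_left _ _
    · rw [mul_div_cancel₀ _ (by positivity)]; exact min_le_right _ _
  obtain ⟨θ₁, hθ₁, hu₁⟩ := exists_UC a he0
  refine ⟨min θ₁ e, by positivity, fun η hη hη₀ ι V _ _ ρmax g P a' ha1 ha2 ha3 => ?_⟩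
  have hu : UC a η e := hu₁.mono (hη₀.trans (min_le_left _ _))
  have hηe : η ≤ e := hη₀.trans (min_le_right _ _)
  have hε0 := eps_nonneg a
  have hn0 : (0 : ℝ) ≤ n := Nat.cast_nonneg n
  obtain ⟨A, N⟩ : ∃ A, Num ε η n ρmax A a' := by
    refine ⟨⌊(ε + η) / η⌋₊, hη, hε, fun m hm => Nat.le_floor ((le_div_iff₀ hη).2 hm),
      Nat.le_floor ((le_div_iff₀ hη).2 (by simpa using hε0)), ?_, ha2, ha3⟩
    have h1 : (⌊(ε + η) / η⌋₊ : ℝ) * η ≤ ε + η :=
      (le_div_iff₀ hη).1 (Nat.floor_le (by positivity))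
    have h2 : ((20 * (n + 1) * ⌊(ε + η) / η⌋₊ : ℕ) : ℝ) * η ≤ a' * η := by
      push_cast
      refine le_trans ?_ ha1
      rw [mul_assoc]
      exact mul_le_mul_of_nonneg_left h1 (by positivity)
    exact_mod_cast le_of_mul_le_mul_right h2 hη
  have hη1 := N.eta
  have hA := N.ha
  have hA1 := N.hA1
  obtain ⟨r, hr⟩ : ∃ r : ℝ, r = 2 * η + n * (2 * η + e) := ⟨_, rfl⟩
  have hr0 : 0 ≤ r := by rw [hr]; positivity
  have hr1 : r + η ≤ 3 * (n + 1) * e := by rw [hr]; nlinarith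
  have hur : UC a r s := hu₂.mono (by linarith)
  have hur' : UC a (r + η) s := hu₂.mono (by linarith)
  have huη : UC a η s := hu₂.mono (by linarith)
  obtain ⟨H', hH'⟩ := G.basis _
    (Filter.inter_mem (G.ker_open.mem_nhds (map_one G.χ)) (exists_nhds a hη))
  let Q := H ⧸ H'.toSubgroup
  let _ : Fintype Q := Fintype.ofFinite Q
  let f : Q →* ℂ := QuotientGroup.lift H'.toSubgroup G.χ fun h hh => (hH' hh).1
  have hf : ∀ h : H, f (h : Q) = G.χ h := fun h => rfl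
  have hcos : ∀ {h : H} {q : Q} {t rf : ℝ} {rc : ℕ} {F : Matrix ι ι ℂ}, (h : Q) = q →
      Sp a g P q.out t rf rc F → t + ε ≤ 1 → Sp a g P h t (rf + η) rc F := by
    intro h q t rf rc F hq hF ht
    obtain ⟨k, hk⟩ := QuotientGroup.mk_out_eq_mul H'.toSubgroup h
    rw [← hq, hk, mul_comm] at hF
    exact hF.coset (hH' k.2).2 ht
  have hdS : ∀ i x, g.S i x ≠ 0 → g.dist (g.vtx i) (g.vtx x) ≤ 1 := fun i x hx => (g.S_supp i x hx).2
  choose F hF1 hF2 hF3 hF4 using fun q : Q => exists_F (g := g) (P := P) N hu he0.le q.out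
  rw [← hr] at hF4
  have hK : ∀ q : Q, ∃ K : Matrix ι ι ℂ, F q - 1 = g.d * K + K * g.d ∧
      (∀ i x, K i x ≠ 0 → g.deg i = g.deg x + 1) ∧
      Sp a g P 1 (-1 - 1 / 100) (0 + (2 * η + n * (2 * η + e))) a' K := fun q =>
    exists_K N hu he0.le g.deg g.deg_le g.d g.dd g.d_supp (by norm_num) le_rfl
      (rc := (3 * n + 2) * A) (by nlinarith)
      (by rw [Matrix.mul_sub, Matrix.sub_mul, hF1, Matrix.mul_one, Matrix.one_mul])
      (by rw [vecMul_sub, hF2, vecMul_one, sub_self])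
      (deg_sub (hF3 q) fun i x hx => by
        obtain rfl : i = x := by_contra fun e => hx (one_apply_ne e)
        rfl)
      ((hF4 q).vac.sub sp_one_vac)
  choose K hK1 hK2 hK3 using hK
  have hM : ∀ q q' : Q, ∃ M : Matrix ι ι ℂ, F q * F q' - F (q * q') = g.d * M + M * g.d ∧
      (∀ i x, M i x ≠ 0 → g.deg i = g.deg x + 1) ∧
      Sp a g P (q.out * q'.out) (86 / 100 - 1 / 100) (r + s + (2 * η + n * (2 * η + e))) a' M :=
    fun q q' =>
    exists_K N hu he0.le g.deg g.deg_le g.d g.dd g.d_supp (by norm_num) (by positivity)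
      (rc := (3 * n + 2) * A + (3 * n + 2) * A) (by nlinarith)
      (by rw [Matrix.mul_sub, Matrix.sub_mul, hF1, ← Matrix.mul_assoc, hF1, Matrix.mul_assoc, hF1,
        Matrix.mul_assoc])
      (by rw [vecMul_sub, ← vecMul_vecMul, hF2, hF2, hF2, sub_self])
      (deg_sub (deg_mul (hF3 q) (hF3 q')) (hF3 _))
      (((hF4 q).mul ((hF4 q').mono (t' := 86 / 100) (by norm_num) le_rfl le_rfl) hur hr0
        (by linarith) (by norm_num)).sub
        ((hcos (by simp) (hF4 (q * q')) (by linarith)).mono (by norm_num) (by linarith)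
          (Nat.le_add_right _ _)))
  choose M hM1 hM2 hM3 using hM
  have hanti : g.d * g.S = g.S * (-g.dᴴ) := by
    rw [Matrix.mul_neg]; exact eq_neg_of_add_eq_zero_left g.anti
  have hdegS : ∀ i x, g.S i x ≠ 0 → g.deg i = n - g.deg x := fun i x hx => by
    have := (g.S_supp i x hx).1
    omega
  have hL : ∀ q : Q, ∃ L : Matrix ι ι ℂ, F q * g.S - g.S * (F q⁻¹)ᴴ = g.d * L + L * (-g.dᴴ) ∧
      (∀ i x, L i x ≠ 0 → g.deg i = n - g.deg x + 1) ∧
      Sp a g P q.out (86 / 100 - 1 / 100) (r + s + η + (2 * η + n * (2 * η + e))) a' L := by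
    intro q
    refine exists_K N hu he0.le (fun x => n - g.deg x) (fun x => Nat.sub_le _ _) (-g.dᴴ)
      (by rw [neg_mul_neg, ← conjTranspose_mul, g.dd, conjTranspose_zero])
      (fun x' x hx => ?_) (by norm_num) (by positivity)
      (rc := (3 * n + 2) * A + 1) (by nlinarith) ?_ ?_
      (deg_sub (deg_mul (hF3 q) hdegS) (deg_mul hdegS fun i x hx => ?_)) (Sp.sub ?_ ?_)
    · obtain ⟨h1, h2⟩ := g.d_supp x x' fun h0 => hx (by simp [h0])
      have := g.deg_le x'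
      exact ⟨by omega, by rwa [g.dist_comm]⟩
    · have e1 : g.dᴴ * (F q⁻¹)ᴴ = (F q⁻¹)ᴴ * g.dᴴ := by
        rw [← conjTranspose_mul, ← conjTranspose_mul, hF1]
      rw [Matrix.mul_sub, Matrix.sub_mul, ← Matrix.mul_assoc, hF1, Matrix.mul_assoc, hanti,
        ← Matrix.mul_assoc g.d, hanti]
      simp only [Matrix.mul_assoc, Matrix.neg_mul, Matrix.mul_neg, e1]
    · have e1 : g.eps ᵥ* g.S = g.cS • g.mu := g.eps_S
      rw [vecMul_sub, ← vecMul_vecMul, ← vecMul_vecMul, hF2, e1, smul_vecMul,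
        mu_fixed g (hK1 _) (hK2 _), sub_self]
    · rw [hF3 q⁻¹ x i fun h0 => hx (by simp [h0])]
    · have := (hF4 q).mul ((sp_adj (a := a) (P := P) hη.le (by linarith) hdS).mono
        (t' := 86 / 100) (by norm_num) le_rfl le_rfl) huη hη.le (by linarith) (by norm_num)
      rw [mul_one] at this
      exact this.mono le_rfl (by linarith) le_rfl
    · have h1 := hcos (h := q.out⁻¹) (by simp) (hF4 q⁻¹) (by linarith)
      have h2 := h1.conjT (t' := 86 / 100) hη.le hur' (N.le (by nlinarith)) (by norm_num)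
        (by norm_num) (by linarith)
      exact (Sp.adj_mul hη.le (by linarith) hdS h2 hs0.le (by linarith)).mono le_rfl (by linarith)
        (add_comm _ _).le
  choose L hL1 hL2 hL3 using hL
  rw [← hr] at hM3 hL3
  have ha1' : 1 ≤ a' := by nlinarith
  have hadj : ∀ B : Matrix ι ι ℂ, (∀ i x, B i x ≠ 0 → g.dist (g.vtx i) (g.vtx x) ≤ 1) →
      ∃ h : H, (h : Q) = 1 ∧ Sp a g P h (85 / 100) η₁ a' B := fun B hB =>
    ⟨1, rfl, (sp_adj hη.le (by linarith) hB).mono (by norm_num) (by linarith) ha1'⟩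
  refine ops_of _ _ g.vtx g.d g.S g.S' f ?_ (fun q => ?_)
    (fun q B => ∃ h : H, (h : Q) = q ∧ Sp a g P h (85 / 100) η₁ a' B) ?_ F K L M hF1 hK1 hL1 hM1
    (hadj _ fun i x hx => (g.d_supp i x hx).2) (hadj _ hdS) (hadj _ g.S'_supp)
    (fun q => ⟨q.out, by simp, (hF4 q).mono (by norm_num) (by linarith) (by nlinarith)⟩)
    (fun q => ⟨q.out, by simp, (hL3 q).mono (by norm_num) (by linarith) le_rfl⟩)
    (fun q q' => ⟨q.out * q'.out, by simp, (hM3 q q').mono (by norm_num) (by linarith) le_rfl⟩)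
    fun q i x hx => ?_
  · obtain ⟨h, hh⟩ := G.nontriv
    exact fun e => hh (by rw [← hf, e]; rfl)
  · obtain ⟨h, rfl⟩ := QuotientGroup.mk_surjective q
    exact G.star_χ h
  · rintro q B ⟨h, rfl, hB⟩ i x hx
    obtain ⟨h1, h2⟩ := hB i x hx
    refine Submodule.subset_span ⟨by simpa [distRel] using h1, h, ?_, rfl⟩
    rw [Nat.cast_one, one_mul]
    by_cases ht : ‖P.pos (g.vtx x)‖ ≤ 85 / 100
    · exact hunif h _ _ (by linarith) (h2 ht)
    · rw [O.far h _ _ ?_ (by linarith)]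
      · exact hb.le
      · by_contra hc
        have := norm_pos_le (P := P) hη.le (by linarith) h1 ha3 (by norm_num)
        linarith
  · simpa [distRel] using (hK3 q i x hx).1

end Crest.Agent.R217
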