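import Crest.Agent.R217.Compare
import Crest.Agent.R217.GridDefs

/-! # Row 217: supports of matrices near the graph of a local action -/

set_option autoImplicit false
set_option linter.unusedSectionVars false

namespace Crest.Agent.R217.OpsA

open Matrix Topology Filter

variable {H : Type*} [CommGroup H] [TopologicalSpace H] {E : Type*} [NormedAddCommGroup E]
  {ε η : ℝ}

/-- a modulus of continuity for the action. -/
def UC (a : LAct H E ε) (θ e : ℝ) : Prop :=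
  ∀ h y y', ‖y‖ ≤ 1 → ‖y'‖ ≤ 1 → ‖y - y'‖ ≤ θ → ‖a.act h y - a.act h y'‖ ≤ e

theorem UC.mono {a : LAct H E ε} {θ θ' e : ℝ} (h : UC a θ e) (h' : θ' ≤ θ) : UC a θ' e :=
  fun g y y' h1 h2 h3 => h g y y' h1 h2 (h3.trans h')

theorem eps_nonneg (a : LAct H E ε) : 0 ≤ ε := (norm_nonneg _).trans (a.small 1 0 (by simp))

theorem norm_act_le (a : LAct H E ε) (h : H) {y : E} (hy : ‖y‖ ≤ 1) : ‖a.act h y‖ ≤ ‖y‖ + ε := by
  have h1 := a.small h y hy
  have h2 := norm_add_le (a.act h y - y) y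
  rw [sub_add_cancel] at h2
  linarith

theorem exists_UC [CompactSpace H] [ProperSpace E] (a : LAct H E ε) {e : ℝ} (he : 0 < e) :
    ∃ θ > 0, UC a θ e := by
  have hc : Continuous fun p : Metric.closedBall (0 : E) 1 × H => a.act p.2 p.1 :=
    a.cont.comp_continuous (f := fun p : Metric.closedBall (0 : E) 1 × H => (p.2, (p.1 : E)))
      (by fun_prop) fun p => ⟨trivial, p.1.2⟩
  let Φ : C(Metric.closedBall (0 : E) 1, C(H, E)) := ContinuousMap.curry ⟨_, hc⟩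
  obtain ⟨θ, hθ, h⟩ := Metric.uniformContinuous_iff.1
    (CompactSpace.uniformContinuous_of_continuous Φ.continuous) e he
  refine ⟨θ / 2, by positivity, fun g y y' h1 h2 h3 => ?_⟩
  have := h (a := ⟨y, mem_closedBall_zero_iff.2 h1⟩) (b := ⟨y', mem_closedBall_zero_iff.2 h2⟩)
    (by rw [Subtype.dist_eq, dist_eq_norm]; exact lt_of_le_of_lt h3 (by linarith))
  have h4 := (ContinuousMap.dist_apply_le_dist g).trans this.le
  rwa [dist_eq_norm] at h4

theorem exists_nhds [ProperSpace E] (a : LAct H E ε) {e : ℝ} (he : 0 < e) :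
    {h : H | ∀ y, ‖y‖ ≤ 1 → ‖a.act h y - y‖ ≤ e} ∈ 𝓝 (1 : H) := by
  have hc : Continuous fun p : H × Metric.closedBall (0 : E) 1 => a.act p.1 p.2 :=
    a.cont.comp_continuous (f := fun p : H × Metric.closedBall (0 : E) 1 => (p.1, (p.2 : E)))
      (by fun_prop) fun p => ⟨trivial, p.2.2⟩
  let Φ : C(H, C(Metric.closedBall (0 : E) 1, E)) := ContinuousMap.curry ⟨_, hc⟩
  filter_upwards [Φ.continuous.continuousAt.eventually (Metric.ball_mem_nhds (Φ 1) he)]
    with h hh y hy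
  have h4 := (ContinuousMap.dist_apply_le_dist ⟨y, mem_closedBall_zero_iff.2 hy⟩).trans
    (Metric.mem_ball.1 hh).le
  rw [dist_eq_norm] at h4
  have h5 : ‖a.act h y - a.act 1 y‖ ≤ e := h4
  rwa [a.one y hy] at h5

variable {ι V : Type} [Fintype ι] [DecidableEq ι] {n ρmax : ℕ}

section Defs

variable (a : LAct H E ε) (g : Grid ι V n ρmax) (P : Pos V E g.dist η)

/-- `y` is coarsely near `x`, and finely near `h • x` if `x` is deep in the ball. -/
def Nr (h : H) (t rf : ℝ) (rc : ℕ) (y x : V) : Prop :=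
  g.dist y x ≤ rc ∧ (‖P.pos x‖ ≤ t → ‖P.pos y - a.act h (P.pos x)‖ ≤ rf)

/-- matrices supported near the graph of `h`. -/
def Sp (h : H) (t rf : ℝ) (rc : ℕ) (F : Matrix ι ι ℂ) : Prop :=
  ∀ i x, F i x ≠ 0 → Nr a g P h t rf rc (g.vtx i) (g.vtx x)

end Defs

variable {a : LAct H E ε} {g : Grid ι V n ρmax} {P : Pos V E g.dist η}
  {h h' : H} {t t' rf rf' : ℝ} {rc rc' : ℕ} {F F' : Matrix ι ι ℂ}

theorem Sp.mono (hF : Sp a g P h t rf rc F) (h1 : t' ≤ t) (h2 : rf ≤ rf') (h3 : rc ≤ rc') :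
    Sp a g P h t' rf' rc' F := fun i x hx =>
  ⟨(hF i x hx).1.trans h3, fun ht => ((hF i x hx).2 (ht.trans h1)).trans h2⟩

theorem Sp.sub (hF : Sp a g P h t rf rc F) (hF' : Sp a g P h t rf rc F') :
    Sp a g P h t rf rc (F - F') := fun i x hx => by
  by_cases h0 : F i x = 0
  · exact hF' i x fun h1 => hx (by simp [h0, h1])
  · exact hF i x h0

theorem Sp.vac (hF : Sp a g P h t rf rc F) : Sp a g P h' (-1) 0 rc F := fun i x hx =>
  ⟨(hF i x hx).1, fun ht => absurd ht (by linarith [norm_nonneg (P.pos (g.vtx x))])⟩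

theorem sp_one_vac : Sp a g P h (-1) 0 rc (1 : Matrix ι ι ℂ) := fun i x hx => by
  obtain rfl : i = x := by_contra fun e => hx (one_apply_ne e)
  exact ⟨by simp [g.dist_self], fun ht => absurd ht (by linarith [norm_nonneg (P.pos (g.vtx i))])⟩

theorem exists_mul_ne {A B : Matrix ι ι ℂ} {i x : ι} (h : (A * B) i x ≠ 0) :
    ∃ k, A i k ≠ 0 ∧ B k x ≠ 0 := by
  rw [mul_apply] at h
  obtain ⟨k, -, hk⟩ := Finset.exists_ne_zero_of_sum_ne_zero h
  exact ⟨k, left_ne_zero_of_mul hk, right_ne_zero_of_mul hk⟩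

theorem pos_adj (hη : 0 ≤ η) (hη1 : η ≤ 1) {x y : V} (hx : ‖P.pos x‖ ≤ 1) (hd : g.dist y x ≤ 1) :
    ‖P.pos y - P.pos x‖ ≤ η := by
  have h1 : (g.dist x y : ℝ) ≤ 1 := by rw [g.dist_comm]; exact_mod_cast hd
  have h2 : (g.dist x y : ℝ) * η ≤ η := mul_le_of_le_one_left hη h1
  rw [norm_sub_rev]
  exact (P.le x y hx (h2.trans hη1)).trans h2

theorem sp_adj (hη : 0 ≤ η) (hη1 : η ≤ 1) (hF : ∀ i x, F i x ≠ 0 → g.dist (g.vtx i) (g.vtx x) ≤ 1) :
    Sp a g P 1 1 η 1 F := fun i x hx =>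
  ⟨hF i x hx, fun ht => by rw [a.one _ ht]; exact pos_adj hη hη1 ht (hF i x hx)⟩

theorem Sp.mul {e : ℝ} (hF : Sp a g P h t rf rc F) (hF' : Sp a g P h' t' rf' rc' F')
    (hu : UC a rf' e) (h0 : 0 ≤ rf') (h1 : t' + ε + rf' ≤ t) (h2 : t ≤ 1) :
    Sp a g P (h * h') t' (rf + e) (rc + rc') (F * F') := fun i x hx => by
  obtain ⟨k, h3, h4⟩ := exists_mul_ne hx
  obtain ⟨a1, a2⟩ := hF i k h3
  obtain ⟨a3, a4⟩ := hF' k x h4
  refine ⟨(g.dist_tri _ (g.vtx k) _).trans (add_le_add a1 a3), fun ht => ?_⟩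
  have hε := eps_nonneg a
  have b1 := a4 ht
  have b0 : ‖P.pos (g.vtx x)‖ ≤ 1 := by linarith
  have b2 := norm_act_le a h' b0
  have b3 := norm_add_le (P.pos (g.vtx k) - a.act h' (P.pos (g.vtx x))) (a.act h' (P.pos (g.vtx x)))
  rw [sub_add_cancel] at b3
  have b4 := a2 (by linarith)
  have b5 := hu h _ _ (by linarith) (by linarith) b1
  rw [a.mul _ _ _ b0 (by linarith)] at b5
  exact (norm_sub_le_norm_sub_add_norm_sub _ _ _).trans (add_le_add b4 b5)

theorem Sp.adj_mul (hη : 0 ≤ η) (hη1 : η ≤ 1)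
    (hF : ∀ i x, F i x ≠ 0 → g.dist (g.vtx i) (g.vtx x) ≤ 1) (hF' : Sp a g P h t rf rc F')
    (h0 : 0 ≤ rf) (h1 : t + ε + rf ≤ 1) : Sp a g P h t (η + rf) (1 + rc) (F * F') := fun i x hx => by
  obtain ⟨k, h3, h4⟩ := exists_mul_ne hx
  obtain ⟨a3, a4⟩ := hF' k x h4
  refine ⟨(g.dist_tri _ (g.vtx k) _).trans (add_le_add (hF i k h3) a3), fun ht => ?_⟩
  have hε := eps_nonneg a
  have b1 := a4 ht
  have b2 := norm_act_le a h (y := P.pos (g.vtx x)) (by linarith)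
  have b3 := norm_add_le (P.pos (g.vtx k) - a.act h (P.pos (g.vtx x))) (a.act h (P.pos (g.vtx x)))
  rw [sub_add_cancel] at b3
  exact (norm_sub_le_norm_sub_add_norm_sub _ _ _).trans
    (add_le_add (pos_adj hη hη1 (by linarith) (hF i k h3)) b1)

theorem norm_pos_le (hη : 0 ≤ η) {x y : V} {c : ℝ} (hx : ‖P.pos x‖ ≤ 1) (hd : g.dist x y ≤ rc)
    (hc : rc * η ≤ c) (hc1 : c ≤ 1) : ‖P.pos y‖ ≤ ‖P.pos x‖ + c := by
  have h1 : (g.dist x y : ℝ) * η ≤ rc * η :=
    mul_le_mul_of_nonneg_right (by exact_mod_cast hd) hη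
  have h2 := P.le x y hx (by linarith)
  have h3 := norm_sub_norm_le (P.pos y) (P.pos x)
  rw [norm_sub_rev] at h3
  linarith

theorem Sp.conjT {e c : ℝ} (hη : 0 ≤ η) (hF : Sp a g P h⁻¹ t rf rc F) (hu : UC a rf e)
    (hc : rc * η ≤ c) (hc1 : c ≤ 1) (h1 : t' + c ≤ t) (h2 : t + ε ≤ 1) :
    Sp a g P h t' e rc Fᴴ := fun i x hx => by
  obtain ⟨a1, a2⟩ := hF x i fun h0 => hx (by simp [h0])
  refine ⟨by rwa [g.dist_comm], fun ht => ?_⟩
  have hε := eps_nonneg a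
  have hc0 : 0 ≤ c := (mul_nonneg (Nat.cast_nonneg _) hη).trans hc
  have b1 := norm_pos_le (P := P) hη (by linarith) a1 hc hc1
  have b2 := norm_act_le a h⁻¹ (y := P.pos (g.vtx i)) (by linarith)
  have b3 := hu h _ _ (by linarith) (by linarith) (a2 (by linarith))
  rwa [a.mul _ _ _ (by linarith) (by linarith), mul_inv_cancel, a.one _ (by linarith),
    norm_sub_rev] at b3

theorem Sp.coset {k : H} {e : ℝ} (hF : Sp a g P (k * h) t rf rc F)
    (hk : ∀ y, ‖y‖ ≤ 1 → ‖a.act k y - y‖ ≤ e) (h2 : t + ε ≤ 1) :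
    Sp a g P h t (rf + e) rc F := fun i x hx => by
  refine ⟨(hF i x hx).1, fun ht => ?_⟩
  have hε := eps_nonneg a
  have b2 := norm_act_le a h (y := P.pos (g.vtx x)) (by linarith)
  have b3 := hk (a.act h (P.pos (g.vtx x))) (by linarith)
  rw [a.mul _ _ _ (by linarith) (by linarith)] at b3
  exact (norm_sub_le_norm_sub_add_norm_sub _ _ _).trans (add_le_add ((hF i x hx).2 ht) b3)

/-- the numerical assumptions. -/
structure Num (ε η : ℝ) (n ρmax A a' : ℕ) : Prop where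
  hη : 0 < η
  hε : ε ≤ 1 / 100
  hA : ∀ m : ℕ, m * η ≤ ε + η → m ≤ A
  hA1 : 1 ≤ A
  ha : 20 * (n + 1) * A ≤ a'
  hρ : a' ≤ ρmax
  ha' : a' * η ≤ 1 / 100

variable {A a' : ℕ}

theorem Num.le (N : Num ε η n ρmax A a') {m : ℕ} (hm : m ≤ a') : m * η ≤ 1 / 100 :=
  (mul_le_mul_of_nonneg_right (by exact_mod_cast hm) N.hη.le).trans N.ha'

theorem Num.eta (N : Num ε η n ρmax A a') : η ≤ 1 / 100 := by
  have := N.le (m := 1) (by have := N.ha; have := N.hA1; nlinarith)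
  simpa using this

theorem Num.neta (N : Num ε η n ρmax A a') : n * η ≤ 1 / 100 :=
  N.le (by have := N.ha; have := N.hA1; nlinarith)

theorem exists_centre (N : Num ε η n ρmax A a') (h : H) : ∃ c : V → V,
    (∀ y, g.dist (c y) y ≤ A) ∧ ∀ y, ‖P.pos y‖ ≤ 9 / 10 → ‖P.pos (c y) - a.act h (P.pos y)‖ ≤ η := by
  have key : ∀ y : V, ∃ z : V, g.dist z y ≤ A ∧
      (‖P.pos y‖ ≤ 9 / 10 → ‖P.pos z - a.act h (P.pos y)‖ ≤ η) := by
    intro y
    by_cases hy : ‖P.pos y‖ ≤ 9 / 10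
    · have h1 := norm_act_le a h (y := P.pos y) (by linarith)
      obtain ⟨z, hz⟩ := P.round (a.act h (P.pos y)) (by linarith [N.hε])
      refine ⟨z, N.hA _ ((P.ge z y).trans ?_), fun _ => hz⟩
      have h2 := a.small h (P.pos y) (by linarith)
      exact (norm_sub_le_norm_sub_add_norm_sub _ _ _).trans (by linarith)
    · exact ⟨y, by simp [g.dist_self], fun h' => absurd h' hy⟩
  choose c h1 h2 using key
  exact ⟨c, h1, h2⟩

/-- centres and radii for the acyclic model lemmas. -/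
theorem exists_radii (N : Num ε η n ρmax A a') {e : ℝ} (hu : UC a η e) (he : 0 ≤ e) (h : H)
    (deg' : ι → ℕ) (hdeg : ∀ x, deg' x ≤ n) (dκ : Matrix ι ι ℂ)
    (hd : ∀ x' x, dκ x' x ≠ 0 → deg' x = deg' x' + 1 ∧ g.dist (g.vtx x') (g.vtx x) ≤ 1)
    (ht : t ≤ 9 / 10) (hrf : 0 ≤ rf) (hrc : rc + (3 * n + 2) * A ≤ a') :
    ∃ (c : ι → V) (R : ι → ℕ), (∀ x, R x ≤ ρmax) ∧
      (∀ x' x, dκ x' x ≠ 0 → R x' + g.dist (c x') (c x) ≤ R x) ∧
      (∀ y x, Nr a g P h t rf rc y (g.vtx x) → g.dist y (c x) ≤ R x) ∧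
      ∀ y x, g.dist y (c x) ≤ R x → Nr a g P h (t - n * η) (rf + (2 * η + n * (2 * η + e)))
        (rc + (3 * n + 2) * A) y (g.vtx x) := by
  classical
  obtain ⟨c, hc1, hc2⟩ := exists_centre (a := a) (P := P) N h
  have hη := N.hη
  have hη1 := N.eta
  have hε := N.hε
  have fl : ∀ (m : ℕ) (s : ℝ), m * η ≤ s → m ≤ ⌊s / η⌋₊ := fun m s hm =>
    Nat.le_floor ((le_div_iff₀ hη).2 hm)
  have fl' : ∀ s : ℝ, 0 ≤ s → (⌊s / η⌋₊ : ℝ) * η ≤ s := fun s hs =>
    (le_div_iff₀ hη).1 (Nat.floor_le (by positivity))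
  obtain ⟨Jf, hJ1, hJ2⟩ : ∃ Jf : ℕ, (∀ m : ℕ, m * η ≤ 2 * η + e → m ≤ Jf) ∧ Jf * η ≤ 2 * η + e :=
    ⟨_, fun m hm => fl m _ hm, fl' _ (by positivity)⟩
  obtain ⟨Rf, hR1, hR2⟩ : ∃ Rf : ℕ, (∀ m : ℕ, m * η ≤ rf + η → m ≤ Rf) ∧ Rf * η ≤ rf + η :=
    ⟨_, fun m hm => fl m _ hm, fl' _ (by positivity)⟩
  let deep : ι → Prop := fun x => ‖P.pos (g.vtx x)‖ + deg' x * η ≤ t
  have deep1 : ∀ x, deep x → ‖P.pos (g.vtx x)‖ ≤ t := fun x hx =>
    le_trans (le_add_of_nonneg_right (by positivity)) hx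
  let R : ι → ℕ := fun x => if deep x then min (Rf + deg' x * Jf) (rc + A + deg' x * (3 * A))
    else rc + A + deg' x * (3 * A)
  have R1 : ∀ x, R x ≤ rc + A + deg' x * (3 * A) := fun x => by
    simp only [R]; split_ifs
    · exact min_le_right _ _
    · exact le_rfl
  have R2 : ∀ x, deep x → R x ≤ Rf + deg' x * Jf := fun x hx => by
    simp only [R, if_pos hx]; exact min_le_left _ _
  have R3 : ∀ x m, m ≤ rc + A + deg' x * (3 * A) → (deep x → m ≤ Rf + deg' x * Jf) → m ≤ R x :=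
    fun x m h1 h2 => by
      simp only [R]; split_ifs with hx
      · exact le_min (h2 hx) h1
      · exact h1
  have R4 : ∀ x, R x + A ≤ rc + (3 * n + 2) * A := fun x => by
    have h1 := R1 x
    have h2 := Nat.mul_le_mul_right (3 * A) (hdeg x)
    nlinarith
  refine ⟨fun x => c (g.vtx x), R, fun x => by have := R4 x; have := N.hρ; omega,
    fun x' x hx => ?_, fun y x hy => ?_, fun y x hy => ⟨?_, fun hx => ?_⟩⟩
  · obtain ⟨e1, e2⟩ := hd x' x hx
    beta_reduce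
    refine R3 x _ ?_ fun hdx => ?_
    · have b1 := g.dist_tri (c (g.vtx x')) (g.vtx x') (c (g.vtx x))
      have b2 := g.dist_tri (g.vtx x') (g.vtx x) (c (g.vtx x))
      have b3 := hc1 (g.vtx x')
      have b4 := hc1 (g.vtx x)
      rw [g.dist_comm] at b4
      have b5 := R1 x'
      have b6 := N.hA1
      rw [e1, add_mul]
      omega
    · have b0 := deep1 x hdx
      have b1 : ‖P.pos (g.vtx x') - P.pos (g.vtx x)‖ ≤ η := pos_adj hη.le (by linarith) (by linarith) e2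
      have b2 := norm_sub_norm_le (P.pos (g.vtx x')) (P.pos (g.vtx x))
      have hdx' : deep x' := by
        have : ‖P.pos (g.vtx x)‖ + deg' x * η ≤ t := hdx
        rw [e1] at this
        push_cast at this
        change ‖P.pos (g.vtx x')‖ + deg' x' * η ≤ t
        linarith
      have b0' := deep1 x' hdx'
      have b3 := hu h _ _ (by linarith) (by linarith) b1
      have b4 := hc2 (g.vtx x') (by linarith)
      have b5 := hc2 (g.vtx x) (by linarith)
      rw [norm_sub_rev] at b5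
      have b6 := norm_sub_le_norm_sub_add_norm_sub (P.pos (c (g.vtx x')))
        (a.act h (P.pos (g.vtx x'))) (P.pos (c (g.vtx x)))
      have b7 := norm_sub_le_norm_sub_add_norm_sub (a.act h (P.pos (g.vtx x')))
        (a.act h (P.pos (g.vtx x))) (P.pos (c (g.vtx x)))
      have b8 := hJ1 _ ((P.ge (c (g.vtx x')) (c (g.vtx x))).trans (by linarith))
      have b9 := R2 x' hdx'
      rw [e1, add_mul]
      omega
  · beta_reduce
    refine R3 x _ ?_ fun hdx => ?_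
    · have b1 := g.dist_tri y (g.vtx x) (c (g.vtx x))
      have b4 := hc1 (g.vtx x)
      rw [g.dist_comm] at b4
      have := hy.1
      omega
    · have b0 := deep1 x hdx
      have b5 := hc2 (g.vtx x) (by linarith)
      rw [norm_sub_rev] at b5
      have b6 := norm_sub_le_norm_sub_add_norm_sub (P.pos y)
        (a.act h (P.pos (g.vtx x))) (P.pos (c (g.vtx x)))
      have b8 := hR1 _ ((P.ge y (c (g.vtx x))).trans (by linarith [hy.2 b0]))
      omega
  · have b1 := g.dist_tri y (c (g.vtx x)) (g.vtx x)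
    have b2 := hc1 (g.vtx x)
    have b3 := R4 x
    beta_reduce at hy
    omega
  · have hn : (deg' x : ℝ) ≤ n := by exact_mod_cast hdeg x
    have hdx : deep x := by
      change ‖P.pos (g.vtx x)‖ + deg' x * η ≤ t
      nlinarith
    have b0 := deep1 x hdx
    have b1 := hc2 (g.vtx x) (by linarith)
    have b2 := norm_act_le a h (y := P.pos (g.vtx x)) (by linarith)
    have b3 := norm_sub_norm_le (P.pos (c (g.vtx x))) (a.act h (P.pos (g.vtx x)))
    have b4 : g.dist (c (g.vtx x)) y ≤ R x := by rwa [g.dist_comm]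
    have b5 := P.le (c (g.vtx x)) y (by linarith)
      ((N.le (by have := R4 x; omega)).trans (by norm_num))
    rw [norm_sub_rev] at b5
    have b6 : (g.dist (c (g.vtx x)) y : ℝ) ≤ Rf + deg' x * Jf := by
      exact_mod_cast b4.trans (R2 x hdx)
    have b7 : (g.dist (c (g.vtx x)) y : ℝ) * η ≤ rf + η + n * (2 * η + e) := by
      have c1 := mul_le_mul_of_nonneg_right b6 hη.le
      have c2 : (deg' x : ℝ) * (Jf * η) ≤ n * (2 * η + e) :=
        mul_le_mul hn hJ2 (by positivity) (by positivity)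
      nlinarith
    exact (norm_sub_le_norm_sub_add_norm_sub _ (P.pos (c (g.vtx x))) _).trans (by linarith)

theorem exists_F (N : Num ε η n ρmax A a') {e : ℝ} (hu : UC a η e) (he : 0 ≤ e) (h : H) :
    ∃ F : Matrix ι ι ℂ, g.d * F = F * g.d ∧ g.eps ᵥ* F = g.eps ∧
      (∀ i x, F i x ≠ 0 → g.deg i = g.deg x) ∧
      Sp a g P h (89 / 100) (2 * η + n * (2 * η + e)) ((3 * n + 2) * A) F := by
  obtain ⟨c, R, h1, h2, -, h4⟩ := exists_radii (P := P) (t := 9 / 10) (rf := 0) (rc := 0) N hu he h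
    g.deg g.deg_le g.d g.d_supp le_rfl le_rfl (by have := N.ha; nlinarith)
  obtain ⟨F, f1, f2, f3⟩ := g.exists_map g.deg g.d g.dd (fun x' x hx => (g.d_supp x' x hx).1) c R
    h1 h2 g.eps g.eps_d fun x hx => by
      by_contra h0
      exact hx (if_neg h0)
  refine ⟨F, f1, f2, fun i x hx => (f3 i x hx).1, Sp.mono (fun i x hx => h4 _ x (f3 i x hx).2) ?_
    (zero_add _).le (zero_add _).le⟩
  linarith [N.neta]

theorem exists_K (N : Num ε η n ρmax A a') {e : ℝ} (hu : UC a η e) (he : 0 ≤ e)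
    (deg' : ι → ℕ) (hdeg : ∀ x, deg' x ≤ n) (dκ : Matrix ι ι ℂ) (hdd : dκ * dκ = 0)
    (hd : ∀ x' x, dκ x' x ≠ 0 → deg' x = deg' x' + 1 ∧ g.dist (g.vtx x') (g.vtx x) ≤ 1)
    (ht : t ≤ 9 / 10) (hrf : 0 ≤ rf) (hrc : rc + (3 * n + 2) * A ≤ a')
    (hF : g.d * F = F * dκ) (hε : g.eps ᵥ* F = 0) (hdF : ∀ i x, F i x ≠ 0 → g.deg i = deg' x)
    (hs : Sp a g P h t rf rc F) :
    ∃ K : Matrix ι ι ℂ, F = g.d * K + K * dκ ∧ (∀ i x, K i x ≠ 0 → g.deg i = deg' x + 1) ∧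
      Sp a g P h (t - 1 / 100) (rf + (2 * η + n * (2 * η + e))) a' K := by
  obtain ⟨c, R, h1, h2, h3, h4⟩ := exists_radii (P := P) N hu he h deg' hdeg dκ hd ht hrf hrc
  obtain ⟨K, f1, f3⟩ := g.exists_htpy deg' dκ hdd (fun x' x hx => (hd x' x hx).1) c R
    h1 h2 F hF hε fun i x hx => ⟨hdF i x hx, h3 _ x (hs i x hx)⟩
  refine ⟨K, f1, fun i x hx => (f3 i x hx).1, Sp.mono (fun i x hx => h4 _ x (f3 i x hx).2) ?_
    le_rfl hrc⟩
  linarith [N.neta]

end Crest.Agent.R217.OpsA
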