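import Crest.Agent.R217.CoreDefs

/-! # Row 217: the orbit data of a local action that does not fix `0` -/

set_option autoImplicit false

namespace Crest.Agent.R217

open Topology Filter Set

namespace OrbitAux

/-- the cut-off: identity on `‖y‖ ≤ 7/10`, zero on `‖y‖ ≥ 3/4` -/
noncomputable def cut {E : Type*} [NormedAddCommGroup E] [NormedSpace ℝ E] (y : E) : E :=
  max 0 (min 1 ((3 / 4 - ‖y‖) * 20)) • y

section Cut
variable {E : Type*} [NormedAddCommGroup E] [NormedSpace ℝ E]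

theorem continuous_cut : Continuous (cut : E → E) := by
  unfold cut; fun_prop

theorem cut_of_le {y : E} (h : ‖y‖ ≤ 7 / 10) : cut y = y := by
  rw [cut, min_eq_left (by linarith), max_eq_right zero_le_one, one_smul]

theorem cut_of_ge {y : E} (h : 3 / 4 ≤ ‖y‖) : cut y = 0 := by
  rw [cut, max_eq_left ((min_le_right _ _).trans (by linarith)), zero_smul]

theorem norm_cut_le (y : E) : ‖cut y‖ ≤ 1 := by
  rcases le_total (3 / 4) ‖y‖ with h | h
  · rw [cut_of_ge h, norm_zero]; exact zero_le_one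
  · rw [cut, norm_smul, Real.norm_of_nonneg (le_max_left _ _)]
    exact mul_le_one₀ (max_le zero_le_one (min_le_left _ _)) (norm_nonneg _) (by linarith)

end Cut

theorem abs_iSup_sub_le {H : Type*} [Group H] {f g : H → ℝ} (hf : BddAbove (range f))
    (hg : BddAbove (range g)) (h : H) {c : ℝ} (hc : ∀ h', |f h' - g (h' * h)| ≤ c) :
    |(⨆ h', f h') - ⨆ h', g h'| ≤ c := by
  have h1 : ⨆ h', f h' ≤ (⨆ h', g h') + c := ciSup_le fun h' => by
    have := le_ciSup hg (h' * h)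
    linarith [(abs_le.1 (hc h')).2]
  have h2 : ⨆ h', g h' ≤ (⨆ h', f h') + c := ciSup_le fun h' => by
    have h3 := le_ciSup hf (h' * h⁻¹)
    have h4 := (abs_le.1 (hc (h' * h⁻¹))).1
    rw [inv_mul_cancel_right] at h4
    linarith
  exact abs_le.2 ⟨by linarith, by linarith⟩

theorem abs_iSup_sub_const_le {H : Type*} [Group H] {f : H → ℝ} {t c : ℝ}
    (hc : ∀ h, |f h - t| ≤ c) : |(⨆ h, f h) - t| ≤ c := by
  have hf : BddAbove (range f) := ⟨t + c, by
    rintro _ ⟨h, rfl⟩; linarith [(abs_le.1 (hc h)).2]⟩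
  have := abs_iSup_sub_le (g := fun _ => t) hf (by simp) 1 hc
  rwa [ciSup_const] at this

variable {k : ℕ} {H : Type*} [CommGroup H] [TopologicalSpace H] {ε : ℝ}
  (a : LAct H (Fin k → ℝ × ℝ) ε)

/-- the cut-off orbit map -/
noncomputable def th (h : H) (y : Fin k → ℝ × ℝ) : Fin k → ℝ × ℝ :=
  if ‖y‖ ≤ 1 then cut (a.act h y) else 0

/-- the orbit distance -/
noncomputable def D (h : H) (x y : Fin k → ℝ × ℝ) : ℝ := ⨆ h', ‖th a h' x - th a (h' * h) y‖

/-- the invariant approximation of the identity -/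
noncomputable def ph (y : Fin k → ℝ × ℝ) : Fin k → ℝ × ℝ :=
  fun j => (⨆ h, (th a h y j).1, ⨆ h, (th a h y j).2)

theorem norm_th_le (h : H) (y : Fin k → ℝ × ℝ) : ‖th a h y‖ ≤ 1 := by
  unfold th
  split_ifs
  · exact norm_cut_le _
  · simp

theorem norm_act_le (h : H) {y : Fin k → ℝ × ℝ} (hy : ‖y‖ ≤ 1) : ‖a.act h y‖ ≤ ‖y‖ + ε := by
  have h1 := a.small h y hy
  have h2 := norm_sub_norm_le (a.act h y) y
  linarith

theorem le_norm_act (h : H) {y : Fin k → ℝ × ℝ} (hy : ‖y‖ ≤ 1) : ‖y‖ - ε ≤ ‖a.act h y‖ := by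
  have h1 := a.small h y hy
  have h2 := norm_sub_norm_le y (a.act h y)
  rw [norm_sub_rev] at h2
  linarith

theorem th_far (hε : ε ≤ 1 / 100) (h : H) {y : Fin k → ℝ × ℝ} (hy : 8 / 10 ≤ ‖y‖) :
    th a h y = 0 := by
  unfold th
  split_ifs with h1
  · exact cut_of_ge (by linarith [le_norm_act a h h1])
  · rfl

theorem th_near (hε : ε ≤ 1 / 100) (h : H) {y : Fin k → ℝ × ℝ} (hy : ‖y‖ ≤ 6 / 10) :
    th a h y = a.act h y := by
  have h1 : ‖y‖ ≤ 1 := by linarith
  rw [th, if_pos h1, cut_of_le (by linarith [norm_act_le a h h1])]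

theorem le_D (h : H) (x y : Fin k → ℝ × ℝ) (h' : H) :
    ‖th a h' x - th a (h' * h) y‖ ≤ D a h x y := by
  refine le_ciSup (f := fun h' => ‖th a h' x - th a (h' * h) y‖) ⟨2, ?_⟩ h'
  rintro _ ⟨g, rfl⟩
  have h1 := norm_sub_le (th a g x) (th a (g * h) y)
  linarith [norm_th_le a g x, norm_th_le a (g * h) y]

theorem D_le {h : H} {x y : Fin k → ℝ × ℝ} {c : ℝ}
    (hc : ∀ h', ‖th a h' x - th a (h' * h) y‖ ≤ c) : D a h x y ≤ c := ciSup_le hc

theorem D_refl (x : Fin k → ℝ × ℝ) : D a 1 x x = 0 := by simp [D]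

theorem D_symm_le (h : H) (x y : Fin k → ℝ × ℝ) : D a h⁻¹ y x ≤ D a h x y :=
  D_le a fun h' => by
    have := le_D a h x y (h' * h⁻¹)
    rwa [inv_mul_cancel_right, norm_sub_rev] at this

theorem D_symm (h : H) (x y : Fin k → ℝ × ℝ) : D a h⁻¹ y x = D a h x y :=
  le_antisymm (D_symm_le a h x y) (by simpa using D_symm_le a h⁻¹ y x)

theorem D_tri (g h : H) (x y z : Fin k → ℝ × ℝ) : D a (g * h) x z ≤ D a g x y + D a h y z :=
  D_le a fun h' => by
    have h1 := le_D a g x y h'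
    have h2 := le_D a h y z (h' * g)
    rw [mul_assoc] at h2
    exact (norm_sub_le_norm_sub_add_norm_sub _ (th a (h' * g) y) _).trans (add_le_add h1 h2)

theorem D_far (hε : ε ≤ 1 / 100) (h : H) {x y : Fin k → ℝ × ℝ} (hx : 8 / 10 ≤ ‖x‖)
    (hy : 8 / 10 ≤ ‖y‖) : D a h x y = 0 := by
  simp [D, th_far a hε _ hx, th_far a hε _ hy]

theorem abs_fst_le (v : Fin k → ℝ × ℝ) (j : Fin k) : |(v j).1| ≤ ‖v‖ :=
  (norm_fst_le (v j)).trans (norm_le_pi_norm v j)

theorem abs_snd_le (v : Fin k → ℝ × ℝ) (j : Fin k) : |(v j).2| ≤ ‖v‖ :=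
  (norm_snd_le (v j)).trans (norm_le_pi_norm v j)

theorem norm_le_of {v : Fin k → ℝ × ℝ} {c : ℝ} (hc : 0 ≤ c) (h1 : ∀ j, |(v j).1| ≤ c)
    (h2 : ∀ j, |(v j).2| ≤ c) : ‖v‖ ≤ c :=
  (pi_norm_le_iff_of_nonneg hc).2 fun j => norm_prod_le_iff.2 ⟨h1 j, h2 j⟩

theorem ph_lip (h : H) (x y : Fin k → ℝ × ℝ) : ‖ph a x - ph a y‖ ≤ D a h x y := by
  have b1 : ∀ z j, BddAbove (range fun g => (th a g z j).1) := fun z j => ⟨1, by
    rintro _ ⟨g, rfl⟩
    exact (le_abs_self _).trans ((abs_fst_le _ j).trans (norm_th_le a g z))⟩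
  have b2 : ∀ z j, BddAbove (range fun g => (th a g z j).2) := fun z j => ⟨1, by
    rintro _ ⟨g, rfl⟩
    exact (le_abs_self _).trans ((abs_snd_le _ j).trans (norm_th_le a g z))⟩
  refine norm_le_of ((norm_nonneg _).trans (le_D a h x y 1)) (fun j => ?_) (fun j => ?_)
  · exact abs_iSup_sub_le (b1 x j) (b1 y j) h fun h' =>
      (abs_fst_le (th a h' x - th a (h' * h) y) j).trans (le_D a h x y h')
  · exact abs_iSup_sub_le (b2 x j) (b2 y j) h fun h' =>
      (abs_snd_le (th a h' x - th a (h' * h) y) j).trans (le_D a h x y h')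

theorem ph_close_of (hε : ε ≤ 1 / 100) {y : Fin k → ℝ × ℝ} (hy : ‖y‖ ≤ 6 / 10) {c : ℝ}
    (hc : ∀ h, ‖a.act h y - y‖ ≤ c) : ‖ph a y - y‖ ≤ c := by
  refine norm_le_of ((norm_nonneg _).trans (hc 1)) (fun j => ?_) (fun j => ?_)
  · exact abs_iSup_sub_const_le fun h => by
      rw [th_near a hε h hy]; exact (abs_fst_le (a.act h y - y) j).trans (hc h)
  · exact abs_iSup_sub_const_le fun h => by
      rw [th_near a hε h hy]; exact (abs_snd_le (a.act h y - y) j).trans (hc h)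

theorem unif_cut [CompactSpace H] {b : ℝ} (hb : 0 < b) : ∃ η > 0, ∀ x y : Fin k → ℝ × ℝ,
    ‖x‖ ≤ 1 → ‖y‖ ≤ 1 → ‖x - y‖ < η → ∀ h, ‖cut (a.act h x) - cut (a.act h y)‖ ≤ b := by
  let F : C(Metric.closedBall (0 : Fin k → ℝ × ℝ) 1 × H, Fin k → ℝ × ℝ) :=
    ⟨fun p => cut (a.act p.2 p.1), continuous_cut.comp
      (a.cont.comp_continuous
        (f := fun p : Metric.closedBall (0 : Fin k → ℝ × ℝ) 1 × H => (p.2, (p.1 : Fin k → ℝ × ℝ)))
        (by fun_prop) fun p => ⟨mem_univ _, p.1.2⟩)⟩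
  have hu := CompactSpace.uniformContinuous_of_continuous F.curry.continuous
  obtain ⟨η, hη, h⟩ := Metric.uniformContinuous_iff.1 hu b hb
  refine ⟨η, hη, fun x y hx hy hxy g => ?_⟩
  have h1 := h (a := ⟨x, by simpa using hx⟩) (b := ⟨y, by simpa using hy⟩)
    (by rw [Subtype.dist_eq, dist_eq_norm]; exact hxy)
  have h2 := (ContinuousMap.dist_apply_le_dist g).trans h1.le
  rw [dist_eq_norm] at h2
  exact h2

theorem unif [CompactSpace H] (hε : ε ≤ 1 / 100) (b : ℝ) (hb : 0 < b) : ∃ η > 0, ∀ h x y,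
    ‖y‖ ≤ 9 / 10 → ‖x - a.act h y‖ ≤ η → D a h x y ≤ b := by
  obtain ⟨η, hη, H1⟩ := unif_cut a hb
  refine ⟨min (η / 2) (1 / 20), lt_min (half_pos hη) (by norm_num), fun h x y hy hxy => ?_⟩
  have y1 : ‖y‖ ≤ 1 := by linarith
  have h1 := norm_act_le a h y1
  have h2 := hxy.trans (min_le_left _ _)
  have h3 := hxy.trans (min_le_right _ _)
  have h4 := norm_sub_norm_le x (a.act h y)
  have x1 : ‖x‖ ≤ 1 := by linarith
  have z1 : ‖a.act h y‖ ≤ 1 := by linarith
  refine D_le a fun h' => ?_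
  rw [th, th, if_pos x1, if_pos y1, ← a.mul h' h y y1 z1]
  exact H1 x _ x1 z1 (by linarith) h'

theorem continuous_orb {y : Fin k → ℝ × ℝ} (hy : ‖y‖ ≤ 1) : Continuous fun h => a.act h y :=
  a.cont.comp_continuous (f := fun h : H => (h, y)) (by fun_prop)
    fun h => ⟨mem_univ _, by simpa using hy⟩

theorem exists_gap [CompactSpace H] (G : Good H) (hε : ε ≤ 1 / 100) {y : Fin k → ℝ × ℝ}
    (hy : ‖y‖ ≤ 6 / 10) (hn : ∃ h, a.act h y ≠ y) :
    ∃ κ > 0, ∀ h, D a h y y < 4 * κ → G.χ h = 1 := by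
  have y1 : ‖y‖ ≤ 1 := by linarith
  let St : Subgroup H :=
    { carrier := {h | a.act h y = y}
      one_mem' := a.one y y1
      mul_mem' := fun {g h} hg hh => by
        have h1 := a.mul g h y y1 (by rw [hh]; exact y1)
        rw [hh, hg] at h1
        exact h1.symm
      inv_mem' := fun {h} hh => by
        have h1 := a.mul h⁻¹ h y y1 (by rw [hh]; exact y1)
        rw [hh, inv_mul_cancel, a.one y y1] at h1
        exact h1 }
  have hc : IsClosed (St : Set H) := isClosed_eq (continuous_orb a y1) continuous_const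
  have hne : St ≠ ⊤ := fun e => by
    obtain ⟨h, hh⟩ := hn
    exact hh (show h ∈ St from e ▸ Subgroup.mem_top h)
  have hK : IsCompact {h | G.χ h = 1}ᶜ := G.ker_open.isClosed_compl.isCompact
  obtain ⟨c, hc0, hcle⟩ := hK.exists_forall_le' (f := fun h => ‖y - a.act h y‖) (a := 0)
    (continuous_const.sub (continuous_orb a y1)).norm.continuousOn fun h hh =>
      norm_pos_iff.2 (sub_ne_zero.2 fun e => hh (G.proper St hc hne h e.symm))
  refine ⟨c / 4, by positivity, fun h hh => by_contra fun hne' => ?_⟩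
  have h1 := le_D a h y y 1
  rw [one_mul, th_near a hε _ hy, th_near a hε _ hy, a.one y y1] at h1
  have h2 := hcle h hne'
  linarith

theorem exists_delta (h0 : ∃ h, a.act h 0 ≠ 0) :
    ∃ δ > 0, ∀ y : Fin k → ℝ × ℝ, ‖y‖ ≤ δ → ∃ h, a.act h y ≠ y := by
  obtain ⟨h, hh⟩ := h0
  have h1 : ContinuousOn (fun y => a.act h y - y) (Metric.closedBall 0 1) :=
    (a.cont.comp (f := fun y => (h, y)) (by fun_prop) fun y hy => ⟨mem_univ _, hy⟩).sub
      continuousOn_id
  have h2 : ContinuousAt (fun y => a.act h y - y) 0 :=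
    h1.continuousAt (Metric.closedBall_mem_nhds 0 one_pos)
  have h3 : ∀ᶠ y in 𝓝 0, a.act h y - y ≠ 0 := h2.eventually_ne (by simpa using hh)
  obtain ⟨δ, hδ, h4⟩ := Metric.nhds_basis_closedBall.eventually_iff.1 h3
  exact ⟨δ, hδ, fun y hy => ⟨h, sub_ne_zero.1 (h4 (by simpa using hy))⟩⟩

theorem norm_χ (G : Good H) (h : H) : ‖G.χ h‖ = 1 := by
  have := congrArg (fun z : ℂ => ‖z‖) (G.χ_pow h)
  simp only [norm_pow, norm_one] at this
  exact (pow_eq_one_iff_of_nonneg (norm_nonneg _) G.p_pos.ne').1 this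

end OrbitAux

open OrbitAux in
theorem exists_orbit {k : ℕ} {H : Type*} [CommGroup H] [TopologicalSpace H] [IsTopologicalGroup H]
    [CompactSpace H] (G : Good H) {ε : ℝ} (hε : ε ≤ 1 / 100) (a : LAct H (Fin k → ℝ × ℝ) ε)
    (h0 : ∃ h, a.act h 0 ≠ 0) : Nonempty (Orbit G a) := by
  classical
  obtain ⟨δ, hδ, hfix⟩ := exists_delta a h0
  have hnb : ∀ y : Fin k → ℝ × ℝ, ‖y‖ ≤ 6 / 10 → ∀ b > 0, ∃ η > 0, ∀ x, dist x y < η →
      D a 1 x y < b := fun y hy b hb => by
    obtain ⟨η, hη, h⟩ := unif a hε (b / 2) (half_pos hb)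
    refine ⟨η, hη, fun x hx => (h 1 x y (by linarith) ?_).trans_lt (half_lt_self hb)⟩
    rw [a.one y (by linarith), ← dist_eq_norm]
    exact hx.le
  have hφ : ContinuousOn (ph a) (Metric.closedBall 0 (6 / 10)) :=
    Metric.continuousOn_iff.2 fun y hy b hb => by
      obtain ⟨η, hη, h⟩ := hnb y (by simpa using hy) b hb
      exact ⟨η, hη, fun x _ hx => by
        rw [dist_eq_norm]; exact (ph_lip a 1 x y).trans_lt (h x hx)⟩
  have hK : IsCompact (Metric.closedBall 0 (6 / 10) ∩ ph a ⁻¹' Metric.closedBall 0 δ) :=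
    (isCompact_closedBall 0 (6 / 10)).of_isClosed_subset
      (hφ.preimage_isClosed_of_isClosed Metric.isClosed_closedBall Metric.isClosed_closedBall)
      inter_subset_left
  have hgap : ∀ y ∈ Metric.closedBall 0 (6 / 10) ∩ ph a ⁻¹' Metric.closedBall 0 δ,
      ∃ κ > 0, ∀ h, D a h y y < 4 * κ → G.χ h = 1 := fun y hy => by
    have y1 : ‖y‖ ≤ 6 / 10 := by simpa using hy.1
    have y2 : ‖ph a y‖ ≤ δ := by simpa using hy.2
    refine exists_gap a G hε y1 (by_contra fun hn => ?_)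
    have hn' : ∀ h, a.act h y = y := fun h => by_contra fun e => hn ⟨h, e⟩
    have h1 := ph_close_of a hε y1 (c := 0) fun h => by simp [hn' h]
    rw [norm_le_zero_iff, sub_eq_zero] at h1
    rw [h1] at y2
    exact hn (hfix y y2)
  choose! κf hκf hκ using hgap
  obtain ⟨t, ht, hcov⟩ := hK.elim_nhds_subcover (fun y => {x | D a 1 x y < κf y}) fun y hy => by
    obtain ⟨η, hη, h⟩ := hnb y (by simpa using hy.1) (κf y) (hκf y hy)
    exact mem_of_superset (Metric.ball_mem_nhds y hη) fun x hx => h x hx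
  let c : Fin t.card → Fin k → ℝ × ℝ := fun m => (t.equivFin.symm m : _)
  have hc : ∀ m, c m ∈ Metric.closedBall 0 (6 / 10) ∩ ph a ⁻¹' Metric.closedBall 0 δ :=
    fun m => ht _ (t.equivFin.symm m).2
  obtain ⟨κ, hκ1, hκ0⟩ : ∃ κ : ℝ, (∀ m, κ ∈ Ioc 0 (κf (c m))) ∧ κ ∈ Ioi 0 :=
    ((eventually_all.2 fun m => Ioc_mem_nhdsGT (hκf _ (hc m))).and self_mem_nhdsWithin).exists
  let u : Fin t.card → (Fin k → ℝ × ℝ) → ℂ := fun m x =>
    if hx : ∃ h, D a h x (c m) < 2 * κf (c m) then G.χ hx.choose else 1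
  have hu : ∀ m x h, D a h x (c m) < 2 * κf (c m) → u m x = G.χ h := fun m x h hh => by
    have hx : ∃ h, D a h x (c m) < 2 * κf (c m) := ⟨h, hh⟩
    have h1 := hx.choose_spec
    have h2 := D_tri a h⁻¹ hx.choose (c m) x (c m)
    rw [D_symm] at h2
    have h3 := hκ _ (hc m) (h⁻¹ * hx.choose) (by linarith)
    simp only [u, dif_pos hx]
    calc G.χ hx.choose = G.χ (h * (h⁻¹ * hx.choose)) := by rw [mul_inv_cancel_left]
      _ = G.χ h := by rw [map_mul, h3, mul_one]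
  exact ⟨{
    D := D a
    φ := ph a
    δ := δ
    κ := κ
    δ_pos := hδ
    κ_pos := hκ0
    Nc := t.card
    U := fun m y => D a 1 y (c m) < κf (c m)
    u := u
    D_refl := D_refl a
    D_symm := D_symm a
    D_tri := D_tri a
    φ_lip := ph_lip a
    φ_close := fun y hy => ph_close_of a hε hy fun h => a.small h y (by linarith)
    unif := unif a hε
    far := fun h x y hx hy => D_far a hε h hx hy
    u_norm := fun m x => by
      simp only [u]
      split_ifs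
      · exact norm_χ G _
      · exact norm_one
    tw := fun m h x y hy hxy => by
      have h1 := D_tri a h 1 x y (c m)
      rw [mul_one] at h1
      have h2 := (hκ1 m).2
      have h3 := hκf _ (hc m)
      rw [hu m x h (by linarith), hu m y 1 (by linarith), map_one, star_one, mul_one]
    cover := fun y hy hy' => by
      have h1 := hcov (show y ∈ _ ∩ _ from ⟨by simpa using hy, by simpa using hy'⟩)
      simp only [mem_iUnion, mem_ofPred_eq] at h1
      obtain ⟨z, hz, h2⟩ := h1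
      refine ⟨t.equivFin ⟨z, hz⟩, ?_⟩
      simpa only [c, Equiv.symm_apply_apply] using h2 }⟩

end Crest.Agent.R217
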