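import Crest.Agent.R217.Ctl

/-! # Row 217: the signature of hermitian matrices -/

set_option autoImplicit false

namespace Crest.Agent.R217

open Matrix

variable {ι κ : Type*} [Fintype ι] [Fintype κ]

theorem sig_neg (A : Matrix ι ι ℂ) : sig (-A) = -sig A := by
  simp [sig]

section Aux

theorem posDim_bdd (A : Matrix ι ι ℂ) :
    BddAbove {k | ∃ U : Submodule ℂ (ι → ℂ), Module.finrank ℂ U = k ∧
      ∀ v ∈ U, v ≠ 0 → 0 < (star v ⬝ᵥ A *ᵥ v).re} :=
  ⟨Module.finrank ℂ (ι → ℂ), by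
    rintro k ⟨U, rfl, -⟩
    exact Submodule.finrank_le U⟩

theorem le_posDim (A : Matrix ι ι ℂ) (U : Submodule ℂ (ι → ℂ))
    (hU : ∀ v ∈ U, v ≠ 0 → 0 < (star v ⬝ᵥ A *ᵥ v).re) : Module.finrank ℂ U ≤ posDim A :=
  le_csSup (posDim_bdd A) ⟨U, rfl, hU⟩

theorem exists_posDim (A : Matrix ι ι ℂ) : ∃ U : Submodule ℂ (ι → ℂ),
    Module.finrank ℂ U = posDim A ∧ ∀ v ∈ U, v ≠ 0 → 0 < (star v ⬝ᵥ A *ᵥ v).re := by
  have hne : {k | ∃ U : Submodule ℂ (ι → ℂ), Module.finrank ℂ U = k ∧
      ∀ v ∈ U, v ≠ 0 → 0 < (star v ⬝ᵥ A *ᵥ v).re}.Nonempty :=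
    ⟨0, ⊥, by simp, fun v hv h0 => (h0 (by simpa using hv)).elim⟩
  exact Nat.sSup_mem hne (posDim_bdd A)

theorem posDim_le_of_inj (A : Matrix ι ι ℂ) (B : Matrix κ κ ℂ) (f : (κ → ℂ) →ₗ[ℂ] (ι → ℂ))
    (hf : Function.Injective f) (h : ∀ v, star v ⬝ᵥ B *ᵥ v = star (f v) ⬝ᵥ A *ᵥ f v) :
    posDim B ≤ posDim A := by
  obtain ⟨U, hU, hpos⟩ := exists_posDim B
  rw [← hU, (Submodule.equivMapOfInjective f hf U).finrank_eq]
  refine le_posDim A _ ?_
  rintro _ ⟨v, hv, rfl⟩ h0
  rw [← h]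
  exact hpos v hv (by rintro rfl; exact h0 (map_zero f))

theorem form_congr (A : Matrix ι ι ℂ) (T : Matrix ι κ ℂ) (v : κ → ℂ) :
    star v ⬝ᵥ (Tᴴ * A * T) *ᵥ v = star (T *ᵥ v) ⬝ᵥ A *ᵥ (T *ᵥ v) := by
  rw [star_mulVec, ← dotProduct_mulVec, mulVec_mulVec, mulVec_mulVec]

theorem posDim_congr_le [DecidableEq κ] (A : Matrix ι ι ℂ) (T : Matrix ι κ ℂ)
    (T' : Matrix κ ι ℂ) (h' : T' * T = 1) : posDim (Tᴴ * A * T) ≤ posDim A := by
  refine posDim_le_of_inj A _ T.mulVecLin ?_ (fun v => form_congr A T v)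
  intro v w hvw
  have : T' *ᵥ (T *ᵥ v) = T' *ᵥ (T *ᵥ w) := congrArg (fun x => T' *ᵥ x) hvw
  simpa [mulVec_mulVec, h'] using this

theorem posDim_congr [DecidableEq ι] [DecidableEq κ] (A : Matrix ι ι ℂ) (T : Matrix ι κ ℂ)
    (T' : Matrix κ ι ℂ) (h : T * T' = 1) (h' : T' * T = 1) :
    posDim (Tᴴ * A * T) = posDim A := by
  refine le_antisymm (posDim_congr_le A T T' h') ?_
  have e : A = T'ᴴ * (Tᴴ * A * T) * T' := by
    have : T'ᴴ * (Tᴴ * A * T) * T' = (T * T')ᴴ * A * (T * T') := by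
      simp only [conjTranspose_mul, Matrix.mul_assoc]
    rw [this, h]; simp
  conv_lhs => rw [e]
  exact posDim_congr_le _ T' T h

theorem form_diagonal [DecidableEq ι] (v : ι → ℝ) (w : ι → ℂ) :
    (star w ⬝ᵥ (diagonal fun i => (v i : ℂ)) *ᵥ w).re = ∑ i, v i * Complex.normSq (w i) := by
  simp only [dotProduct, mulVec_diagonal, Pi.star_apply, Complex.re_sum]
  refine Finset.sum_congr rfl fun i _ => ?_
  have : star (w i) * ((v i : ℂ) * w i) = ((v i * Complex.normSq (w i) : ℝ) : ℂ) := by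
    rw [Complex.star_def]
    push_cast
    rw [Complex.normSq_eq_conj_mul_self]; ring
  rw [this, Complex.ofReal_re]

theorem posDim_diagonal [DecidableEq ι] (v : ι → ℝ) :
    posDim (diagonal fun i => (v i : ℂ)) = (Finset.univ.filter fun i => 0 < v i).card := by
  classical
  refine le_antisymm ?_ ?_
  · obtain ⟨U, hU, hpos⟩ := exists_posDim (diagonal fun i => (v i : ℂ))
    rw [← hU, ← Fintype.card_subtype]
    let r : (ι → ℂ) →ₗ[ℂ] ({i // 0 < v i} → ℂ) := LinearMap.funLeft ℂ ℂ Subtype.val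
    have hinj : Function.Injective (r ∘ₗ U.subtype) := by
      rw [← LinearMap.ker_eq_bot, LinearMap.ker_eq_bot']
      rintro ⟨w, hw⟩ h0
      by_contra hne
      have hw0 : w ≠ 0 := fun h => hne (Subtype.ext h)
      have h1 := hpos w hw hw0
      rw [form_diagonal] at h1
      refine absurd h1 (not_lt.2 (Finset.sum_nonpos fun i _ => ?_))
      by_cases hi : 0 < v i
      · have : w i = 0 := congrFun h0 ⟨i, hi⟩
        simp [this]
      · exact mul_nonpos_of_nonpos_of_nonneg (not_lt.1 hi) (Complex.normSq_nonneg _)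
    simpa using LinearMap.finrank_le_finrank_of_injective hinj
  · let r : (ι → ℂ) →ₗ[ℂ] ({i // ¬ 0 < v i} → ℂ) := LinearMap.funLeft ℂ ℂ Subtype.val
    have h1 := r.finrank_range_add_finrank_ker
    have h2 : Module.finrank ℂ (LinearMap.range r) ≤ Fintype.card {i // ¬ 0 < v i} := by
      simpa using Submodule.finrank_le (LinearMap.range r)
    have h3 : Module.finrank ℂ (LinearMap.ker r) ≤ posDim (diagonal fun i => (v i : ℂ)) := by
      refine le_posDim _ _ fun w hw hw0 => ?_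
      rw [form_diagonal]
      have hz : ∀ i, ¬ 0 < v i → w i = 0 := fun i hi => congrFun (LinearMap.mem_ker.1 hw) ⟨i, hi⟩
      obtain ⟨j, hj⟩ := Function.ne_iff.1 hw0
      refine Finset.sum_pos' (fun i _ => ?_) ⟨j, Finset.mem_univ _, ?_⟩
      · by_cases hi : 0 < v i
        · exact mul_nonneg hi.le (Complex.normSq_nonneg _)
        · simp [hz i hi]
      · have hj' : 0 < v j := by_contra fun h => hj (hz j h)
        exact mul_pos hj' (Complex.normSq_pos.2 hj)
    have h4 := Fintype.card_subtype_compl (fun i => 0 < v i)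
    have h5 := Fintype.card_subtype_le (fun i => 0 < v i)
    rw [← Fintype.card_subtype]
    simp only [Module.finrank_fintype_fun_eq_card] at h1
    omega

omit [Fintype ι] in
theorem neg_diagonal_ofReal [DecidableEq ι] (v : ι → ℝ) :
    -(diagonal fun i => (v i : ℂ)) = diagonal fun i => ((-v i : ℝ) : ℂ) := by
  rw [diagonal_neg]; simp

theorem exists_diag [DecidableEq ι] {A : Matrix ι ι ℂ} (hA : A.IsHermitian) :
    ∃ (T : Matrix ι ι ℂ) (v : ι → ℝ), T * Tᴴ = 1 ∧ Tᴴ * T = 1 ∧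
      A = Tᴴ * (diagonal fun i => (v i : ℂ)) * T := by
  refine ⟨(hA.eigenvectorUnitary : Matrix ι ι ℂ)ᴴ, hA.eigenvalues, ?_, ?_, ?_⟩
  · rw [conjTranspose_conjTranspose]
    exact (Unitary.mem_iff.1 hA.eigenvectorUnitary.2).1
  · rw [conjTranspose_conjTranspose]
    exact (Unitary.mem_iff.1 hA.eigenvectorUnitary.2).2
  · rw [conjTranspose_conjTranspose]
    conv_lhs => rw [hA.spectral_theorem, Unitary.conjStarAlgAut_apply]
    rfl

theorem HI.exists_diag [DecidableEq ι] {A B : Matrix ι ι ℂ} (h : HI A B) :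
    ∃ (T : Matrix ι ι ℂ) (v : ι → ℝ), T * Tᴴ = 1 ∧ Tᴴ * T = 1 ∧ (∀ i, v i ≠ 0) ∧
      A = Tᴴ * (diagonal fun i => (v i : ℂ)) * T := by
  obtain ⟨T, v, h1, h2, h3⟩ := R217.exists_diag h.hA
  refine ⟨T, v, h1, h2, fun i hi => ?_, h3⟩
  have e : (diagonal fun i => (v i : ℂ)) * (T * B * Tᴴ) = 1 := by
    have : (diagonal fun i => (v i : ℂ)) * (T * B * Tᴴ) =
        (T * Tᴴ) * (diagonal fun i => (v i : ℂ)) * (T * B * Tᴴ) := by rw [h1, Matrix.one_mul]
    rw [this]
    have : (T * Tᴴ) * (diagonal fun i => (v i : ℂ)) * (T * B * Tᴴ) =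
        T * ((Tᴴ * (diagonal fun i => (v i : ℂ)) * T) * B) * Tᴴ := by
      simp only [Matrix.mul_assoc]
    rw [this, ← h3, h.mul, Matrix.mul_one, h1]
  have := congrFun (congrFun e i) i
  rw [diagonal_mul, hi] at this
  simp at this

theorem HI.posDim_add [DecidableEq ι] {A B : Matrix ι ι ℂ} (h : HI A B) :
    posDim A + posDim (-A) = Fintype.card ι := by
  obtain ⟨T, v, h1, h2, h0, h3⟩ := h.exists_diag
  have e : -A = Tᴴ * (diagonal fun i => ((-v i : ℝ) : ℂ)) * T := by
    rw [← neg_diagonal_ofReal, Matrix.mul_neg, Matrix.neg_mul, ← h3]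
  rw [e, posDim_congr _ T Tᴴ h1 h2]
  conv_lhs => rw [h3, posDim_congr _ T Tᴴ h1 h2]
  rw [posDim_diagonal, posDim_diagonal]
  have : (Finset.univ.filter fun i => 0 < -v i) = Finset.univ.filter fun i => ¬ 0 < v i := by
    ext i
    simp only [Finset.mem_filter, Finset.mem_univ, true_and, not_lt]
    constructor
    · intro hi; linarith
    · intro hi; have := lt_of_le_of_ne hi (h0 i); linarith
  rw [this, Finset.card_filter_add_card_filter_not]
  simp

theorem posDim_lsc {P : Type*} [TopologicalSpace P] {A : P → Matrix ι ι ℂ} (hc : Continuous A)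
    (s₀ : P) : ∀ᶠ s in nhds s₀, posDim (A s₀) ≤ posDim (A s) := by
  obtain ⟨U, hU, hpos⟩ := exists_posDim (A s₀)
  have hK : IsCompact (Metric.sphere (0 : ι → ℂ) 1 ∩ (U : Set (ι → ℂ))) :=
    (isCompact_sphere _ _).inter_right U.closed_of_finiteDimensional
  have hg : Continuous fun z : P × (ι → ℂ) => (star z.2 ⬝ᵥ A z.1 *ᵥ z.2).re := by
    refine Complex.continuous_re.comp ?_
    exact (continuous_snd.star).dotProduct
      (Continuous.matrix_mulVec (hc.comp continuous_fst) continuous_snd)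
  have hev := hK.eventually_forall_of_forall_eventually (x₀ := s₀)
    (P := fun s v => 0 < (star v ⬝ᵥ A s *ᵥ v).re) (fun v hv => by
      have h0 : v ≠ 0 := by
        rintro rfl
        simpa using hv.1
      exact hg.continuousAt.eventually (lt_mem_nhds (hpos v hv.2 h0)))
  filter_upwards [hev] with s hs
  rw [← hU]
  refine le_posDim _ _ fun v hv h0 => ?_
  have hn : 0 < ‖v‖ := norm_pos_iff.2 h0
  have h1 := hs (((‖v‖⁻¹ : ℝ) : ℂ) • v) ⟨by
    simp [norm_smul, hn.ne'], U.smul_mem _ hv⟩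
  have e : star (((‖v‖⁻¹ : ℝ) : ℂ) • v) ⬝ᵥ A s *ᵥ (((‖v‖⁻¹ : ℝ) : ℂ) • v) =
      ((‖v‖⁻¹ * ‖v‖⁻¹ : ℝ) : ℂ) * (star v ⬝ᵥ A s *ᵥ v) := by
    rw [star_smul, mulVec_smul, smul_dotProduct, dotProduct_smul, Complex.star_def,
      Complex.conj_ofReal, smul_eq_mul, smul_eq_mul]
    push_cast; ring
  rw [e, Complex.re_ofReal_mul] at h1
  exact (mul_pos_iff_of_pos_left (by positivity)).1 h1

end Aux

/-- Sylvester's law of inertia. -/
theorem sig_congr [DecidableEq ι] [DecidableEq κ] (A : Matrix ι ι ℂ) (T : Matrix ι κ ℂ)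
    (T' : Matrix κ ι ℂ) (h : T * T' = 1) (h' : T' * T = 1) : sig (Tᴴ * A * T) = sig A := by
  have e : -(Tᴴ * A * T) = Tᴴ * (-A) * T := by simp
  rw [sig, sig, e, posDim_congr A T T' h h', posDim_congr (-A) T T' h h']

theorem posDim_submatrix_le (A : Matrix ι ι ℂ) (e : κ ≃ ι) :
    posDim (A.submatrix e e) ≤ posDim A := by
  refine posDim_le_of_inj A _ (LinearMap.funLeft ℂ ℂ e.symm) ?_ fun v => ?_
  · exact LinearMap.funLeft_injective_of_surjective ℂ ℂ _ e.symm.surjective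
  · rw [submatrix_mulVec_equiv]
    simp only [dotProduct, Function.comp_apply, Pi.star_apply, LinearMap.funLeft_apply]
    rw [← e.sum_comp]
    simp only [Equiv.symm_apply_apply]
    rfl

theorem posDim_submatrix (A : Matrix ι ι ℂ) (e : κ ≃ ι) :
    posDim (A.submatrix e e) = posDim A := by
  refine le_antisymm (posDim_submatrix_le A e) ?_
  have := posDim_submatrix_le (A.submatrix e e) e.symm
  simpa using this

theorem sig_submatrix (A : Matrix ι ι ℂ) (e : κ ≃ ι) : sig (A.submatrix e e) = sig A := by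
  have : -(A.submatrix e e) = (-A).submatrix e e := rfl
  rw [sig, sig, this, posDim_submatrix, posDim_submatrix]

theorem sig_of_isEmpty [IsEmpty ι] (A : Matrix ι ι ℂ) : sig A = 0 := by
  have : -A = A := Subsingleton.elim _ _
  rw [sig, this, sub_self]

theorem sig_diagonal [DecidableEq ι] (v : ι → ℝ) :
    sig (diagonal fun i => (v i : ℂ)) = ∑ i, (SignType.sign (v i) : ℤ) := by
  rw [sig, neg_diagonal_ofReal, posDim_diagonal, posDim_diagonal, Finset.card_filter,
    Finset.card_filter]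
  push_cast
  rw [← Finset.sum_sub_distrib]
  refine Finset.sum_congr rfl fun i _ => ?_
  rcases lt_trichotomy (v i) 0 with h | h | h
  · simp [h, sign_neg h, not_lt.2 h.le]
  · simp [h]
  · simp [h, sign_pos h, not_lt.2 h.le]

theorem sig_fromBlocks {A : Matrix ι ι ℂ} {B : Matrix κ κ ℂ} (hA : A.IsHermitian)
    (hB : B.IsHermitian) : sig (fromBlocks A 0 0 B) = sig A + sig B := by
  classical
  obtain ⟨T, v, h1, h2, h3⟩ := exists_diag hA
  obtain ⟨S, w, g1, g2, g3⟩ := exists_diag hB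
  have e : fromBlocks A 0 0 B = (fromBlocks T 0 0 S)ᴴ *
      (diagonal fun i => ((Sum.elim v w i : ℝ) : ℂ)) * fromBlocks T 0 0 S := by
    have : (diagonal fun i => ((Sum.elim v w i : ℝ) : ℂ)) =
        fromBlocks (diagonal fun i => (v i : ℂ)) 0 0 (diagonal fun i => (w i : ℂ)) := by
      rw [fromBlocks_diagonal]
      congr 1
      ext (i | i) <;> rfl
    rw [this, fromBlocks_conjTranspose, fromBlocks_multiply, fromBlocks_multiply]
    simp [← h3, ← g3]
  have e1 : fromBlocks T 0 0 S * (fromBlocks T 0 0 S)ᴴ = 1 := by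
    rw [fromBlocks_conjTranspose, fromBlocks_multiply]
    simp [h1, g1]
  have e2 : (fromBlocks T 0 0 S)ᴴ * fromBlocks T 0 0 S = 1 := by
    rw [fromBlocks_conjTranspose, fromBlocks_multiply]
    simp [h2, g2]
  rw [e, sig_congr _ _ _ e1 e2, sig_diagonal, Fintype.sum_sum_type]
  conv_rhs => rw [h3, g3, sig_congr _ _ _ h1 h2, sig_congr _ _ _ g1 g2, sig_diagonal, sig_diagonal]
  rfl

theorem sig_split {A : Matrix ι ι ℂ} (hA : A.IsHermitian) (p : ι → Prop)
    (h : ∀ i j, p i → ¬ p j → A i j = 0) : sig A = sigOn p A + sigOn (fun i => ¬ p i) A := by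
  classical
  have e : A.submatrix (Equiv.sumCompl p) (Equiv.sumCompl p) =
      fromBlocks (cpr p A) 0 0 (cpr (fun i => ¬ p i) A) := by
    ext (i | i) (j | j)
    · rfl
    · exact h i j i.2 j.2
    · have := hA.apply i j
      rw [h j i j.2 i.2, star_zero] at this
      exact this.symm
    · rfl
  rw [← sig_submatrix A (Equiv.sumCompl p), e,
    sig_fromBlocks (hA.submatrix _) (hA.submatrix _), sigOn_eq, sigOn_eq]

/-- The signature is locally constant on invertible hermitian matrices. -/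
theorem sig_path [DecidableEq ι] {P : Type*} [TopologicalSpace P] [PreconnectedSpace P]
    {A : P → Matrix ι ι ℂ} (hc : Continuous A) (h : ∀ s, ∃ B, HI (A s) B) (s t : P) :
    sig (A s) = sig (A t) := by
  have hl : IsLocallyConstant fun s => sig (A s) := by
    rw [IsLocallyConstant.iff_eventually_eq]
    intro s₀
    filter_upwards [posDim_lsc hc s₀, posDim_lsc hc.neg s₀] with s h1 h2
    obtain ⟨B, hB⟩ := h s
    obtain ⟨B₀, hB₀⟩ := h s₀
    have h3 := hB.posDim_add
    have h4 := hB₀.posDim_add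
    simp only [Pi.neg_apply] at h2
    simp only [sig]
    omega
  exact hl.apply_eq_of_preconnectedSpace s t

/-- Sylvester normal form. -/
theorem HI.exists_normal_form [DecidableEq ι] {A B : Matrix ι ι ℂ} (h : HI A B) :
    ∃ (T T' : Matrix ι ι ℂ) (σ : ι → ℝ), T * T' = 1 ∧ (∀ i, σ i = 1 ∨ σ i = -1) ∧
      A = Tᴴ * diagonal (fun i => (σ i : ℂ)) * T := by
  obtain ⟨T, v, h1, h2, h0, h3⟩ := h.exists_diag
  have hs : ∀ i, Real.sqrt |v i| ≠ 0 := fun i =>
    (Real.sqrt_pos.2 (abs_pos.2 (h0 i))).ne'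
  refine ⟨diagonal (fun i => ((Real.sqrt |v i| : ℝ) : ℂ)) * T,
    Tᴴ * diagonal (fun i => (((Real.sqrt |v i|)⁻¹ : ℝ) : ℂ)),
    fun i => if 0 < v i then 1 else -1, ?_, fun i => ?_, ?_⟩
  · rw [Matrix.mul_assoc, ← Matrix.mul_assoc T, h1, Matrix.one_mul, diagonal_mul_diagonal,
      ← diagonal_one]
    congr 1
    ext i
    rw [← Complex.ofReal_mul, mul_inv_cancel₀ (hs i), Complex.ofReal_one]
  · by_cases hi : 0 < v i <;> simp [hi]
  · have e : (diagonal fun i => (v i : ℂ)) =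
        (diagonal (fun i => ((Real.sqrt |v i| : ℝ) : ℂ)))ᴴ *
          diagonal (fun i => (((if 0 < v i then 1 else -1 : ℝ)) : ℂ)) *
          diagonal (fun i => ((Real.sqrt |v i| : ℝ) : ℂ)) := by
      rw [diagonal_conjTranspose, diagonal_mul_diagonal, diagonal_mul_diagonal]
      congr 1
      ext i
      rw [Pi.star_apply, Complex.star_def, Complex.conj_ofReal, ← Complex.ofReal_mul,
        ← Complex.ofReal_mul]
      congr 1
      have hq := Real.mul_self_sqrt (abs_nonneg (v i))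
      by_cases hi : 0 < v i
      · rw [if_pos hi, mul_one, hq, abs_of_pos hi]
      · rw [if_neg hi, mul_neg_one, neg_mul, hq, abs_of_nonpos (not_lt.1 hi), neg_neg]
    rw [h3, e, conjTranspose_mul]
    simp only [Matrix.mul_assoc]

/-- A block decomposition of an invertible hermitian matrix has invertible blocks. -/
theorem HI.cpr {R : Type*} [CommRing R] [StarRing R] [DecidableEq ι] {A B : Matrix ι ι R}
    (h : HI A B) (p : ι → Prop) [DecidablePred p] (hp : ∀ i j, p i → ¬ p j → A i j = 0) :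
    HI (cpr p A) (cpr p B) := by
  refine ⟨h.hA.submatrix _, h.hB.submatrix _, ?_⟩
  ext i j
  have e := congrFun (congrFun h.mul i) j
  rw [Matrix.mul_apply, ← Fintype.sum_subtype_add_sum_subtype p] at e
  have z : ∑ k : {k // ¬ p k}, A i k * B k j = 0 :=
    Finset.sum_eq_zero fun k _ => by rw [hp i k i.2 k.2, zero_mul]
  rw [z, add_zero] at e
  rw [Matrix.mul_apply]
  refine e.trans ?_
  simp only [one_apply, Subtype.ext_iff]

end Crest.Agent.R217
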