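import Crest.Agent.R217.AlgCore
import Crest.Agent.R217.NormProd
import Crest.Agent.R217.Ops
import Crest.Agent.R217.Orbit

/-! # Row 217: Theorem S -/

set_option autoImplicit false

namespace Crest.Agent.R217

open Matrix Complex

universe u

/-- real positions of the vertices of the torus grid. -/
noncomputable def posT {k N : ℕ} (η : ℝ) (x : Vtx k N) : Fin k → ℝ × ℝ :=
  fun j => (η * (x j).1.valMinAbs, η * (x j).2.valMinAbs)

theorem norm_le_iff_coord {k : ℕ} {v : Fin k → ℝ × ℝ} {r : ℝ} (hr : 0 ≤ r) :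
    ‖v‖ ≤ r ↔ ∀ j, |(v j).1| ≤ r ∧ |(v j).2| ≤ r := by
  rw [pi_norm_le_iff_of_nonneg hr]
  refine forall_congr' fun j => ?_
  rw [Prod.norm_def, max_le_iff, Real.norm_eq_abs, Real.norm_eq_abs]

theorem abs_fst_le {k : ℕ} (v : Fin k → ℝ × ℝ) (j : Fin k) : |(v j).1| ≤ ‖v‖ :=
  ((norm_le_iff_coord (norm_nonneg v)).1 le_rfl j).1

theorem abs_snd_le {k : ℕ} (v : Fin k → ℝ × ℝ) (j : Fin k) : |(v j).2| ≤ ‖v‖ :=
  ((norm_le_iff_coord (norm_nonneg v)).1 le_rfl j).2

theorem natAbs_cast (m : ℤ) : ((m.natAbs : ℕ) : ℝ) = |(m : ℝ)| := by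
  rw [← Int.cast_abs, Int.abs_eq_natAbs, Int.cast_natCast]

theorem one_le_aux {N : ℕ} [NeZero N] {η : ℝ} (hη : 0 < η) (hN : 8 ≤ N * η) (a b : ZMod N) {D : ℕ}
    (ha : |η * (a.valMinAbs : ℝ)| ≤ 1) (hD : (a - b).valMinAbs.natAbs ≤ D) (hD1 : D * η ≤ 1) :
    |η * (a.valMinAbs : ℝ) - η * b.valMinAbs| ≤ D * η := by
  have hD' : (((a - b).valMinAbs.natAbs : ℕ) : ℝ) ≤ D := by exact_mod_cast hD
  rw [abs_mul, abs_of_pos hη, ← natAbs_cast] at ha
  have h : 2 * (a.valMinAbs.natAbs + (a - b).valMinAbs.natAbs) < N := by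
    have : ((2 * (a.valMinAbs.natAbs + (a - b).valMinAbs.natAbs) : ℕ) : ℝ) * η < N * η := by
      push_cast
      rw [natAbs_cast, natAbs_cast] at *
      nlinarith
    exact_mod_cast lt_of_mul_lt_mul_right this hη.le
  rw [valMinAbs_sub_of_lt a b h]
  push_cast
  rw [natAbs_cast] at hD'
  rw [show η * (a.valMinAbs : ℝ) - η * (a.valMinAbs - ((a - b).valMinAbs : ℝ)) =
    η * (a - b).valMinAbs by ring, abs_mul, abs_of_pos hη]
  nlinarith

theorem one_ge_aux {N : ℕ} [NeZero N] {η : ℝ} (hη : 0 < η) (a b : ZMod N) :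
    ((a - b).valMinAbs.natAbs : ℝ) * η ≤ |η * (a.valMinAbs : ℝ) - η * b.valMinAbs| := by
  have h2 : (a - b).valMinAbs.natAbs ≤ (a.valMinAbs - b.valMinAbs).natAbs :=
    ZMod.natAbs_min_of_le_div_two N (a - b).valMinAbs (a.valMinAbs - b.valMinAbs)
      (by push_cast; simp) (ZMod.natAbs_valMinAbs_le _)
  have h3 : (((a - b).valMinAbs.natAbs : ℕ) : ℝ) ≤ ((a.valMinAbs - b.valMinAbs).natAbs : ℕ) := by
    exact_mod_cast h2
  rw [natAbs_cast (a.valMinAbs - b.valMinAbs)] at h3
  rw [← mul_sub, abs_mul, abs_of_pos hη, mul_comm η]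
  push_cast at h3
  exact mul_le_mul_of_nonneg_right h3 hη.le

theorem one_round_aux {N : ℕ} [NeZero N] {η : ℝ} (hη : 0 < η) (hη1 : η ≤ 1) (hN : 8 ≤ N * η)
    (v : ℝ) (hv : |v| ≤ 2) :
    |η * (((round (v / η) : ℤ) : ZMod N).valMinAbs : ℝ) - v| ≤ η := by
  have h1 := abs_sub_round (v / η)
  have h2 : |η * (round (v / η) : ℝ) - v| ≤ η / 2 := by
    rw [show η * (round (v / η) : ℝ) - v = -(η * (v / η - round (v / η))) by field_simp; ring,
      abs_neg, abs_mul, abs_of_pos hη]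
    nlinarith
  have h3 : ((round (v / η) : ℤ) : ZMod N).valMinAbs = round (v / η) := by
    rw [ZMod.valMinAbs_spec]
    obtain ⟨h4, h5⟩ := abs_le.1 h2
    obtain ⟨h6, h7⟩ := abs_le.1 hv
    refine ⟨rfl, ?_, ?_⟩
    · have : (-(N : ℝ)) * η < ((round (v / η) : ℝ) * 2) * η := by nlinarith
      exact_mod_cast lt_of_mul_lt_mul_right this hη.le
    · have : ((round (v / η) : ℝ) * 2) * η < (N : ℝ) * η := by nlinarith
      have := lt_of_mul_lt_mul_right this hη.le
      exact_mod_cast this.le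
  rw [h3]
  linarith

/-- the torus grid of mesh `η`. -/
noncomputable def torusPos (k N : ℕ) [NeZero N] {η : ℝ} (hη : 0 < η) (hη1 : η ≤ 1)
    (hN : 8 ≤ N * η) : Pos (Vtx k N) (Fin k → ℝ × ℝ) tdist η where
  pos := posT η
  le x y hx hD := by
    rw [norm_le_iff_coord (by positivity)]
    intro j
    have hj := tdist_le_iff.1 (le_refl (tdist x y)) j
    unfold dist2 at hj
    exact ⟨one_le_aux hη hN _ _ ((abs_fst_le _ j).trans hx) ((le_max_left _ _).trans hj) hD,
      one_le_aux hη hN _ _ ((abs_snd_le _ j).trans hx) ((le_max_right _ _).trans hj) hD⟩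
  ge x y := by
    have : tdist x y ≤ ⌊‖posT η x - posT η y‖ / η⌋₊ := by
      rw [tdist_le_iff]
      intro j
      unfold dist2
      rw [max_le_iff]
      constructor
      · apply Nat.le_floor
        rw [le_div_iff₀ hη]
        exact (one_ge_aux hη _ _).trans (abs_fst_le (posT η x - posT η y) j)
      · apply Nat.le_floor
        rw [le_div_iff₀ hη]
        exact (one_ge_aux hη _ _).trans (abs_snd_le (posT η x - posT η y) j)
    have h2 : ((tdist x y : ℕ) : ℝ) ≤ ‖posT η x - posT η y‖ / η :=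
      (Nat.cast_le.2 this).trans (Nat.floor_le (by positivity))
    rwa [le_div_iff₀ hη] at h2
  round v hv := by
    refine ⟨fun j => ((round ((v j).1 / η) : ℤ), (round ((v j).2 / η) : ℤ)), ?_⟩
    rw [norm_le_iff_coord hη.le]
    intro j
    exact ⟨one_round_aux hη hη1 hN _ ((abs_fst_le v j).trans hv),
      one_round_aux hη hη1 hN _ ((abs_snd_le v j).trans hv)⟩

/-- the cover of the orbit data. -/
def Orbit.toCover {H : Type*} [CommGroup H] [TopologicalSpace H] {G : Good H}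
    {E : Type*} [NormedAddCommGroup E] {ε : ℝ} {a : LAct H E ε} (O : Orbit G a)
    {V : Type*} (ρ₀ : CRel V) (pos : V → E) (b : ℝ) (hb : 0 ≤ b) (Rmax : ℕ)
    (h : Rmax * b ≤ O.κ) : Cover (O.ctl ρ₀ pos b hb) O.Nc Rmax where
  p := G.p
  p_pos := G.p_pos
  per := fun {x y r f} hf j => by
    induction hf using Submodule.span_induction with
    | mem f hf =>
      obtain ⟨-, h, -, rfl⟩ := hf
      simp [pow_add, G.χ_pow]
    | zero => simp
    | add f g _ _ hf hg => simp [hf, hg]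
    | smul c f _ hf => simp [hf]
  sh_mem := fun {x y r f} hf => by
    induction hf using Submodule.span_induction with
    | mem f hf =>
      obtain ⟨h1, h, h2, rfl⟩ := hf
      have : (fun j => G.χ h ^ (j + 1)) = G.χ h • fun j => G.χ h ^ j := by
        ext j; simp [pow_succ']
      rw [this]
      exact Submodule.smul_mem _ _ (Submodule.subset_span ⟨h1, h, h2, rfl⟩)
    | zero => exact Submodule.zero_mem _
    | add f g _ _ hf hg => exact add_mem hf hg
    | smul c f _ hf => exact Submodule.smul_mem _ c hf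
  U m x := O.U m (pos x)
  u m x := O.u m (pos x)
  u_norm m x := O.u_norm m _
  tw := fun {m x y r f} hU hr hf j => by
    induction hf using Submodule.span_induction with
    | mem f hf =>
      obtain ⟨-, g, h2, rfl⟩ := hf
      have : O.D g (pos y) (pos x) ≤ O.κ :=
        h2.trans ((mul_le_mul_of_nonneg_right (by exact_mod_cast hr) hb).trans h)
      rw [← O.tw m g _ _ hU this]
      exact pow_succ' _ _
    | zero => simp
    | add f g _ _ hf hg => simp only [Pi.add_apply, hf, hg]; ring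
    | smul c f _ hf => simp only [Pi.smul_apply, hf, smul_eq_mul]; ring

theorem one_cases {N M R : ℕ} [NeZero N] (hN : 2 * (M + 2 * R) < N) (a : ZMod N)
    (h1 : M < a.valMinAbs.natAbs + R) (h2 : a.valMinAbs.natAbs ≤ M + R) :
    (∀ b : ZMod N, (a - b).valMinAbs.natAbs ≤ R → (M : ℤ) - 2 * R < b.valMinAbs) ∨
    (∀ b : ZMod N, (a - b).valMinAbs.natAbs ≤ R → b.valMinAbs < -((M : ℤ) - 2 * R)) := by
  rcases le_total 0 a.valMinAbs with h | h
  · left
    intro b hb
    have := valMinAbs_sub_of_lt a b (by omega)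
    omega
  · right
    intro b hb
    have := valMinAbs_sub_of_lt a b (by omega)
    omega

theorem natAbs_le_add {N : ℕ} (a b : ZMod N) :
    a.valMinAbs.natAbs ≤ (a - b).valMinAbs.natAbs + b.valMinAbs.natAbs := by
  simpa using natAbs_valMinAbs_tri a b 0

theorem three_cases {k N M R : ℕ} [NeZero N] (hN : 2 * (M + 2 * R) < N) (x : Vtx k N) :
    (∀ y, tdist x y ≤ R → (Kstd k N M x ↔ Kstd k N M y)) ∨ ∃ j,
      (∀ y, tdist x y ≤ R → (M : ℤ) - 2 * R < (y j).1.valMinAbs) ∨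
      (∀ y, tdist x y ≤ R → (y j).1.valMinAbs < -((M : ℤ) - 2 * R)) ∨
      (∀ y, tdist x y ≤ R → (M : ℤ) - 2 * R < (y j).2.valMinAbs) ∨
      (∀ y, tdist x y ≤ R → (y j).2.valMinAbs < -((M : ℤ) - 2 * R)) := by
  have hd : ∀ y, tdist x y ≤ R → ∀ j, ((x j).1 - (y j).1).valMinAbs.natAbs ≤ R ∧
      ((x j).2 - (y j).2).valMinAbs.natAbs ≤ R := fun y hy j => by
    have := tdist_le_iff.1 hy j
    unfold dist2 at this
    exact max_le_iff.1 this
  have hd' : ∀ y, tdist x y ≤ R → ∀ j, ((y j).1 - (x j).1).valMinAbs.natAbs ≤ R ∧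
      ((y j).2 - (x j).2).valMinAbs.natAbs ≤ R := fun y hy j => by
    have := tdist_le_iff.1 (tdist_comm x y ▸ hy) j
    unfold dist2 at this
    exact max_le_iff.1 this
  by_cases hin : ∀ j, (x j).1.valMinAbs.natAbs + R ≤ M ∧ (x j).2.valMinAbs.natAbs + R ≤ M
  · left
    intro y hy
    refine iff_of_true (fun j => ⟨by have := (hin j).1; omega, by have := (hin j).2; omega⟩)
      fun j => ?_
    have h1 := natAbs_le_add (y j).1 (x j).1
    have h2 := natAbs_le_add (y j).2 (x j).2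
    have h3 := hd' y hy j
    have h4 := hin j
    constructor <;> omega
  by_cases hout : ∃ j, M + R < (x j).1.valMinAbs.natAbs ∨ M + R < (x j).2.valMinAbs.natAbs
  · left
    obtain ⟨j, hj⟩ := hout
    intro y hy
    have h1 := natAbs_le_add (x j).1 (y j).1
    have h2 := natAbs_le_add (x j).2 (y j).2
    have h3 := hd y hy j
    refine iff_of_false (fun h => ?_) (fun h => ?_)
    · have := h j; unfold K2 at this; omega
    · have := h j; unfold K2 at this; omega
  right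
  push Not at hin hout
  obtain ⟨j, hj⟩ := hin
  refine ⟨j, ?_⟩
  by_cases h1 : (x j).1.valMinAbs.natAbs + R ≤ M
  · rcases one_cases hN (x j).2 (hj h1) (hout j).2 with h | h
    · exact Or.inr (Or.inr (Or.inl fun y hy => h _ (hd y hy j).2))
    · exact Or.inr (Or.inr (Or.inr fun y hy => h _ (hd y hy j).2))
  · rcases one_cases hN (x j).1 (by omega) (hout j).1 with h | h
    · exact Or.inl fun y hy => h _ (hd y hy j).1
    · exact Or.inr (Or.inl fun y hy => h _ (hd y hy j).1)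

open Classical in
/-- the coordinates used for the fine cuts. -/
noncomputable def fineCoord {k : ℕ} (φ : (Fin k → ℝ × ℝ) → Fin k → ℝ × ℝ) (y : Fin k → ℝ × ℝ) :
    Fin k → ℝ × ℝ := if ‖y‖ ≤ 6 / 10 then φ y else y

open Classical in
/-- the fine cuts. -/
noncomputable def fineCut {k : ℕ} {V : Type*} (s : V → Fin k → ℝ × ℝ) (j : Fin k) : Cut V :=
  (fun x => if 0 < (s x j).1 then 1 else 0, fun x => if 0 < (s x j).2 then I else -I)

theorem Cst₂.fst {X : Type*} {ρ : CRel X} {R : ℕ} {x : X} {q q' : Cut X} (h : Cst₂ ρ R x q q') :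
    Cst ρ R x q := by
  rcases h with h | h | h | h
  · exact Or.inl fun y hy => (h y hy).1
  · exact Or.inr (Or.inl fun y hy => (h y hy).1)
  · exact Or.inr (Or.inr (Or.inl fun y hy => (h y hy).1))
  · exact Or.inr (Or.inr (Or.inr fun y hy => (h y hy).1))

theorem smallStmt_double (k : ℕ) : SmallStmt.{u} (Fin k → ℝ × ℝ) := by
  set Rr : ℕ := 12 ^ k * 80 with hRr
  set Cg : ℝ := 20 * ((k * 2 : ℕ) + 1) with hCg
  have hCg1 : 1 ≤ Cg := by rw [hCg]; have : (0 : ℝ) ≤ (k * 2 : ℕ) := Nat.cast_nonneg _; linarith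
  have hRr1 : (1 : ℝ) ≤ Rr := by
    have : 1 ≤ Rr := by have := Nat.one_le_pow k 12 (by norm_num); omega
    exact_mod_cast this
  set ε : ℝ := 1 / (100 * Rr * (2 * Cg + 1)) with hε
  have hε0 : 0 < ε := by positivity
  have hεR : Rr * ((2 * Cg + 1) * ε) = 1 / 100 := by rw [hε]; field_simp
  have hεC : (2 * Cg + 1) * ε ≤ 1 / 100 := by
    rw [← hεR]; exact le_mul_of_one_le_left (by positivity) hRr1
  have hε1 : ε ≤ 1 / 100 := by nlinarith
  refine ⟨ε, hε0, fun H _ _ _ _ G a => ?_⟩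
  by_contra hne
  push Not at hne
  obtain ⟨O⟩ := exists_orbit G hε1 a hne
  set Rmax : ℕ := 5 ^ O.Nc * (12 ^ k * 24) with hRmax
  have hκ := O.κ_pos
  have hδ := O.δ_pos
  set b : ℝ := min (O.κ / (Rmax + 1)) (O.δ / (Rr + 1)) with hb
  have hb0 : 0 < b := lt_min (by positivity) (by positivity)
  have hbκ : Rmax * b ≤ O.κ := by
    have h1 : b ≤ O.κ / (Rmax + 1) := min_le_left _ _
    rw [le_div_iff₀ (by positivity)] at h1
    nlinarith
  have hbδ : Rr * b ≤ O.δ := by
    have h1 : b ≤ O.δ / (Rr + 1) := min_le_right _ _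
    rw [le_div_iff₀ (by positivity)] at h1
    nlinarith
  obtain ⟨η₀, hη₀, hops⟩ := exists_ops hε1 O (k * 2) hb0
  set η : ℝ := min η₀ ε with hη
  have hη0 : 0 < η := lt_min hη₀ hε0
  have hηε : η ≤ ε := min_le_right _ _
  set a' : ℕ := ⌈Cg * (ε + η) / η⌉₊ with ha'
  have ha1 : Cg * (ε + η) ≤ a' * η := by
    rw [← div_le_iff₀ hη0]; exact Nat.le_ceil _
  have ha2 : a' * η ≤ (2 * Cg + 1) * ε := by
    have h1 : (a' : ℝ) < Cg * (ε + η) / η + 1 := Nat.ceil_lt_add_one (by positivity)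
    have h2 : (a' : ℝ) * η ≤ (Cg * (ε + η) / η + 1) * η := mul_le_mul_of_nonneg_right h1.le hη0.le
    rw [add_mul, div_mul_cancel₀ _ hη0.ne'] at h2
    nlinarith
  have ha3 : (1 : ℝ) ≤ a' := by
    have : 1 * η ≤ a' * η := by nlinarith
    exact le_of_mul_le_mul_right this hη0
  have hR : ((Rr * a' : ℕ) : ℝ) * η ≤ 1 / 100 := by
    rw [← hεR]; push_cast
    rw [mul_assoc]
    exact mul_le_mul_of_nonneg_left ha2 (by positivity)
  have hRη : (Rr : ℝ) * η ≤ 1 / 100 := by
    refine le_trans ?_ hR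
    push_cast
    exact mul_le_mul_of_nonneg_right (le_mul_of_one_le_right (by positivity) ha3) hη0.le
  set N : ℕ := ⌈8 / η⌉₊ with hN
  have hN8 : 8 ≤ N * η := by rw [← div_le_iff₀ hη0]; exact Nat.le_ceil _
  have : NeZero N := ⟨by rintro h0; rw [h0] at hN8; norm_num at hN8⟩
  set M : ℕ := ⌊1 / (2 * η)⌋₊ with hM
  have hM1 : M * η ≤ 1 / 2 := by
    have : (M : ℝ) ≤ 1 / (2 * η) := Nat.floor_le (by positivity)
    rw [le_div_iff₀ (by positivity)] at this
    linarith
  have hM2 : 49 / 100 ≤ M * η := by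
    have : 1 / (2 * η) < (M : ℝ) + 1 := Nat.lt_floor_add_one _
    rw [div_lt_iff₀ (by positivity)] at this
    nlinarith
  have natle : ∀ {s t : ℕ}, (s : ℝ) * η < t * η → s < t := fun h => by
    exact_mod_cast lt_of_mul_lt_mul_right h hη0.le
  obtain ⟨g2, h2d, h2v, h2S, h2S'⟩ := exists_grid2 N a' (by
    apply Nat.le_of_lt; apply natle; push_cast; nlinarith)
  obtain ⟨g, hgd, hgv, hgS, hgS'⟩ := g2.exists_pow even_two k
  have hgd' : g.dist = tdist := by rw [hgd, h2d]; rfl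
  have hgv' : g.vtx = vtx := by rw [hgv, h2v]; rfl
  have hgS2 : g.S = SK k N := by rw [hgS, h2S]; rfl
  have hgS2' : g.S' = SK' k N := by rw [hgS', h2S']; rfl
  let P0 := torusPos k N hη0 (by linarith) hN8
  let P : Pos (Vtx k N) (Fin k → ℝ × ℝ) g.dist η :=
    { pos := posT η
      le := by rw [hgd']; exact P0.le
      ge := by rw [hgd']; exact P0.ge
      round := P0.round }
  obtain ⟨ops⟩ := hops η hη0 (min_le_left _ _) g P a' ha1 le_rfl (ha2.trans hεC)
  set ρ₀ := distRel g.dist g.dist_self g.dist_comm g.dist_tri a' with hρ₀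
  have hrel : ∀ x y r, ρ₀.rel x y r ↔ tdist x y ≤ r * a' := fun x y r => by
    rw [← hgd']; rfl
  set s : Vtx k N → Fin k → ℝ × ℝ := fun x => fineCoord O.φ (posT η x) with hs
  have hsclose : ∀ x, ‖s x - posT η x‖ ≤ ε := fun x => by
    simp only [hs, fineCoord]
    split_ifs with h
    · exact O.φ_close _ h
    · simpa using hε0.le
  set L2 : List (Cut (Vtx k N) × Cut (Vtx k N)) := List.ofFn fun j : Fin k =>
    (fineCut s j, (fun x => (cut2 N).1 (x j), fun x => (cut2 N).2 (x j))) with hL2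
  have hL2len : L2.length = k := by simp [hL2]
  have hsnd : L2.map Prod.snd = cutsStd k N := by rw [hL2, List.map_ofFn]; rfl
  have hsharp : ∀ q ∈ L2, ∀ x, (q.1.2 x = I ∨ q.1.2 x = -I) ∧ (q.2.2 x = I ∨ q.2.2 x = -I) := by
    intro q hq x
    obtain ⟨j, rfl⟩ := List.mem_ofFn.1 hq
    simp only [fineCut, cut2]
    constructor <;> split_ifs <;> simp
  have hpos : ∀ (m : ℤ) (t : ℝ), (M : ℤ) - 2 * (Rr * a' : ℕ) < m → |t - η * m| ≤ ε →
      0 < t ∧ 0 < m := fun m t h1 h2 => by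
    have h3 : (M : ℝ) - 2 * ((Rr * a' : ℕ) : ℝ) < m := by exact_mod_cast h1
    have h4 : ((M : ℝ) - 2 * ((Rr * a' : ℕ) : ℝ)) * η < m * η := mul_lt_mul_of_pos_right h3 hη0
    have h5 := (abs_le.1 h2).1
    refine ⟨by nlinarith, ?_⟩
    have : (0 : ℝ) * η < m * η := by nlinarith
    exact_mod_cast lt_of_mul_lt_mul_right this hη0.le
  have hneg : ∀ (m : ℤ) (t : ℝ), m < -((M : ℤ) - 2 * (Rr * a' : ℕ)) → |t - η * m| ≤ ε →
      ¬ 0 < t ∧ ¬ 0 < m := fun m t h1 h2 => by
    have := hpos (-m) (-t) (by omega) (by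
      rw [← abs_neg]; convert h2 using 2; push_cast; ring)
    constructor
    · linarith [this.1]
    · omega
  have adm : ∀ x, (∀ y, ρ₀.rel x y Rr → (Kstd k N M x ↔ Kstd k N M y)) ∨
      ∃ q ∈ L2, Cst₂ ρ₀ Rr x q.1 q.2 := by
    intro x
    rcases three_cases (M := M) (R := Rr * a') (by apply natle; push_cast at hR ⊢; nlinarith) x
      with h | ⟨j, h⟩
    · exact Or.inl fun y hy => h y ((hrel _ _ _).1 hy)
    refine Or.inr ⟨_, List.mem_ofFn.2 ⟨j, rfl⟩, ?_⟩
    have c1 : ∀ y, |(s y j).1 - η * (y j).1.valMinAbs| ≤ ε := fun y =>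
      (abs_fst_le (s y - posT η y) j).trans (hsclose y)
    have c2 : ∀ y, |(s y j).2 - η * (y j).2.valMinAbs| ≤ ε := fun y =>
      (abs_snd_le (s y - posT η y) j).trans (hsclose y)
    rcases h with h | h | h | h
    · refine Or.inr (Or.inl fun y hy => ?_)
      have := hpos _ _ (h y ((hrel _ _ _).1 hy)) (c1 y)
      simp [fineCut, cut2, this.1, this.2]
    · refine Or.inl fun y hy => ?_
      have := hneg _ _ (h y ((hrel _ _ _).1 hy)) (c1 y)
      simp only [fineCut, cut2, if_neg this.1, if_neg this.2, and_self]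
    · refine Or.inr (Or.inr (Or.inl fun y hy => ?_))
      have := hpos _ _ (h y ((hrel _ _ _).1 hy)) (c2 y)
      simp [fineCut, cut2, this.1, this.2]
    · refine Or.inr (Or.inr (Or.inr fun y hy => ?_))
      have := hneg _ _ (h y ((hrel _ _ _).1 hy)) (c2 y)
      simp only [fineCut, cut2, if_neg this.1, if_neg this.2, and_self]
  have geo : Geo ρ₀ (Kstd k N M) (L2.map Prod.fst) Rr :=
    { unit := fun q hq x => by
        obtain ⟨q', hq', rfl⟩ := List.mem_map.1 hq
        rcases (hsharp q' hq' x).1 with h | h <;> simp [h]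
      adm := fun x => (adm x).imp id fun ⟨q, hq, h⟩ =>
        ⟨q.1, List.mem_map.2 ⟨q, hq, rfl⟩, h.fst⟩ }
  have cov : ∀ x, Kstd k N M x →
      (∃ m, (O.toCover ρ₀ P.pos b hb0.le Rmax hbκ).U m x) ∨
        ∃ q ∈ L2.map Prod.fst, Cst (O.ctl ρ₀ P.pos b hb0.le).toCRel Rr x q := by
    intro x hx
    have hx2 : ‖posT η x‖ ≤ 1 / 2 := by
      rw [norm_le_iff_coord (by norm_num)]
      intro j
      have h1 : (((x j).1.valMinAbs.natAbs : ℕ) : ℝ) ≤ M := by exact_mod_cast (hx j).1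
      have h2 : (((x j).2.valMinAbs.natAbs : ℕ) : ℝ) ≤ M := by exact_mod_cast (hx j).2
      rw [natAbs_cast] at h1 h2
      simp only [posT, abs_mul, abs_of_pos hη0]
      constructor <;> nlinarith
    by_cases hφ : ‖O.φ (posT η x)‖ ≤ O.δ
    · exact Or.inl (O.cover _ (by linarith) hφ)
    right
    rw [norm_le_iff_coord hδ.le] at hφ
    push Not at hφ
    obtain ⟨j, hj⟩ := hφ
    refine ⟨fineCut s j, List.mem_map.2 ⟨_, List.mem_ofFn.2 ⟨j, rfl⟩, rfl⟩, ?_⟩
    have hy : ∀ y, (O.ctl ρ₀ P.pos b hb0.le).rel x y Rr → ‖O.φ (posT η x) - s y‖ ≤ O.δ := by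
      rintro y ⟨h1, h, h2⟩
      have h3 : ((tdist x y : ℕ) : ℝ) ≤ (Rr * a' : ℕ) := by exact_mod_cast (hrel _ _ _).1 h1
      have h4 : ((tdist x y : ℕ) : ℝ) * η ≤ 1 / 100 :=
        (mul_le_mul_of_nonneg_right h3 hη0.le).trans hR
      have h5 : ‖posT η x - posT η y‖ ≤ tdist x y * η := P0.le x y (hx2.trans (by norm_num)) (by linarith)
      have h6 : ‖posT η y‖ ≤ 6 / 10 := by
        have := norm_sub_norm_le (posT η y) (posT η x)
        rw [norm_sub_rev] at this
        linarith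
      simp only [hs, fineCoord, if_pos h6]
      exact ((O.φ_lip h _ _).trans h2).trans hbδ
    by_cases h1 : |(O.φ (posT η x) j).1| ≤ O.δ
    · have h2 := hj h1
      have h3 : ∀ y, (O.ctl ρ₀ P.pos b hb0.le).rel x y Rr →
          |(O.φ (posT η x) j).2 - (s y j).2| ≤ O.δ := fun y h =>
        (abs_snd_le (O.φ (posT η x) - s y) j).trans (hy y h)
      rcases lt_abs.1 h2 with h2 | h2
      · refine Or.inr (Or.inr (Or.inl fun y h => ?_))
        have h4 : 0 < (s y j).2 := by linarith [(abs_le.1 (h3 y h)).2]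
        simp only [fineCut, if_pos h4]
      · refine Or.inr (Or.inr (Or.inr fun y h => ?_))
        have h4 : ¬ 0 < (s y j).2 := by linarith [(abs_le.1 (h3 y h)).1]
        simp only [fineCut, if_neg h4]
    · push Not at h1
      have h3 : ∀ y, (O.ctl ρ₀ P.pos b hb0.le).rel x y Rr →
          |(O.φ (posT η x) j).1 - (s y j).1| ≤ O.δ := fun y h =>
        (abs_fst_le (O.φ (posT η x) - s y) j).trans (hy y h)
      rcases lt_abs.1 h1 with h2 | h2
      · refine Or.inr (Or.inl fun y h => ?_)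
        have h4 : 0 < (s y j).1 := by linarith [(abs_le.1 (h3 y h)).2]
        simp only [fineCut, if_pos h4]
      · refine Or.inl fun y h => ?_
        have h4 : ¬ 0 < (s y j).1 := by linarith [(abs_le.1 (h3 y h)).1]
        simp only [fineCut, if_neg h4]
  have hle : ∀ x y r, (O.ctl ρ₀ P.pos b hb0.le).rel x y r → ρ₀.rel x y r := fun x y r h => h.1
  have hzero := alg_core hle (O.toCover ρ₀ P.pos b hb0.le Rmax hbκ) ops g.dd g.hS
    g.anti geo cov (by rw [List.length_map, hL2len]) (by rw [List.length_map, hL2len])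
  have pS : (ρ₀.plain ℂ).M g.vtx g.vtx 1 g.S := by
    have := ops.cS.map_plain (R' := ℂ) hle (fun f => f 0) rfl
    rwa [show (cstM g.S).map (fun f => f 0) = g.S from evM_cstM 0 _] at this
  have pS' : (ρ₀.plain ℂ).M g.vtx g.vtx 1 g.S' := by
    have := ops.cS'.map_plain (R' := ℂ) hle (fun f => f 0) rfl
    rwa [show (cstM g.S').map (fun f => f 0) = g.S' from evM_cstM 0 _] at this
  rw [Ind_change L2 hsharp adm (r := 1) (by rw [hL2len]; omega) g.vtx g.hS pS pS', hsnd, hgv', hgS2,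
    hgS2', Ind_std k N M] at hzero
  · exact absurd hzero (by positivity)
  · apply Nat.le_of_lt; apply natle
    have : ((40 * 12 ^ k : ℕ) : ℝ) ≤ Rr := by rw [hRr]; exact_mod_cast (by omega)
    nlinarith
  · apply Nat.le_of_lt; apply natle
    have : ((80 * 12 ^ k : ℕ) : ℝ) ≤ Rr := by rw [hRr]; exact_mod_cast (by omega)
    rw [Nat.cast_add]
    push_cast at this ⊢
    nlinarith

end Crest.Agent.R217
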